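import Mathlib

open Filter Topology Module
open scoped InnerProductSpace

namespace Vale.Agent.P084

/-- If `t * α ≤ C * t ^ 2` for all `|t| ≤ 1` then `α = 0`. -/
theorem eq_zero_of_linear_le_sq {α C : ℝ} (h : ∀ t : ℝ, |t| ≤ 1 → t * α ≤ C * t ^ 2) : α = 0 := by
  by_contra hα
  have hpos : 0 < |α| := abs_pos.mpr hα
  set K : ℝ := |C| + |α| + 1 with hK
  have hKpos : 0 < K := by positivity
  have h1 := h (α / K) (by
    rw [abs_div, abs_of_pos hKpos, div_le_one hKpos]
    have : 0 ≤ |C| := abs_nonneg C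
    linarith)
  have h2 : α / K * α = (α ^ 2) / K := by ring
  have h3 : C * (α / K) ^ 2 ≤ |C| * (α ^ 2 / K ^ 2) := by
    rw [div_pow]
    exact mul_le_mul_of_nonneg_right (le_abs_self C) (by positivity)
  have h4 : (α ^ 2) / K ≤ |C| * (α ^ 2 / K ^ 2) := by linarith
  have h5 : |C| * (α ^ 2 / K ^ 2) = (|C| / K) * (α ^ 2 / K) := by
    field_simp
  have hα2 : 0 < α ^ 2 / K := by positivity
  have h6 : |C| / K < 1 := by
    rw [div_lt_one hKpos]
    linarith
  have h7 : (|C| / K) * (α ^ 2 / K) < 1 * (α ^ 2 / K) := mul_lt_mul_of_pos_right h6 hα2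
  linarith

theorem algebra_lemma_inner {V : Type*} [NormedAddCommGroup V] [InnerProductSpace ℝ V]
    [FiniteDimensional ℝ V]
    (m : V →ₗ[ℝ] V →ₗ[ℝ] V) (hms : ∀ u v, m u v = m v u)
    (hmB : ∀ u v w, ⟪m u v, w⟫_ℝ = ⟪u, m v w⟫_ℝ)
    (φ : V → V →ₗ[ℝ] ℝ) (hφ : ∀ u, u ≠ 0 → 0 < φ u u)
    (hφc : ∀ e v z, e ≠ 0 → Tendsto (fun t : ℝ => φ (e + t • v) z) (𝓝[≠] 0) (𝓝 (φ e z)))
    (hdim : 2 ≤ finrank ℝ V)
    (h : ∀ u s, u ≠ 0 → ⟪u, s⟫_ℝ = 0 → φ u (m u s) = 0) :
    ∀ u v, m u v = 0 := by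
  -- the cubic form
  set P : V → ℝ := fun v => ⟪m v v, v⟫_ℝ with hPdef
  have e1 : ∀ u v, ⟪m u v, u⟫_ℝ = ⟪m u u, v⟫_ℝ := by
    intro u v
    rw [hmB u v u, hms v u, ← hmB]
  have e2 : ∀ u v, ⟪m u v, v⟫_ℝ = ⟪m v v, u⟫_ℝ := by
    intro u v
    rw [hmB u v v, real_inner_comm]
  have hPexp : ∀ (u v : V) (t : ℝ), P (u + t • v)
      = P u + 3 * t * ⟪m u u, v⟫_ℝ + 3 * t ^ 2 * ⟪m v v, u⟫_ℝ + t ^ 3 * P v := by
    intro u v t
    simp only [hPdef, map_add, map_smul, LinearMap.add_apply, LinearMap.smul_apply,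
      inner_add_left, inner_add_right, inner_smul_left, inner_smul_right,
      RCLike.conj_to_real]
    rw [hms v u, e1 u v, e2 u v]
    ring
  have hPsmul : ∀ (c : ℝ) (v : V), P (c • v) = c ^ 3 * P v := by
    intro c v
    simp only [hPdef, map_smul, LinearMap.smul_apply, inner_smul_left, inner_smul_right,
      RCLike.conj_to_real]
    ring
  have hPcont : Continuous P := by
    have hm1 : Continuous fun v : V => m v v := by
      have hmc : Continuous (fun p : V × V => m p.1 p.2) := by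
        let m' : V →L[ℝ] V →L[ℝ] V :=
          LinearMap.toContinuousLinearMap
            ((LinearMap.toContinuousLinearMap : (V →ₗ[ℝ] V) ≃ₗ[ℝ] (V →L[ℝ] V)).toLinearMap ∘ₗ m)
        have : (fun p : V × V => m p.1 p.2) = fun p => m' p.1 p.2 := by
          ext p; rfl
        rw [this]
        fun_prop
      exact hmc.comp (continuous_id.prodMk continuous_id)
    exact hm1.inner continuous_id
  by_contra hne
  push Not at hne
  obtain ⟨u0, v0, huv0⟩ := hne
  have : Nontrivial V := ⟨⟨m u0 v0, 0, huv0⟩⟩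
  -- maximiser on the unit sphere
  have hcomp : IsCompact (Metric.sphere (0 : V) 1) := isCompact_sphere 0 1
  have hnon : (Metric.sphere (0 : V) 1).Nonempty := NormedSpace.sphere_nonempty.mpr zero_le_one
  obtain ⟨e, he, hemax⟩ := hcomp.exists_isMaxOn hnon hPcont.continuousOn
  have hen : ‖e‖ = 1 := by simpa using he
  have hee : ⟪e, e⟫_ℝ = 1 := by rw [real_inner_self_eq_norm_sq, hen]; norm_num
  have he0 : e ≠ 0 := by
    intro h0; rw [h0, norm_zero] at hen; exact zero_ne_one hen
  set lam : ℝ := P e with hlam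
  have hPle : ∀ v : V, P v ≤ lam * ‖v‖ ^ 3 := by
    intro v
    by_cases hv : v = 0
    · subst hv; simp [hPdef]
    · have hvn : 0 < ‖v‖ := norm_pos_iff.mpr hv
      have h1 : (‖v‖⁻¹ • v) ∈ Metric.sphere (0 : V) 1 := by
        simp [norm_smul, hvn.ne']
      have h2 := hemax h1
      simp only [Set.mem_ofPred_eq, hPsmul] at h2
      have h3 : P v = ‖v‖ ^ 3 * ((‖v‖⁻¹) ^ 3 * P v) := by field_simp
      rw [h3, mul_comm lam]
      exact mul_le_mul_of_nonneg_left h2 (by positivity)
  have hlampos : 0 < lam := by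
    by_contra hl
    push Not at hl
    have hP0 : ∀ v, P v = 0 := by
      intro v
      have h1 : P v ≤ 0 := (hPle v).trans (mul_nonpos_of_nonpos_of_nonneg hl (by positivity))
      have h2 : P (-v) ≤ 0 := (hPle (-v)).trans (mul_nonpos_of_nonpos_of_nonneg hl (by positivity))
      have h3 : P (-v) = - P v := by
        have := hPsmul (-1) v
        simp only [neg_smul, one_smul] at this
        rw [this]; ring
      linarith
    have hq : ∀ u v, ⟪m v v, u⟫_ℝ = 0 := by
      intro u v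
      have h1 := hPexp u v 1
      have h2 := hPexp u v (-1)
      simp only [hP0] at h1 h2
      linarith
    have hvv : ∀ v, m v v = 0 := fun v => inner_self_eq_zero.mp (hq (m v v) v)
    have := hvv (u0 + v0)
    simp only [map_add, LinearMap.add_apply, hvv, hms v0 u0] at this
    simp only [zero_add, add_zero] at this
    have h2 : (2 : ℝ) • m u0 v0 = 0 := by rw [two_smul]; exact this
    exact huv0 ((smul_eq_zero.mp h2).resolve_left two_ne_zero)
  -- `e` is an eigenvector
  have hmee_perp : ∀ v, ⟪e, v⟫_ℝ = 0 → ‖v‖ = 1 → ⟪m e e, v⟫_ℝ = 0 := by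
    intro v hev hv1
    set β := ⟪m v v, e⟫_ℝ
    have hkey : ∀ t : ℝ, |t| ≤ 1 → t * (3 * ⟪m e e, v⟫_ℝ) ≤ (3 * |β| + |P v| + 3 * lam) * t ^ 2 := by
      intro t ht
      have ht2 : t ^ 2 ≤ 1 := by
        rw [← sq_abs]; exact pow_le_one₀ (abs_nonneg t) ht
      have h1 := hPle (e + t • v)
      rw [hPexp] at h1
      have hn2 : ‖e + t • v‖ ^ 2 = 1 + t ^ 2 := by
        rw [← real_inner_self_eq_norm_sq]
        simp only [inner_add_left, inner_add_right, inner_smul_left, inner_smul_right,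
          RCLike.conj_to_real, hee, hev, real_inner_comm, real_inner_self_eq_norm_sq, hv1]
        have : ⟪v, e⟫_ℝ = 0 := by rw [real_inner_comm]; exact hev
        ring
      have hn0 : 0 ≤ ‖e + t • v‖ := norm_nonneg _
      have hn1 : 1 ≤ ‖e + t • v‖ := by nlinarith [sq_nonneg t]
      have hn3 : ‖e + t • v‖ ^ 3 ≤ 1 + 3 * t ^ 2 := by
        calc ‖e + t • v‖ ^ 3 ≤ ‖e + t • v‖ ^ 4 := pow_le_pow_right₀ hn1 (by norm_num)
          _ = (‖e + t • v‖ ^ 2) ^ 2 := by ring
          _ = (1 + t ^ 2) ^ 2 := by rw [hn2]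
          _ ≤ 1 + 3 * t ^ 2 := by nlinarith [sq_nonneg t]
      have h2 : lam * ‖e + t • v‖ ^ 3 ≤ lam * (1 + 3 * t ^ 2) :=
        mul_le_mul_of_nonneg_left hn3 hlampos.le
      have h3 : -(3 * t ^ 2 * β) ≤ 3 * |β| * t ^ 2 := by
        nlinarith [neg_abs_le β, sq_nonneg t]
      have h4 : -(t ^ 3 * P v) ≤ |P v| * t ^ 2 := by
        have : |t ^ 3 * P v| ≤ |P v| * t ^ 2 := by
          rw [abs_mul, abs_pow, mul_comm]
          apply mul_le_mul_of_nonneg_left _ (abs_nonneg _)
          calc |t| ^ 3 = |t| * |t| ^ 2 := by ring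
            _ ≤ 1 * |t| ^ 2 := mul_le_mul_of_nonneg_right ht (by positivity)
            _ = t ^ 2 := by rw [one_mul, sq_abs]
        linarith [neg_abs_le (t ^ 3 * P v)]
      have h5 : P e + 3 * t * ⟪m e e, v⟫_ℝ + 3 * t ^ 2 * β + t ^ 3 * P v
          ≤ lam * (1 + 3 * t ^ 2) := h1.trans h2
      rw [← hlam] at h5
      nlinarith
    have := eq_zero_of_linear_le_sq hkey
    linarith
  have hmee : m e e = lam • e := by
    have hperp : ∀ v, ⟪e, v⟫_ℝ = 0 → ⟪m e e, v⟫_ℝ = 0 := by
      intro v hv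
      by_cases hv0 : v = 0
      · simp [hv0]
      · have hvn : 0 < ‖v‖ := norm_pos_iff.mpr hv0
        have h1 := hmee_perp (‖v‖⁻¹ • v) (by rw [inner_smul_right, hv, mul_zero])
          (by simp [norm_smul, hvn.ne'])
        rw [inner_smul_right] at h1
        exact (mul_eq_zero.mp h1).resolve_left (inv_ne_zero hvn.ne')
    have h1 : ⟪e, m e e - lam • e⟫_ℝ = 0 := by
      rw [inner_sub_right, inner_smul_right, hee, real_inner_comm]
      simp only [hlam, hPdef]
      ring
    have h2 := hperp _ h1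
    have h3 : ⟪m e e - lam • e, m e e - lam • e⟫_ℝ = 0 := by
      rw [inner_sub_left, inner_smul_left, h1, h2]; simp
    exact sub_eq_zero.mp (inner_self_eq_zero.mp h3)
  -- the eigenvector principle
  have hprinc : ∀ a v : V, ∀ μ : ℝ, v ≠ 0 → ⟪a, v⟫_ℝ = 0 → m a v = μ • v → μ = 0 := by
    intro a v μ hv hav hm
    have h1 := h v a hv (by rw [real_inner_comm]; exact hav)
    rw [hms v a, hm, map_smul, smul_eq_mul] at h1
    exact (mul_eq_zero.mp h1).resolve_right (hφ v hv).ne'
  -- `m e` vanishes on the orthogonal complement of `e`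
  have hmev : ∀ v, ⟪e, v⟫_ℝ = 0 → m e v = 0 := by
    set W : Submodule ℝ V := (Submodule.span ℝ {e})ᗮ with hW
    have hWmem : ∀ v, v ∈ W ↔ ⟪e, v⟫_ℝ = 0 := fun v => Submodule.mem_orthogonal_singleton_iff_inner_right
    have hinv : ∀ v ∈ W, m e v ∈ W := by
      intro v hv
      rw [hWmem] at hv ⊢
      rw [real_inner_comm, e1, hmee, inner_smul_left, hv, mul_zero]
    set Q : W →ₗ[ℝ] W := (m e).restrict hinv with hQ
    have hQsym : Q.IsSymmetric := by
      intro x y
      rw [Submodule.coe_inner, Submodule.coe_inner]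
      simp only [hQ, LinearMap.coe_restrict_apply]
      rw [hms e x, hmB, hms e y, hms y e]
    have hn : finrank ℝ W = finrank ℝ W := rfl
    have hQ0 : Q = 0 := by
      apply (hQsym.eigenvectorBasis hn).toBasis.ext
      intro i
      rw [OrthonormalBasis.coe_toBasis, hQsym.apply_eigenvectorBasis hn i, LinearMap.zero_apply]
      have hb0 : (hQsym.eigenvectorBasis hn i) ≠ 0 := by
        have := (hQsym.eigenvectorBasis hn).orthonormal.ne_zero i
        exact this
      have h1 : m e (hQsym.eigenvectorBasis hn i : V)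
          = (hQsym.eigenvalues hn i) • (hQsym.eigenvectorBasis hn i : V) := by
        have h0 := hQsym.apply_eigenvectorBasis hn i
        have h00 : ((Q (hQsym.eigenvectorBasis hn i) : W) : V)
            = m e (hQsym.eigenvectorBasis hn i : V) := rfl
        rw [← h00, h0]; simp
      have h2 : hQsym.eigenvalues hn i = 0 := by
        refine hprinc e (hQsym.eigenvectorBasis hn i : V) _ ?_ ?_ h1
        · simpa using hb0
        · exact (hWmem _).mp (hQsym.eigenvectorBasis hn i).2
      rw [h2]; simp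
    intro v hv
    have h1 : (Q ⟨v, (hWmem v).mpr hv⟩ : V) = 0 := by rw [hQ0]; simp
    simpa [hQ] using h1
  -- the limiting relation
  have hlim : ∀ v, ⟪e, v⟫_ℝ = 0 → ‖v‖ = 1 → φ e (m v v) = lam * φ e e := by
    intro v hev hv1
    have hve : ⟪v, e⟫_ℝ = 0 := by rw [real_inner_comm]; exact hev
    have hvv : ⟪v, v⟫_ℝ = 1 := by rw [real_inner_self_eq_norm_sq, hv1]; norm_num
    have h1 : ∀ t : ℝ, t ≠ 0 → φ (e + t • v) (m v v - lam • e) = 0 := by
      intro t ht
      have hu : e + t • v ≠ 0 := by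
        intro h0
        have : ⟪e + t • v, e⟫_ℝ = 0 := by rw [h0, inner_zero_left]
        rw [inner_add_left, inner_smul_left, hee, hve] at this
        simp at this
      have hs : ⟪e + t • v, v - t • e⟫_ℝ = 0 := by
        simp only [inner_add_left, inner_sub_right, inner_smul_left, inner_smul_right,
          RCLike.conj_to_real, hee, hev, hve, hvv]
        ring
      have h2 := h _ _ hu hs
      have h3 : m (e + t • v) (v - t • e) = t • (m v v - lam • e) := by
        simp only [map_add, map_sub, map_smul, LinearMap.add_apply, LinearMap.smul_apply,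
          hmev v hev, hms v e, hmee]
        module
      rw [h3, map_smul, smul_eq_mul] at h2
      exact (mul_eq_zero.mp h2).resolve_left ht
    have h2 := hφc e v (m v v - lam • e) he0
    have h3 : Tendsto (fun t : ℝ => φ (e + t • v) (m v v - lam • e)) (𝓝[≠] 0) (𝓝 0) := by
      refine tendsto_const_nhds.congr' ?_
      filter_upwards [self_mem_nhdsWithin] with t ht
      exact (h1 t ht).symm
    have h4 := tendsto_nhds_unique h2 h3
    rw [map_sub, map_smul, smul_eq_mul] at h4
    linarith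
  have hlim2 : ∀ v, ⟪e, v⟫_ℝ = 0 → φ e (m v v) = lam * φ e e * ⟪v, v⟫_ℝ := by
    intro v hev
    by_cases hv0 : v = 0
    · simp [hv0]
    · have hvn : 0 < ‖v‖ := norm_pos_iff.mpr hv0
      have h1 := hlim (‖v‖⁻¹ • v) (by rw [inner_smul_right, hev, mul_zero])
        (by simp [norm_smul, hvn.ne'])
      simp only [map_smul, LinearMap.smul_apply, smul_eq_mul] at h1
      rw [real_inner_self_eq_norm_sq]
      have h2 : φ e (m v v) = ‖v‖ ^ 2 * (‖v‖⁻¹ * (‖v‖⁻¹ * φ e (m v v))) := by
        field_simp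
      rw [h2, h1]; ring
  set μ : ℝ := lam * φ e e with hμ
  have hμpos : 0 < μ := mul_pos hlampos (hφ e he0)
  have hquad : ∀ a, φ e (m a a) = μ * ⟪a, a⟫_ℝ := by
    intro a
    set α := ⟪e, a⟫_ℝ with hα
    set v := a - α • e with hv
    have hev : ⟪e, v⟫_ℝ = 0 := by
      rw [hv, inner_sub_right, inner_smul_right, hee, ← hα]; ring
    have ha : a = α • e + v := by rw [hv]; abel
    have hve : ⟪v, e⟫_ℝ = 0 := by rw [real_inner_comm]; exact hev
    rw [ha]
    simp only [map_add, map_smul, LinearMap.add_apply, LinearMap.smul_apply, hms v e,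
      hmev v hev, hmee, smul_eq_mul, smul_zero, add_zero, map_zero, mul_zero, zero_add,
      inner_add_left, inner_add_right, inner_smul_left, inner_smul_right, RCLike.conj_to_real,
      hee, hev, hve, hlim2 v hev]
    rw [hμ]; ring
  -- the representer of `φ e`
  set ψ : V := (InnerProductSpace.toDual ℝ V).symm (LinearMap.toContinuousLinearMap (φ e)) with hψ
  have hψa : ∀ x, ⟪ψ, x⟫_ℝ = φ e x := by
    intro x
    rw [hψ, InnerProductSpace.toDual_symm_apply]; rfl
  have hbil : ∀ a b, φ e (m a b) = μ * ⟪a, b⟫_ℝ := by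
    intro a b
    have h1 := hquad (a + b)
    have h2 : ⟪b, a⟫_ℝ = ⟪a, b⟫_ℝ := real_inner_comm _ _
    simp only [map_add, LinearMap.add_apply, inner_add_left, inner_add_right, hms b a,
      hquad a, hquad b, h2] at h1
    linarith
  have hψm : ∀ a, m ψ a = μ • a := by
    intro a
    have h1 : ∀ b, ⟪m ψ a - μ • a, b⟫_ℝ = 0 := by
      intro b
      rw [inner_sub_left, hmB, hψa, hbil, inner_smul_left]
      simp
    exact sub_eq_zero.mp (inner_self_eq_zero.mp (h1 _))
  -- choose `a ⟂ ψ`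
  have hexa : ∃ a : V, a ≠ 0 ∧ ⟪ψ, a⟫_ℝ = 0 := by
    by_contra hno
    push Not at hno
    have hbot : (Submodule.span ℝ {ψ})ᗮ = ⊥ := by
      rw [Submodule.eq_bot_iff]
      intro x hx
      by_contra hx0
      exact hno x hx0 (Submodule.mem_orthogonal_singleton_iff_inner_right.mp hx)
    have h1 := Submodule.finrank_add_finrank_orthogonal (Submodule.span ℝ {ψ})
    rw [hbot, finrank_bot] at h1
    have h2 : finrank ℝ (Submodule.span ℝ {ψ}) ≤ 1 := by
      have := finrank_span_le_card (R := ℝ) ({ψ} : Set V)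
      simpa using this
    omega
  obtain ⟨a, ha0, haψ⟩ := hexa
  exact hμpos.ne' (hprinc ψ a μ ha0 haψ (hψm a))

theorem algebra_lemma {V : Type*} [AddCommGroup V] [Module ℝ V] [FiniteDimensional ℝ V]
    (B : V →ₗ[ℝ] V →ₗ[ℝ] ℝ) (hBs : ∀ u v, B u v = B v u) (hBp : ∀ v, v ≠ 0 → 0 < B v v)
    (m : V →ₗ[ℝ] V →ₗ[ℝ] V) (hms : ∀ u v, m u v = m v u)
    (hmB : ∀ u v w, B (m u v) w = B u (m v w))
    (φ : V → V →ₗ[ℝ] ℝ) (hφ : ∀ u, u ≠ 0 → 0 < φ u u)
    (hφc : ∀ e v z, e ≠ 0 → Tendsto (fun t : ℝ => φ (e + t • v) z) (𝓝[≠] 0) (𝓝 (φ e z)))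
    (hdim : 2 ≤ finrank ℝ V)
    (h : ∀ u s, u ≠ 0 → B u s = 0 → φ u (m u s) = 0) :
    ∀ u v, m u v = 0 := by
  let core : InnerProductSpace.Core ℝ V :=
    { inner := fun u v => B u v
      conj_inner_symm := fun x y => by simp [hBs x y]
      re_inner_nonneg := fun x => by
        by_cases hx : x = 0
        · simp [hx]
        · simpa using (hBp x hx).le
      add_left := fun x y z => by simp
      smul_left := fun x y r => by simp
      definite := fun x hx => by
        by_contra hne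
        exact (hBp x hne).ne' hx }
  letI : NormedAddCommGroup V := core.toNormedAddCommGroup
  letI : InnerProductSpace ℝ V := InnerProductSpace.ofCore core.toCore
  exact algebra_lemma_inner m hms hmB φ hφ hφc hdim h

end Vale.Agent.P084
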