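import Mathlib

open Filter Topology Module

namespace Vale.Agent.P084

/-- the derivative of the norm -/
noncomputable def dN {E : Type*} [NormedAddCommGroup E] [NormedSpace ℝ E] (x : E) : E →L[ℝ] ℝ :=
  fderiv ℝ (fun z : E => ‖z‖) x

section dN

variable {E : Type*} [NormedAddCommGroup E] [NormedSpace ℝ E]

theorem dN_smul_pos {t : ℝ} (ht : 0 < t) (x : E) : dN (t • x) = dN x := fderiv_norm_smul_pos ht

theorem dN_smul_neg {t : ℝ} (ht : t < 0) (x : E) : dN (t • x) = -dN x := fderiv_norm_smul_neg ht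

theorem dN_neg (x : E) : dN (-x) = -dN x := by
  have := dN_smul_neg (show (-1 : ℝ) < 0 by norm_num) x
  simpa using this

theorem dN_self {x : E} (h : DifferentiableAt ℝ (fun z : E => ‖z‖) x) : dN x x = ‖x‖ :=
  h.fderiv_norm_self

theorem dN_le (x h : E) : dN x h ≤ ‖h‖ := by
  have h1 : ‖dN x‖ ≤ 1 := by
    have := norm_fderiv_le_of_lipschitz ℝ (x₀ := x) (lipschitzWith_one_norm (E := E))
    rw [NNReal.coe_one] at this
    exact this
  calc dN x h ≤ ‖dN x h‖ := Real.le_norm_self _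
    _ ≤ ‖dN x‖ * ‖h‖ := (dN x).le_opNorm h
    _ ≤ 1 * ‖h‖ := mul_le_mul_of_nonneg_right h1 (norm_nonneg _)
    _ = ‖h‖ := one_mul _

theorem hasFDerivAt_norm {x : E} (h : DifferentiableAt ℝ (fun z : E => ‖z‖) x) :
    HasFDerivAt (fun z : E => ‖z‖) (dN x) x := h.hasFDerivAt

end dN

variable {X Y : Type*} [NormedAddCommGroup X] [NormedSpace ℝ X] [NormedAddCommGroup Y]
  [NormedSpace ℝ Y]

/-- A homogeneous map which is isometric on every sphere centred at the origin. -/
structure SphereIso (T : X → Y) : Prop where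
  smul : ∀ (c : ℝ) (x : X), T (c • x) = c • T x
  dist : ∀ a b : X, ‖a‖ = ‖b‖ → ‖T a - T b‖ = ‖a - b‖

namespace SphereIso

variable {T : X → Y}

theorem map_zero (hT : SphereIso T) : T 0 = 0 := by
  have := hT.smul 0 0
  simpa using this

theorem map_neg (hT : SphereIso T) (x : X) : T (-x) = -T x := by
  have := hT.smul (-1) x
  simpa using this

theorem norm_map (hT : SphereIso T) (x : X) : ‖T x‖ = ‖x‖ := by
  have h1 := hT.dist x (-x) (by simp)
  rw [hT.map_neg, sub_neg_eq_add, sub_neg_eq_add, ← two_smul ℝ, ← two_smul ℝ, norm_smul,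
    norm_smul] at h1
  simpa using h1

theorem map_ne_zero (hT : SphereIso T) {x : X} (hx : x ≠ 0) : T x ≠ 0 := by
  rw [← norm_ne_zero_iff, hT.norm_map, norm_ne_zero_iff]; exact hx

theorem dist_gen (hT : SphereIso T) (a b : X) :
    ‖‖b‖ • T a - ‖a‖ • T b‖ = ‖‖b‖ • a - ‖a‖ • b‖ := by
  rw [← hT.smul, ← hT.smul]
  apply hT.dist
  rw [norm_smul, norm_smul, norm_norm, norm_norm, mul_comm]

theorem norm_add (hT : SphereIso T) (a b : X) (hab : ‖a‖ = ‖b‖) : ‖T a + T b‖ = ‖a + b‖ := by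
  have h := hT.dist a (-b) (by simpa using hab)
  rw [hT.map_neg] at h
  simpa [sub_neg_eq_add] using h

/-- the basic first order identity -/
theorem first_order (hT : SphereIso T) {a b h : X} (hb : b ≠ 0)
    (hna : DifferentiableAt ℝ (fun z : X => ‖z‖) a)
    (hnw : DifferentiableAt ℝ (fun z : X => ‖z‖) (‖b‖ • a - ‖a‖ • b))
    (hnw' : DifferentiableAt ℝ (fun z : Y => ‖z‖) (‖b‖ • T a - ‖a‖ • T b))
    (hTa : DifferentiableAt ℝ T a) (hh : dN a h = 0) :
    dN (‖b‖ • T a - ‖a‖ • T b) (fderiv ℝ T a h) = dN (‖b‖ • a - ‖a‖ • b) h := by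
  have hA : HasFDerivAt (fun z : X => ‖b‖ • T z - ‖z‖ • T b)
      (‖b‖ • fderiv ℝ T a - (dN a).smulRight (T b)) a :=
    (hTa.hasFDerivAt.const_smul ‖b‖).sub ((hasFDerivAt_norm hna).smul_const (T b))
  have hB : HasFDerivAt (fun z : X => ‖b‖ • z - ‖z‖ • b)
      (‖b‖ • ContinuousLinearMap.id ℝ X - (dN a).smulRight b) a :=
    ((hasFDerivAt_id a).const_smul ‖b‖).sub ((hasFDerivAt_norm hna).smul_const b)
  have hA' := (hasFDerivAt_norm hnw').comp a hA
  have hB' := (hasFDerivAt_norm hnw).comp a hB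
  have heq : ((fun z : Y => ‖z‖) ∘ fun z : X => ‖b‖ • T z - ‖z‖ • T b)
      = ((fun z : X => ‖z‖) ∘ fun z : X => ‖b‖ • z - ‖z‖ • b) := by
    funext z
    exact hT.dist_gen z b
  rw [heq] at hA'
  have h1 := congrArg (fun L : X →L[ℝ] ℝ => L h) (hA'.unique hB')
  simp only [ContinuousLinearMap.comp_apply, _root_.sub_apply,
    _root_.smul_apply, ContinuousLinearMap.smulRight_apply, hh, zero_smul, sub_zero,
    map_smul, smul_eq_mul, ContinuousLinearMap.id_apply] at h1
  exact mul_left_cancel₀ (norm_ne_zero_iff.mpr hb) h1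

end SphereIso

end Vale.Agent.P084
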