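import Mathlib
import Vale.Agent.Lib.P084.SphereIso

open Filter Topology Module Metric MeasureTheory Measure

namespace Vale.Agent.P084

/-- The (homogenised) difference of two vectors. -/
noncomputable def Wv {E : Type*} [NormedAddCommGroup E] [NormedSpace ℝ E] (a b : E) : E :=
  ‖b‖ • a - ‖a‖ • b

section basic

variable {E : Type*} [NormedAddCommGroup E] [NormedSpace ℝ E]

theorem Wv_def (a b : E) : Wv a b = ‖b‖ • a - ‖a‖ • b := rfl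

theorem continuous_Wv : Continuous (fun p : E × E => Wv p.1 p.2) := by
  unfold Wv; fun_prop

theorem continuous_Wv_right (a : E) : Continuous (fun b : E => Wv a b) := by
  unfold Wv; fun_prop

theorem Wv_neg_self (a : E) : Wv a (-a) = (2 * ‖a‖) • a := by
  rw [Wv_def, norm_neg, smul_neg, sub_neg_eq_add, ← two_smul ℝ, smul_smul]

theorem Wv_zero_right (a : E) : Wv a 0 = 0 := by simp [Wv_def]

theorem Wv_zero_left (a : E) : Wv 0 a = 0 := by simp [Wv_def]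

theorem ne_zero_of_Wv_ne {a b : E} (h : Wv a b ≠ 0) : a ≠ 0 ∧ b ≠ 0 := by
  constructor
  · rintro rfl; exact h (Wv_zero_left b)
  · rintro rfl; exact h (Wv_zero_right a)

/-- strictness in the triangle inequality -/
theorem norm_add_smul_lt [StrictConvexSpace ℝ E] {a b : E} (h : Wv a b ≠ 0) {s : ℝ} (hs : 0 < s) :
    ‖b + s • a‖ < ‖b‖ + s * ‖a‖ := by
  obtain ⟨ha, hb⟩ := ne_zero_of_Wv_ne h
  have h1 : ‖b + s • a‖ ≤ ‖b‖ + s * ‖a‖ := by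
    have := norm_add_le b (s • a)
    rwa [norm_smul, Real.norm_of_nonneg hs.le] at this
  refine lt_of_le_of_ne h1 fun heq => h ?_
  have h2 : ‖b + s • a‖ = ‖b‖ + ‖s • a‖ := by
    rw [heq, norm_smul, Real.norm_of_nonneg hs.le]
  have h3 : SameRay ℝ b (s • a) := sameRay_iff_norm_add.mpr h2
  have h4 := h3.norm_smul_eq
  rw [norm_smul, Real.norm_of_nonneg hs.le, smul_smul, mul_comm ‖b‖ s, mul_smul, mul_smul] at h4
  have h5 : s • (‖a‖ • b - ‖b‖ • a) = 0 := by rw [smul_sub, h4, sub_self]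
  have h6 := (smul_eq_zero.mp h5).resolve_left hs.ne'
  rw [Wv_def, ← neg_sub, h6, neg_zero]

/-- support functionals are strict off the ray -/
theorem support_lt [StrictConvexSpace ℝ E] {a b : E} (h : Wv a b ≠ 0) {ψ : E →L[ℝ] ℝ}
    (hψ : ∀ v, ψ v ≤ ‖v‖) (hψa : ψ a = ‖a‖) : ψ b < ‖b‖ := by
  refine lt_of_le_of_ne (hψ b) fun heq => ?_
  have h1 := norm_add_smul_lt h one_pos
  have h2 := hψ (b + (1 : ℝ) • a)
  rw [map_add, map_smul, heq, hψa, smul_eq_mul] at h2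
  linarith

theorem Wv_sub_Wv (a b b' : E) : Wv a b - Wv a b' = (‖b‖ - ‖b'‖) • a - ‖a‖ • (b - b') := by
  simp only [Wv_def]; module

/-- The map `b ↦ Wv a b` is locally bi-Lipschitz, uniformly in `a`. -/
theorem exists_antilip [StrictConvexSpace ℝ E] {a₀ b₀ : E} (h : Wv a₀ b₀ ≠ 0) :
    ∃ r > 0, ∃ K > 0, ∀ a ∈ ball a₀ r, ∀ b ∈ ball b₀ r, ∀ b' ∈ ball b₀ r,
      ‖b - b'‖ ≤ K * ‖Wv a b - Wv a b'‖ := by
  obtain ⟨ha0, hb0⟩ := ne_zero_of_Wv_ne h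
  have hna : 0 < ‖a₀‖ := norm_pos_iff.mpr ha0
  set γ : ℝ := (‖b₀‖ + 1 * ‖a₀‖ - ‖b₀ + (1 : ℝ) • a₀‖) / 2 with hγ
  have hγpos : 0 < γ := by
    have := norm_add_smul_lt h one_pos
    rw [hγ]; linarith
  have hev1 : ∀ᶠ p : E × E in 𝓝 (a₀, b₀), ‖p.2 + (1 : ℝ) • p.1‖ - ‖p.2‖ - 1 * ‖p.1‖ < -γ := by
    have hc : Continuous (fun p : E × E => ‖p.2 + (1 : ℝ) • p.1‖ - ‖p.2‖ - 1 * ‖p.1‖) := by fun_prop
    apply hc.continuousAt.eventually_lt continuousAt_const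
    simp only [hγ]
    have : 0 < (‖b₀‖ + 1 * ‖a₀‖ - ‖b₀ + (1 : ℝ) • a₀‖) / 2 := hγpos
    linarith
  have hev2 : ∀ᶠ p : E × E in 𝓝 (a₀, b₀), ‖a₀‖ / 2 < ‖p.1‖ ∧ ‖p.1‖ < 2 * ‖a₀‖ := by
    have hc : Continuous (fun p : E × E => ‖p.1‖) := by fun_prop
    exact (continuousAt_const.eventually_lt hc.continuousAt
      (show ‖a₀‖ / 2 < ‖a₀‖ by linarith)).and
      (hc.continuousAt.eventually_lt continuousAt_const (show ‖a₀‖ < 2 * ‖a₀‖ by linarith))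
  obtain ⟨r, hr, hball⟩ := Metric.eventually_nhds_iff_ball.mp (hev1.and hev2)
  set r' : ℝ := min r (‖a₀‖ / 4) with hr'
  have hr'pos : 0 < r' := lt_min hr (by positivity)
  refine ⟨r', hr'pos, 2 / γ * ‖a₀‖ * (2 / ‖a₀‖) + 2 / ‖a₀‖, by positivity, ?_⟩
  have key : ∀ a ∈ ball a₀ r', ∀ b ∈ ball b₀ r', ∀ b' ∈ ball b₀ r', ‖b'‖ ≤ ‖b‖ →
      ‖b - b'‖ ≤ (2 / γ * ‖a₀‖ * (2 / ‖a₀‖) + 2 / ‖a₀‖) * ‖Wv a b - Wv a b'‖ := by
    intro a ha b hb b' hb' hle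
    have hmem : ((a, b') : E × E) ∈ ball (a₀, b₀) r := by
      rw [mem_ball, Prod.dist_eq]
      exact max_lt (lt_of_lt_of_le ha (min_le_left _ _)) (lt_of_lt_of_le hb' (min_le_left _ _))
    obtain ⟨h1, h2, h3⟩ := hball _ hmem
    simp only at h1 h2 h3
    set D : E := Wv a b - Wv a b' with hD
    have hna' : 0 < ‖a‖ := by linarith
    set s : ℝ := (‖b‖ - ‖b'‖) / ‖a‖ with hs
    have hs0 : 0 ≤ s := div_nonneg (by linarith) hna'.le
    have hsa : s * ‖a‖ = ‖b‖ - ‖b'‖ := by rw [hs]; field_simp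
    have hs1 : s ≤ 1 := by
      rw [hs, div_le_one hna']
      have e1 : ‖b‖ - ‖b'‖ ≤ ‖b - b'‖ := norm_sub_norm_le b b'
      have e2 : ‖b - b'‖ ≤ r' + r' := by
        have := dist_triangle_right b b' b₀
        rw [dist_eq_norm, dist_eq_norm b b₀, dist_eq_norm b' b₀] at this
        rw [mem_ball, dist_eq_norm] at hb hb'
        linarith
      have e3 : r' ≤ ‖a₀‖ / 4 := min_le_right _ _
      linarith
    have hbeq : b = (b' + s • a) - ‖a‖⁻¹ • D := by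
      have e1 : D = (‖b‖ - ‖b'‖) • a - ‖a‖ • (b - b') := Wv_sub_Wv a b b'
      have e2 : ‖a‖⁻¹ • D = s • a - (b - b') := by
        rw [e1, smul_sub, smul_smul, smul_smul, inv_mul_cancel₀ hna'.ne', one_smul, hs]
        congr 2
        ring
      rw [e2]; abel
    have hconv : ‖b' + s • a‖ ≤ (1 - s) * ‖b'‖ + s * ‖b' + (1 : ℝ) • a‖ := by
      have e1 : b' + s • a = (1 - s) • b' + s • (b' + (1 : ℝ) • a) := by module
      rw [e1]
      refine (norm_add_le _ _).trans ?_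
      rw [norm_smul, norm_smul, Real.norm_of_nonneg (by linarith : 0 ≤ 1 - s),
        Real.norm_of_nonneg hs0]
    have hnb : ‖b‖ ≤ ‖b' + s • a‖ + ‖a‖⁻¹ * ‖D‖ := by
      calc ‖b‖ = ‖(b' + s • a) - ‖a‖⁻¹ • D‖ := by rw [← hbeq]
        _ ≤ ‖b' + s • a‖ + ‖‖a‖⁻¹ • D‖ := norm_sub_le _ _
        _ = ‖b' + s • a‖ + ‖a‖⁻¹ * ‖D‖ := by rw [norm_smul, norm_inv, norm_norm]
    have hsγ : s * γ ≤ ‖a‖⁻¹ * ‖D‖ := by
      have e1 : s * ‖b' + (1 : ℝ) • a‖ ≤ s * (‖b'‖ + ‖a‖ - γ) :=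
        mul_le_mul_of_nonneg_left (by linarith) hs0
      nlinarith
    have hainv : ‖a‖⁻¹ ≤ 2 / ‖a₀‖ := by
      rw [inv_eq_one_div, div_le_div_iff₀ hna' hna]; linarith
    have hsle : s ≤ γ⁻¹ * ((2 / ‖a₀‖) * ‖D‖) := by
      have e1 : s * γ ≤ (2 / ‖a₀‖) * ‖D‖ :=
        hsγ.trans (mul_le_mul_of_nonneg_right hainv (norm_nonneg _))
      calc s = γ⁻¹ * (s * γ) := by field_simp
        _ ≤ _ := mul_le_mul_of_nonneg_left e1 (by positivity)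
    have hfin : ‖b - b'‖ ≤ s * ‖a‖ + ‖a‖⁻¹ * ‖D‖ := by
      have e1 : b - b' = s • a - ‖a‖⁻¹ • D := by
        calc b - b' = ((b' + s • a) - ‖a‖⁻¹ • D) - b' := by rw [← hbeq]
          _ = _ := by abel
      rw [e1]
      refine (norm_sub_le _ _).trans ?_
      rw [norm_smul, norm_smul, norm_inv, norm_norm, Real.norm_of_nonneg hs0]
    calc ‖b - b'‖ ≤ s * ‖a‖ + ‖a‖⁻¹ * ‖D‖ := hfin
      _ ≤ (γ⁻¹ * ((2 / ‖a₀‖) * ‖D‖)) * (2 * ‖a₀‖) + (2 / ‖a₀‖) * ‖D‖ := by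
          apply add_le_add
          · exact mul_le_mul hsle h3.le (norm_nonneg _) (by positivity)
          · exact mul_le_mul_of_nonneg_right hainv (norm_nonneg _)
      _ = _ := by ring
  intro a ha b hb b' hb'
  rcases le_total ‖b'‖ ‖b‖ with hle | hle
  · exact key a ha b hb b' hb' hle
  · rw [norm_sub_rev b b', norm_sub_rev (Wv a b)]
    exact key a ha b' hb' b hb hle

/-- covering: every vector near `(2‖z‖) z` is of the form `Wv z c`. -/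
theorem exists_Wv_eq {z y : E} (hz : z ≠ 0) (hy : ‖y - (2 * ‖z‖) • z‖ < ‖z‖ ^ 2) :
    ∃ c : E, Wv z c = y := by
  have hnz : 0 < ‖z‖ := norm_pos_iff.mpr hz
  set ζ : ℝ → ℝ := fun τ => ‖τ • z - y‖ - τ * ‖z‖ with hζ
  have hζc : Continuous ζ := by fun_prop
  set e : E := y - (2 * ‖z‖) • z with he
  have hy' : y = (2 * ‖z‖) • z + e := by rw [he]; abel
  have h1 : 0 ≤ ζ (‖z‖ / 2) := by
    have e1 : (‖z‖ / 2) • z - y = -((3 / 2 * ‖z‖) • z + e) := by rw [hy']; module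
    have e2 : ‖(3 / 2 * ‖z‖) • z‖ - ‖e‖ ≤ ‖(3 / 2 * ‖z‖) • z + e‖ := by
      have := norm_sub_norm_le ((3 / 2 * ‖z‖) • z) (-e)
      rwa [norm_neg, sub_neg_eq_add] at this
    rw [norm_smul, Real.norm_of_nonneg (by positivity : 0 ≤ 3 / 2 * ‖z‖)] at e2
    simp only [hζ]
    rw [e1, norm_neg]
    nlinarith
  have h2 : ζ (3 / 2 * ‖z‖) ≤ 0 := by
    have e1 : (3 / 2 * ‖z‖) • z - y = -((1 / 2 * ‖z‖) • z + e) := by rw [hy']; module
    have e2 : ‖(1 / 2 * ‖z‖) • z + e‖ ≤ ‖(1 / 2 * ‖z‖) • z‖ + ‖e‖ := norm_add_le _ _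
    rw [norm_smul, Real.norm_of_nonneg (by positivity : 0 ≤ 1 / 2 * ‖z‖)] at e2
    simp only [hζ]
    rw [e1, norm_neg]
    nlinarith
  obtain ⟨τ, hτ, hτ0⟩ := intermediate_value_Icc' (f := ζ) (by linarith : ‖z‖ / 2 ≤ 3 / 2 * ‖z‖)
    hζc.continuousOn ⟨h2, h1⟩
  have hτpos : 0 < τ := lt_of_lt_of_le (by positivity) hτ.1
  have hτn : ‖τ • z - y‖ = τ * ‖z‖ := by
    simp only [hζ] at hτ0; linarith
  refine ⟨‖z‖⁻¹ • (τ • z - y), ?_⟩
  rw [Wv_def, norm_smul, norm_inv, norm_norm, hτn, smul_smul, mul_inv_cancel₀ hnz.ne', one_smul]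
  have e1 : ‖z‖⁻¹ * (τ * ‖z‖) = τ := by field_simp
  rw [e1]
  abel

/-- covering: descent directions are of the form `t • Wv z c`. -/
theorem exists_Wv_eq_smul {z y : E} (hz : z ≠ 0) {t : ℝ} (ht : 0 < t) (hy : ‖z - t • y‖ < ‖z‖) :
    ∃ (c : E) (s : ℝ), 0 < s ∧ Wv z c = s • y := by
  have hnz : 0 < ‖z‖ := norm_pos_iff.mpr hz
  have hy0 : y ≠ 0 := by
    rintro rfl
    rw [smul_zero, sub_zero] at hy
    exact lt_irrefl _ hy
  have hny : 0 < ‖y‖ := norm_pos_iff.mpr hy0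
  set g : ℝ → ℝ := fun τ => ‖z - τ • y‖ with hg
  have hgc : Continuous g := by fun_prop
  set t₁ : ℝ := t + 2 * ‖z‖ / ‖y‖ with ht₁
  have ht₁pos : 0 < t₁ := by positivity
  have h1 : ‖z‖ ≤ g t₁ := by
    have e1 : ‖t₁ • y‖ - ‖z‖ ≤ ‖z - t₁ • y‖ := by
      rw [norm_sub_rev]; exact norm_sub_norm_le _ _
    rw [norm_smul, Real.norm_of_nonneg ht₁pos.le] at e1
    have e2 : t₁ * ‖y‖ = t * ‖y‖ + 2 * ‖z‖ := by rw [ht₁]; field_simp
    have e3 : 0 < t * ‖y‖ := by positivity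
    simp only [hg]
    linarith
  obtain ⟨τ, hτ, hτ0⟩ := intermediate_value_Icc (f := g)
    (by rw [ht₁]; linarith [show 0 < 2 * ‖z‖ / ‖y‖ by positivity] : t ≤ t₁)
    hgc.continuousOn ⟨hy.le, h1⟩
  have hτpos : 0 < τ := lt_of_lt_of_le ht hτ.1
  refine ⟨z - τ • y, ‖z‖ * τ, by positivity, ?_⟩
  have e1 : ‖z - τ • y‖ = ‖z‖ := hτ0
  rw [Wv_def, e1, smul_sub, smul_smul]
  abel

end basic

section iso

variable {X Y : Type*} [NormedAddCommGroup X] [NormedSpace ℝ X] [NormedAddCommGroup Y]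
  [NormedSpace ℝ Y] {T : X → Y}

namespace SphereIso

theorem Wv_map (hT : SphereIso T) (a b : X) : Wv (T a) (T b) = ‖b‖ • T a - ‖a‖ • T b := by
  rw [Wv_def, hT.norm_map, hT.norm_map]

theorem norm_Wv (hT : SphereIso T) (a b : X) : ‖Wv (T a) (T b)‖ = ‖Wv a b‖ := by
  rw [hT.Wv_map, Wv_def]
  exact hT.dist_gen a b

theorem Wv_map_ne (hT : SphereIso T) {a b : X} (h : Wv a b ≠ 0) : Wv (T a) (T b) ≠ 0 := by
  rw [← norm_ne_zero_iff, hT.norm_Wv, norm_ne_zero_iff]; exact h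

end SphereIso

end iso

end Vale.Agent.P084
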