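import Mathlib
import Vale.Agent.Lib.P084.Wv

open Filter Topology Module Metric MeasureTheory Measure
open scoped NNReal ENNReal

namespace Vale.Agent.P084

section vol

variable {X E : Type*} [NormedAddCommGroup X] [NormedSpace ℝ X] [MeasurableSpace X] [BorelSpace X]
  [NormedAddCommGroup E] [NormedSpace ℝ E] [MeasurableSpace E] [BorelSpace E]

/-- the Hausdorff measure of the dimension of the space -/
noncomputable def vol (E : Type*) [NormedAddCommGroup E] [NormedSpace ℝ E] [MeasurableSpace E]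
    [BorelSpace E] : Measure E := μH[(finrank ℝ E : ℝ)]

instance vol_isAddHaar [FiniteDimensional ℝ E] : IsAddHaarMeasure (vol E) :=
  isAddHaarMeasure_hausdorffMeasure

theorem vol_inter_preimage_le (hfin : finrank ℝ X = finrank ℝ E) {f : X → E} {s : Set X}
    {K : ℝ≥0} (h : ∀ b ∈ s, ∀ b' ∈ s, ‖b - b'‖ ≤ K * ‖f b - f b'‖) (t : Set E) :
    vol X (s ∩ f ⁻¹' t) ≤ ((K ^ finrank ℝ X : ℝ≥0) : ℝ≥0∞) * vol E t := by
  have hinj : Set.InjOn f s := by
    intro b hb b' hb' hbb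
    have := h b hb b' hb'
    rw [hbb, sub_self, norm_zero, mul_zero] at this
    exact sub_eq_zero.mp (norm_le_zero_iff.mp this)
  set g : E → X := Function.invFunOn f s with hg
  have hgf : ∀ b ∈ s, g (f b) = b := fun b hb => hinj.leftInvOn_invFunOn hb
  have hlip : LipschitzOnWith K g (f '' s) := by
    apply LipschitzOnWith.of_dist_le_mul
    rintro _ ⟨b, hb, rfl⟩ _ ⟨b', hb', rfl⟩
    rw [hgf b hb, hgf b' hb', dist_eq_norm, dist_eq_norm]
    exact h b hb b' hb'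
  have hsub : s ∩ f ⁻¹' t ⊆ g '' (f '' s ∩ t) := by
    rintro b ⟨hb, hbt⟩
    exact ⟨f b, ⟨⟨b, hb, rfl⟩, hbt⟩, hgf b hb⟩
  have h1 := (hlip.mono (Set.inter_subset_left (t := t))).hausdorffMeasure_image_le
    (d := (finrank ℝ X : ℝ)) (by positivity)
  calc vol X (s ∩ f ⁻¹' t) ≤ vol X (g '' (f '' s ∩ t)) := measure_mono hsub
    _ ≤ (K : ℝ≥0∞) ^ (finrank ℝ X : ℝ) * μH[(finrank ℝ X : ℝ)] (f '' s ∩ t) := h1
    _ ≤ (K : ℝ≥0∞) ^ (finrank ℝ X : ℝ) * μH[(finrank ℝ X : ℝ)] t := by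
        gcongr
        exact Set.inter_subset_right
    _ = ((K ^ finrank ℝ X : ℝ≥0) : ℝ≥0∞) * vol E t := by
        rw [ENNReal.rpow_natCast, ENNReal.coe_pow, vol, hfin]

theorem vol_image_null (hfin : finrank ℝ X = finrank ℝ E) {f : X → E} {K : ℝ≥0}
    (hf : LipschitzWith K f) {N : Set X} (hN : vol X N = 0) : vol E (f '' N) = 0 := by
  have h1 := hf.hausdorffMeasure_image_le (d := (finrank ℝ X : ℝ)) (by positivity) N
  have h2 : μH[(finrank ℝ X : ℝ)] N = 0 := hN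
  rw [h2, mul_zero] at h1
  rw [vol, ← hfin]
  exact le_antisymm h1 bot_le

theorem map_restrict_le (hfin : finrank ℝ X = finrank ℝ E) {f : X → E} {s : Set X} {t : Set E}
    {K : ℝ≥0} (h : ∀ b ∈ s, ∀ b' ∈ s, ‖b - b'‖ ≤ K * ‖f b - f b'‖) (hs : MeasurableSet s)
    (hf : ContinuousOn f s) (hst : Set.MapsTo f s t) :
    ((vol X).restrict s).map f ≤ (K ^ finrank ℝ X : ℝ≥0) • (vol E).restrict t := by
  refine Measure.le_iff.mpr fun u hu => ?_
  rw [Measure.map_apply_of_aemeasurable (hf.aemeasurable hs) hu, Measure.restrict_apply' hs,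
    Measure.smul_apply, Measure.restrict_apply hu]
  have h1 : f ⁻¹' u ∩ s ⊆ s ∩ f ⁻¹' (u ∩ t) := by
    rintro b ⟨hb, hbs⟩
    exact ⟨hbs, hb, hst hbs⟩
  calc vol X (f ⁻¹' u ∩ s) ≤ vol X (s ∩ f ⁻¹' (u ∩ t)) := measure_mono h1
    _ ≤ ((K ^ finrank ℝ X : ℝ≥0) : ℝ≥0∞) * vol E (u ∩ t) := vol_inter_preimage_le hfin h _
    _ = (K ^ finrank ℝ X : ℝ≥0) • vol E (u ∩ t) := rfl

theorem setIntegral_comp_le (hfin : finrank ℝ X = finrank ℝ E) {f : X → E} {s : Set X} {t : Set E}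
    {K : ℝ≥0} (h : ∀ b ∈ s, ∀ b' ∈ s, ‖b - b'‖ ≤ K * ‖f b - f b'‖) (hs : MeasurableSet s)
    (hf : ContinuousOn f s) (hst : Set.MapsTo f s t) {g : E → ℝ} (hg : 0 ≤ g)
    (hgm : StronglyMeasurable g) (hgi : IntegrableOn g t (vol E)) :
    IntegrableOn (fun b => g (f b)) s (vol X) ∧
    ∫ b in s, g (f b) ∂(vol X) ≤ (K ^ finrank ℝ X : ℝ≥0) * ∫ y in t, g y ∂(vol E) := by
  have hle := map_restrict_le hfin h hs hf hst
  have hae : AEMeasurable f ((vol X).restrict s) := hf.aemeasurable hs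
  have hgi' : Integrable g ((K ^ finrank ℝ X : ℝ≥0) • (vol E).restrict t) :=
    hgi.smul_measure_nnreal
  have hgi'' : Integrable g (((vol X).restrict s).map f) := hgi'.mono_measure hle
  constructor
  · exact hgi''.comp_aemeasurable hae
  · calc ∫ b in s, g (f b) ∂(vol X) = ∫ y, g y ∂(((vol X).restrict s).map f) :=
          (integral_map hae hgm.aestronglyMeasurable).symm
      _ ≤ ∫ y, g y ∂((K ^ finrank ℝ X : ℝ≥0) • (vol E).restrict t) :=
          integral_mono_measure hle (ae_of_all _ hg) hgi'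
      _ = _ := by rw [integral_smul_nnreal_measure]; rfl

end vol

section null

variable {E : Type*} [NormedAddCommGroup E] [NormedSpace ℝ E] [MeasurableSpace E] [BorelSpace E]

theorem vol_preimage_Wv_null [StrictConvexSpace ℝ E] [SecondCountableTopology E] {z : E}
    {Z : Set E} (hZ : vol E Z = 0) :
    vol E {b : E | Wv z b ≠ 0 ∧ Wv z b ∈ Z} = 0 := by
  apply measure_null_of_locally_null
  rintro b₀ ⟨hb₀, -⟩
  obtain ⟨r, hr, K, hK, hball⟩ := exists_antilip hb₀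
  refine ⟨{b : E | Wv z b ≠ 0 ∧ Wv z b ∈ Z} ∩ ball b₀ r,
    inter_mem_nhdsWithin _ (ball_mem_nhds _ hr), ?_⟩
  have h1 := vol_inter_preimage_le (X := E) (E := E) rfl (f := fun b => Wv z b) (s := ball b₀ r)
    (K := ⟨K, hK.le⟩) (fun b hb b' hb' => hball z (mem_ball_self hr) b hb b' hb') Z
  rw [hZ, mul_zero] at h1
  refine le_antisymm (le_trans (measure_mono ?_) h1) bot_le
  rintro b ⟨⟨-, hb2⟩, hb3⟩
  exact ⟨hb3, hb2⟩

theorem vol_ray_null [FiniteDimensional ℝ E] (hdim : 2 ≤ finrank ℝ E) {z : E} (hz : z ≠ 0) :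
    vol E {b : E | Wv z b = 0} = 0 := by
  have hsub : {b : E | Wv z b = 0} ⊆ (Submodule.span ℝ {z} : Submodule ℝ E) := by
    intro b hb
    have h1 : ‖b‖ • z = ‖z‖ • b := sub_eq_zero.mp hb
    have h2 : b = (‖z‖⁻¹ * ‖b‖) • z := by
      rw [mul_smul, h1, smul_smul, inv_mul_cancel₀ (norm_ne_zero_iff.mpr hz), one_smul]
    rw [SetLike.mem_coe, h2]
    exact Submodule.smul_mem _ _ (Submodule.mem_span_singleton_self z)
  have hne : (Submodule.span ℝ {z} : Submodule ℝ E) ≠ ⊤ := by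
    intro h0
    have h1 : finrank ℝ (Submodule.span ℝ {z} : Submodule ℝ E) = 1 := finrank_span_singleton hz
    rw [h0, finrank_top] at h1
    omega
  exact measure_mono_null hsub (addHaar_submodule _ _ hne)

end null

end Vale.Agent.P084
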