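import Mathlib
import Vale.Agent.Lib.P084.Meas

open Filter Topology Module Metric MeasureTheory Measure
open scoped NNReal ENNReal

namespace Vale.Agent.P084

section D2

variable {E : Type*} [NormedAddCommGroup E] [NormedSpace ℝ E]

/-- second symmetric difference of the norm -/
noncomputable def D2 (y z : E) : ℝ := ‖y + z‖ + ‖y - z‖ - 2 * ‖y‖

theorem D2_nonneg (y z : E) : 0 ≤ D2 y z := by
  have h1 : (2 : ℝ) • y = (y + z) + (y - z) := by module
  have h2 := norm_add_le (y + z) (y - z)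
  rw [← h1, norm_smul, Real.norm_ofNat] at h2
  unfold D2; linarith

theorem continuous_D2_left (z : E) : Continuous fun y : E => D2 y z := by
  unfold D2; fun_prop

theorem convexOn_D2 (y : E) (c : ℝ) : ConvexOn ℝ Set.univ fun z : E => D2 y (c • z) := by
  refine ⟨convex_univ, ?_⟩
  intro u _ v _ s t hs ht hst
  have h1 : y + c • (s • u + t • v) = s • (y + c • u) + t • (y + c • v) := by
    have : y = (s + t) • y := by rw [hst, one_smul]
    calc y + c • (s • u + t • v) = (s + t) • y + c • (s • u + t • v) := by rw [← this]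
      _ = _ := by module
  have h2 : y - c • (s • u + t • v) = s • (y - c • u) + t • (y - c • v) := by
    have : y = (s + t) • y := by rw [hst, one_smul]
    calc y - c • (s • u + t • v) = (s + t) • y - c • (s • u + t • v) := by rw [← this]
      _ = _ := by module
  have h3 := norm_add_le (s • (y + c • u)) (t • (y + c • v))
  have h4 := norm_add_le (s • (y - c • u)) (t • (y - c • v))
  rw [← h1, norm_smul, norm_smul, Real.norm_of_nonneg hs, Real.norm_of_nonneg ht] at h3
  rw [← h2, norm_smul, norm_smul, Real.norm_of_nonneg hs, Real.norm_of_nonneg ht] at h4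
  have h5 : 2 * ‖y‖ = s * (2 * ‖y‖) + t * (2 * ‖y‖) := by rw [← add_mul, hst, one_mul]
  simp only [D2, smul_eq_mul]
  nlinarith

/-- finitely many directions control all second differences -/
theorem exists_D2_bound [FiniteDimensional ℝ E] : ∃ p : Fin (finrank ℝ E + 1) → E,
    ∀ ρ : ℝ, 0 < ρ → ∀ y z : E, ‖z‖ ≤ 2 * ρ → D2 y z ≤ ∑ i, D2 y (ρ • p i) := by
  obtain ⟨b, hb, -⟩ := exists_mem_interior_convexHull_affineBasis (E := E) (s := Set.univ)
    (x := 0) univ_mem
  obtain ⟨ε, hε, hball⟩ := Metric.isOpen_iff.mp isOpen_interior 0 hb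
  refine ⟨fun i => (4 / ε) • b i, fun ρ hρ y z hz => ?_⟩
  set v : E := (ε / (4 * ρ)) • z with hv
  have hvn : v ∈ convexHull ℝ (Set.range b) := by
    apply interior_subset
    apply hball
    rw [mem_ball_zero_iff, hv, norm_smul, Real.norm_of_nonneg (by positivity)]
    calc ε / (4 * ρ) * ‖z‖ ≤ ε / (4 * ρ) * (2 * ρ) := by gcongr
      _ = ε / 2 := by field_simp; ring
      _ < ε := by linarith
  obtain ⟨w, ⟨i, rfl⟩, hle⟩ := (convexOn_D2 y (4 * ρ / ε)).exists_ge_of_mem_convexHull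
    (Set.subset_univ _) hvn
  have e1 : (4 * ρ / ε) • v = z := by
    rw [hv, smul_smul]
    have : 4 * ρ / ε * (ε / (4 * ρ)) = 1 := by field_simp
    rw [this, one_smul]
  have e2 : (4 * ρ / ε) • b i = ρ • (4 / ε) • b i := by
    rw [smul_smul]; congr 1; ring
  simp only [e1, e2] at hle
  refine hle.trans ?_
  exact Finset.single_le_sum (f := fun i => D2 y (ρ • (4 / ε) • b i))
    (fun j _ => D2_nonneg _ _) (Finset.mem_univ i)

theorem norm_dN_sub_le {y y' : E} {ρ M : ℝ} (hρ : 0 < ρ)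
    (hy : DifferentiableAt ℝ (fun z : E => ‖z‖) y)
    (hy' : DifferentiableAt ℝ (fun z : E => ‖z‖) y') (h : ‖y' - y‖ ≤ ρ)
    (hM : ∀ z, ‖z‖ ≤ 2 * ρ → D2 y z ≤ M) : ‖dN y' - dN y‖ ≤ ρ⁻¹ * M := by
  have hM0 : 0 ≤ M := (D2_nonneg y 0).trans (hM 0 (by rw [norm_zero]; positivity))
  have key : ∀ v : E, ‖v‖ ≤ ρ → (dN y' - dN y) v ≤ M := by
    intro v hv
    have e1 := dN_le y' (y' + v)
    rw [map_add, dN_self hy'] at e1
    have e2 := dN_le y y'
    have e3 := dN_le y (y - (y' - y + v))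
    rw [map_sub, map_add, map_sub, dN_self hy] at e3
    have e4 := hM (y' - y + v) (by
      calc ‖y' - y + v‖ ≤ ‖y' - y‖ + ‖v‖ := norm_add_le _ _
        _ ≤ 2 * ρ := by linarith)
    have e5 : y + (y' - y + v) = y' + v := by abel
    rw [D2, e5] at e4
    rw [_root_.sub_apply]
    linarith
  refine ContinuousLinearMap.opNorm_le_bound _ (by positivity) fun v => ?_
  by_cases hv : v = 0
  · simp [hv]
  · have hnv : 0 < ‖v‖ := norm_pos_iff.mpr hv
    have hnorm : ‖(ρ / ‖v‖) • v‖ ≤ ρ := by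
      rw [norm_smul, Real.norm_of_nonneg (by positivity), div_mul_cancel₀ _ hnv.ne']
    have e1 := key _ hnorm
    have e2 := key (-((ρ / ‖v‖) • v)) (by rwa [norm_neg])
    rw [_root_.map_neg] at e2
    rw [map_smul, smul_eq_mul] at e1 e2
    have e3 : |ρ / ‖v‖ * (dN y' - dN y) v| ≤ M := abs_le.mpr ⟨by linarith, e1⟩
    rw [abs_mul, abs_of_pos (by positivity)] at e3
    rw [Real.norm_eq_abs]
    calc |(dN y' - dN y) v| = (ρ⁻¹ * ‖v‖) * (ρ / ‖v‖ * |(dN y' - dN y) v|) := by field_simp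
      _ ≤ (ρ⁻¹ * ‖v‖) * M := by gcongr
      _ = ρ⁻¹ * M * ‖v‖ := by ring

/-- second differences of a smooth compactly supported function -/
theorem exists_second_diff [FiniteDimensional ℝ E] {χ : E → ℝ} (hc : HasCompactSupport χ)
    (hχ : ContDiff ℝ 2 χ) : ∃ C : ℝ, 0 ≤ C ∧ ∀ y w : E,
      |χ (y - w) + χ (y + w) - 2 * χ y| ≤ C * ‖w‖ ^ 2 := by
  have h1 : ContDiff ℝ 1 (fderiv ℝ χ) := hχ.fderiv_right (by norm_num)
  obtain ⟨C, hC⟩ := h1.lipschitzWith_of_hasCompactSupport (hc.fderiv ℝ) (by norm_num)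
  refine ⟨C, C.coe_nonneg, fun y w => ?_⟩
  have hd : Differentiable ℝ χ := hχ.differentiable (by norm_num)
  have hd2 : ∀ z ∈ (Set.univ : Set E), DifferentiableAt ℝ (fun z => χ (z + w) - χ z) z := by
    intro z _
    exact ((hd _).comp z (differentiableAt_id.add_const w)).sub (hd z)
  have hb : ∀ z ∈ (Set.univ : Set E), ‖fderiv ℝ (fun z => χ (z + w) - χ z) z‖ ≤ C * ‖w‖ := by
    intro z _
    have e1 : HasFDerivAt (fun z => χ (z + w) - χ z) (fderiv ℝ χ (z + w) - fderiv ℝ χ z) z := by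
      have e2 : HasFDerivAt (fun z => χ (z + w)) (fderiv ℝ χ (z + w)) z := by
        exact ((hd (z + w)).hasFDerivAt.comp z ((hasFDerivAt_id z).add_const w)).congr_fderiv
          (ContinuousLinearMap.comp_id _)
      exact e2.sub (hd z).hasFDerivAt
    rw [e1.fderiv]
    have e3 := hC.dist_le_mul (z + w) z
    rwa [dist_eq_norm, dist_eq_norm, add_sub_cancel_left] at e3
  have h2 := convex_univ.norm_image_sub_le_of_norm_fderiv_le hd2 hb (Set.mem_univ (y - w))
    (Set.mem_univ y)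
  have e4 : χ (y + w) - χ y - (χ (y - w + w) - χ (y - w)) = χ (y - w) + χ (y + w) - 2 * χ y := by
    rw [sub_add_cancel]; ring
  rw [e4, Real.norm_eq_abs, sub_sub_cancel] at h2
  calc _ ≤ C * ‖w‖ * ‖w‖ := h2
    _ = _ := by ring

theorem exists_integral_D2_le [FiniteDimensional ℝ E] [MeasurableSpace E] [BorelSpace E] {R M : ℝ}
    (hR : 0 < R) (hM : 0 ≤ M) : ∃ C : ℝ, 0 ≤ C ∧ ∀ w : E, ‖w‖ ≤ M →
      ∫ y in ball (0 : E) R, D2 y w ∂(vol E) ≤ C * ‖w‖ ^ 2 := by
  let χ : ContDiffBump (0 : E) := ⟨R, R + 1, hR, by linarith⟩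
  have hχc : HasCompactSupport χ := χ.hasCompactSupport
  have hχd : ContDiff ℝ 2 χ := χ.contDiff (n := 2)
  have hχcont : Continuous χ := hχd.continuous
  obtain ⟨C, hC0, hC⟩ := exists_second_diff hχc hχd
  set B : Set E := closedBall 0 (R + 1 + M) with hB
  refine ⟨C * (R + 1 + M) * (vol E).real B, by positivity, fun w hw => ?_⟩
  have hint : ∀ z : E, Integrable (fun y => χ y * ‖y + z‖) (vol E) := fun z =>
    (hχcont.mul (by fun_prop)).integrable_of_hasCompactSupport hχc.mul_right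
  have hint2 : ∀ z : E, Integrable (fun y => χ (y + z) * ‖y‖) (vol E) := by
    intro z
    have h1 := (hint (-z)).comp_add_right z
    refine h1.congr (ae_of_all _ fun y => ?_)
    simp only [add_neg_cancel_right]
  have htrans : ∀ z : E, ∫ y, χ y * ‖y + z‖ ∂(vol E) = ∫ y, χ (y + -z) * ‖y‖ ∂(vol E) := by
    intro z
    rw [← integral_add_right_eq_self (fun y => χ (y + -z) * ‖y‖) z]
    congr 1
    funext y
    simp only [add_neg_cancel_right]
  -- step 1: insert the bump function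
  have h1 : ∫ y in ball (0 : E) R, D2 y w ∂(vol E) ≤ ∫ y, χ y * D2 y w ∂(vol E) := by
    have e1 : ∫ y in ball (0 : E) R, D2 y w ∂(vol E)
        = ∫ y in ball (0 : E) R, χ y * D2 y w ∂(vol E) := by
      apply setIntegral_congr_fun measurableSet_ball
      intro y hy
      have : χ y = 1 := χ.one_of_mem_closedBall (ball_subset_closedBall hy)
      simp only [this, one_mul]
    rw [e1]
    apply setIntegral_le_integral
    · exact (hχcont.mul (continuous_D2_left w)).integrable_of_hasCompactSupport hχc.mul_right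
    · exact ae_of_all _ fun y => mul_nonneg χ.nonneg (D2_nonneg y w)
  -- step 2: translation invariance
  have h2 : ∫ y, χ y * D2 y w ∂(vol E)
      = ∫ y, (χ (y - w) + χ (y + w) - 2 * χ y) * ‖y‖ ∂(vol E) := by
    have e1 : (fun y => χ y * D2 y w)
        = fun y => (χ y * ‖y + w‖ + χ y * ‖y + -w‖) - 2 * (χ y * ‖y + 0‖) := by
      funext y; rw [D2, add_zero, ← sub_eq_add_neg]; ring
    have e2 : (fun y => (χ (y - w) + χ (y + w) - 2 * χ y) * ‖y‖)
        = fun y => (χ (y + -w) * ‖y‖ + χ (y + - -w) * ‖y‖) - 2 * (χ (y + -0) * ‖y‖) := by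
      funext y; rw [neg_neg, neg_zero, add_zero, ← sub_eq_add_neg]; ring
    have i1 : Integrable (fun y => χ y * ‖y + w‖ + χ y * ‖y + -w‖) (vol E) :=
      (hint w).add (hint (-w))
    have i2 : Integrable (fun y => χ (y + -w) * ‖y‖ + χ (y + - -w) * ‖y‖) (vol E) :=
      (hint2 (-w)).add (hint2 (- -w))
    rw [e1, e2, integral_sub i1 ((hint 0).const_mul 2),
      integral_add (hint w) (hint (-w)), integral_const_mul, htrans w, htrans (-w), htrans 0,
      integral_sub i2 ((hint2 (-0)).const_mul 2),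
      integral_add (hint2 (-w)) (hint2 (- -w)), integral_const_mul]
  -- step 3: bound
  have hout : ∀ y ∉ B, (χ (y - w) + χ (y + w) - 2 * χ y) * ‖y‖ = 0 := by
    intro y hy
    rw [hB, mem_closedBall_zero_iff, not_le] at hy
    have e1 : χ (y - w) = 0 := by
      apply χ.zero_of_le_dist
      rw [dist_zero_right]
      have := norm_sub_norm_le y w
      show R + 1 ≤ _
      linarith
    have e2 : χ (y + w) = 0 := by
      apply χ.zero_of_le_dist
      rw [dist_zero_right]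
      have := norm_sub_norm_le y (-w)
      rw [norm_neg, sub_neg_eq_add] at this
      show R + 1 ≤ _
      linarith
    have e3 : χ y = 0 := by
      apply χ.zero_of_le_dist
      rw [dist_zero_right]
      show R + 1 ≤ _
      linarith
    rw [e1, e2, e3]; ring
  have h3 : ‖∫ y in B, (χ (y - w) + χ (y + w) - 2 * χ y) * ‖y‖ ∂(vol E)‖
      ≤ (C * ‖w‖ ^ 2 * (R + 1 + M)) * (vol E).real B := by
    apply norm_setIntegral_le_of_norm_le_const
    · exact (isCompact_closedBall _ _).measure_lt_top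
    · intro y hy
      rw [norm_mul, Real.norm_eq_abs, norm_norm]
      exact mul_le_mul (hC y w) (by simpa [hB] using hy) (norm_nonneg _) (by positivity)
  rw [setIntegral_eq_integral_of_forall_compl_eq_zero hout] at h3
  calc _ ≤ ∫ y, χ y * D2 y w ∂(vol E) := h1
    _ = ∫ y, (χ (y - w) + χ (y + w) - 2 * χ y) * ‖y‖ ∂(vol E) := h2
    _ ≤ _ := Real.le_norm_self _
    _ ≤ _ := h3
    _ = _ := by ring

end D2

section fam

variable {X E : Type*} [NormedAddCommGroup X] [NormedSpace ℝ X]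
  [NormedAddCommGroup E] [NormedSpace ℝ E]

/-- a family of maps `w a`, bi-Lipschitz near `b₀`, Lipschitz in the parameter -/
structure Fam (w : X → X → E) (a₀ b₀ : X) (r : ℝ) (K : ℝ≥0) (C R : ℝ) : Prop where
  cont : Continuous fun p : X × X => w p.1 p.2
  antilip : ∀ a ∈ ball a₀ r, ∀ b ∈ ball b₀ r, ∀ b' ∈ ball b₀ r, ‖b - b'‖ ≤ K * ‖w a b - w a b'‖
  lip : ∀ a ∈ ball a₀ r, ∀ a' ∈ ball a₀ r, ∀ b ∈ ball b₀ r, ‖w a' b - w a b‖ ≤ C * ‖a' - a‖
  bdd : ∀ a ∈ ball a₀ r, ∀ b ∈ ball b₀ r, w a b ∈ ball (0 : E) R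

variable {w : X → X → E} {a₀ b₀ : X} {r : ℝ} {K : ℝ≥0} {C R : ℝ}

theorem Fam.mono (h : Fam w a₀ b₀ r K C R) {r' : ℝ} (hr : r' ≤ r) : Fam w a₀ b₀ r' K C R where
  cont := h.cont
  antilip := fun a ha b hb b' hb' => h.antilip a (ball_subset_ball hr ha) b
    (ball_subset_ball hr hb) b' (ball_subset_ball hr hb')
  lip := fun a ha a' ha' b hb => h.lip a (ball_subset_ball hr ha) a' (ball_subset_ball hr ha') b
    (ball_subset_ball hr hb)
  bdd := fun a ha b hb => h.bdd a (ball_subset_ball hr ha) b (ball_subset_ball hr hb)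

theorem Fam.cont_right (h : Fam w a₀ b₀ r K C R) (a : X) : Continuous (w a) := by
  have := h.cont
  have h2 : Continuous fun b : X => (a, b) := by fun_prop
  exact this.comp h2

theorem Fam.cont_left (h : Fam w a₀ b₀ r K C R) (b : X) : Continuous fun a => w a b := by
  have := h.cont
  have h2 : Continuous fun a : X => (a, b) := by fun_prop
  exact this.comp h2

variable [MeasurableSpace X] [BorelSpace X] [MeasurableSpace E] [BorelSpace E]
  [FiniteDimensional ℝ X] [FiniteDimensional ℝ E]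

/-- The averaged derivative of the norm. -/
noncomputable def avg (w : X → X → E) (b₀ : X) (r : ℝ) (a : X) : E →L[ℝ] ℝ :=
  ∫ b in ball b₀ r, dN (w a b) ∂(vol X)

theorem norm_dN_le_one (y : E) : ‖dN y‖ ≤ 1 := by
  have := norm_fderiv_le_of_lipschitz ℝ (x₀ := y) (lipschitzWith_one_norm (E := E))
  rw [NNReal.coe_one] at this
  exact this

theorem continuousAt_dN {y : E} (hy : ContDiffAt ℝ 1 (fun z : E => ‖z‖) y) :
    ContinuousAt (dN : E → E →L[ℝ] ℝ) y := by
  have : ContDiffAt ℝ 0 (dN : E → E →L[ℝ] ℝ) y := hy.fderiv_right (by norm_num)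
  exact this.continuousAt

theorem Fam.integrableOn (h : Fam w a₀ b₀ r K C R)
    (hE : ∀ y : E, y ≠ 0 → ContDiffAt ℝ 1 (fun z : E => ‖z‖) y) {a : X}
    (hne : ∀ b ∈ ball b₀ r, w a b ≠ 0) :
    IntegrableOn (fun b => dN (w a b)) (ball b₀ r) (vol X) := by
  have hc : ContinuousOn (fun b => dN (w a b)) (ball b₀ r) := by
    intro b hb
    exact ((continuousAt_dN (hE _ (hne b hb))).comp
      (h.cont_right a).continuousAt).continuousWithinAt
  refine ⟨hc.aestronglyMeasurable measurableSet_ball, ?_⟩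
  have : IsFiniteMeasure ((vol X).restrict (ball b₀ r)) :=
    ⟨by rw [Measure.restrict_apply_univ]; exact measure_ball_lt_top⟩
  apply HasFiniteIntegral.of_bounded (C := 1)
  exact ae_of_all _ fun b => norm_dN_le_one _

/-- the averaged derivative is Lipschitz -/
theorem Fam.exists_lip (h : Fam w a₀ b₀ r K C R) (hfin : finrank ℝ X = finrank ℝ E) (hr : 0 < r)
    (hC : 0 < C) (hR : 0 < R)
    (hE : ∀ y : E, y ≠ 0 → ContDiffAt ℝ 1 (fun z : E => ‖z‖) y)
    (hne : ∀ a ∈ ball a₀ r, ∀ b ∈ ball b₀ r, w a b ≠ 0) :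
    ∃ C' : ℝ≥0, LipschitzOnWith C' (avg w b₀ r) (ball a₀ r) := by
  obtain ⟨p, hp⟩ := exists_D2_bound (E := E)
  set M : ℝ := C * (2 * r) * ∑ i, ‖p i‖ with hM
  have hM0 : 0 ≤ M := by
    have : 0 ≤ ∑ i, ‖p i‖ := Finset.sum_nonneg fun i _ => norm_nonneg _
    positivity
  obtain ⟨C₁, hC₁0, hC₁⟩ := exists_integral_D2_le (E := E) hR hM0
  set Q : ℝ := ∑ i, (K ^ finrank ℝ X : ℝ≥0) * (C₁ * ‖p i‖ ^ 2) * C with hQ
  have hQ0 : 0 ≤ Q := Finset.sum_nonneg fun i _ => by positivity
  have hd : ∀ y : E, y ≠ 0 → DifferentiableAt ℝ (fun z : E => ‖z‖) y :=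
    fun y hy => (hE y hy).differentiableAt (by norm_num)
  refine ⟨⟨Q, hQ0⟩, LipschitzOnWith.of_dist_le_mul ?_⟩
  intro a' ha' a ha
  rw [dist_eq_norm, dist_eq_norm]
  show _ ≤ Q * _
  by_cases haa : a' = a
  · rw [haa]; simp
  have hpos : 0 < ‖a' - a‖ := norm_pos_iff.mpr (sub_ne_zero.mpr haa)
  set ρ : ℝ := C * ‖a' - a‖ with hρ
  have hρpos : 0 < ρ := by positivity
  have hρle : ρ ≤ C * (2 * r) := by
    rw [hρ]
    gcongr
    have := dist_triangle_right a' a a₀
    rw [mem_ball] at ha ha'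
    rw [dist_eq_norm a' a] at this
    linarith
  have hpt : ∀ b ∈ ball b₀ r, ‖dN (w a' b) - dN (w a b)‖
      ≤ ρ⁻¹ * ∑ i, D2 (w a b) (ρ • p i) := fun b hb =>
    norm_dN_sub_le hρpos (hd _ (hne a ha b hb)) (hd _ (hne a' ha' b hb)) (h.lip a ha a' ha' b hb)
      fun z hz => hp ρ hρpos _ z hz
  have hcomp : ∀ i, IntegrableOn (fun b => D2 (w a b) (ρ • p i)) (ball b₀ r) (vol X) ∧
      ∫ b in ball b₀ r, D2 (w a b) (ρ • p i) ∂(vol X)
        ≤ (K ^ finrank ℝ X : ℝ≥0) * ∫ y in ball (0 : E) R, D2 y (ρ • p i) ∂(vol E) := by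
    intro i
    apply setIntegral_comp_le hfin (f := w a) (g := fun y => D2 y (ρ • p i)) (h.antilip a ha)
      measurableSet_ball (h.cont_right a).continuousOn (fun b hb => h.bdd a ha b hb)
      (fun y => D2_nonneg _ _) (continuous_D2_left _).stronglyMeasurable
    exact ((continuous_D2_left _).continuousOn.integrableOn_compact
      (isCompact_closedBall (0 : E) R)).mono_set ball_subset_closedBall
  have hb : ∀ i, ∫ b in ball b₀ r, D2 (w a b) (ρ • p i) ∂(vol X)
      ≤ (K ^ finrank ℝ X : ℝ≥0) * (C₁ * ‖p i‖ ^ 2) * ρ ^ 2 := by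
    intro i
    refine (hcomp i).2.trans ?_
    have hn : ‖ρ • p i‖ ≤ M := by
      rw [norm_smul, Real.norm_of_nonneg hρpos.le, hM]
      have : ‖p i‖ ≤ ∑ i, ‖p i‖ := Finset.single_le_sum (f := fun i => ‖p i‖)
        (fun i _ => norm_nonneg _) (Finset.mem_univ i)
      gcongr
    have e1 := hC₁ (ρ • p i) hn
    rw [norm_smul, Real.norm_of_nonneg hρpos.le] at e1
    calc _ ≤ (K ^ finrank ℝ X : ℝ≥0) * (C₁ * (ρ * ‖p i‖) ^ 2) := by gcongr
      _ = _ := by ring
  have hint : Integrable (fun b => ρ⁻¹ * ∑ i, D2 (w a b) (ρ • p i))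
      ((vol X).restrict (ball b₀ r)) :=
    (integrable_finsetSum _ fun i _ => (hcomp i).1).const_mul _
  have hsub : avg w b₀ r a' - avg w b₀ r a
      = ∫ b in ball b₀ r, (dN (w a' b) - dN (w a b)) ∂(vol X) := by
    rw [avg, avg, integral_sub (h.integrableOn hE (hne a' ha')) (h.integrableOn hE (hne a ha))]
  rw [hsub]
  calc _ ≤ ∫ b in ball b₀ r, ρ⁻¹ * ∑ i, D2 (w a b) (ρ • p i) ∂(vol X) := by
        apply norm_integral_le_of_norm_le hint
        exact (ae_restrict_iff' measurableSet_ball).mpr (ae_of_all _ fun b hb => hpt b hb)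
    _ = ρ⁻¹ * ∑ i, ∫ b in ball b₀ r, D2 (w a b) (ρ • p i) ∂(vol X) := by
        rw [integral_const_mul, integral_finsetSum _ fun i _ => (hcomp i).1]
    _ ≤ ρ⁻¹ * ∑ i, (K ^ finrank ℝ X : ℝ≥0) * (C₁ * ‖p i‖ ^ 2) * ρ ^ 2 := by
        gcongr with i _
        exact hb i
    _ = Q * ‖a' - a‖ := by
        rw [hQ, Finset.mul_sum, Finset.sum_mul]
        apply Finset.sum_congr rfl
        intro i _
        rw [hρ]
        field_simp

end fam

end Vale.Agent.P084
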