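import Mathlib
import Vale.Agent.Lib.P084.Avg1

open Filter Topology Module Metric MeasureTheory Measure
open scoped NNReal ENNReal

namespace Vale.Agent.P084

section fam

variable {X E G : Type*} [NormedAddCommGroup X] [NormedSpace ℝ X]
  [NormedAddCommGroup E] [NormedSpace ℝ E] [NormedAddCommGroup G] [NormedSpace ℝ G]
  {w : X → X → E} {a₀ b₀ : X} {r : ℝ} {K : ℝ≥0} {C R : ℝ}
  [MeasurableSpace X] [BorelSpace X] [MeasurableSpace E] [BorelSpace E]
  [FiniteDimensional ℝ X] [FiniteDimensional ℝ E] [FiniteDimensional ℝ G]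

omit [MeasurableSpace X] [BorelSpace X] [MeasurableSpace E] [BorelSpace E]
  [FiniteDimensional ℝ X] [FiniteDimensional ℝ E] in
theorem Fam.norm_le (h : Fam w a₀ b₀ r K C R) (hC : 0 ≤ C) {a b : X} (ha : a ∈ ball a₀ r)
    (hb : b ∈ ball b₀ r) {L : X →L[ℝ] E} (hL : HasFDerivAt (fun a => w a b) L a) : ‖L‖ ≤ C := by
  apply hL.le_of_lip' hC
  filter_upwards [isOpen_ball.mem_nhds ha] with a' ha'
  exact h.lip a ha a' ha' b hb

/-- continuity for a bounded continuous outer map -/
theorem Fam.continuousOn_aux (h : Fam w a₀ b₀ r K C R) (hC : 0 ≤ C)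
    {w' : X → X → X →L[ℝ] E}
    (hw' : ∀ a ∈ ball a₀ r, ∀ b ∈ ball b₀ r, HasFDerivAt (fun a => w a b) (w' a b) a)
    (hw'c : ContinuousOn (fun p : X × X => w' p.1 p.2) (ball a₀ r ×ˢ ball b₀ r))
    {H : E → E →L[ℝ] G} (hH : Continuous H) (hHc : HasCompactSupport H) :
    ContinuousOn (fun a => ∫ b in ball b₀ r, (H (w a b)).comp (w' a b) ∂(vol X)) (ball a₀ r) := by
  obtain ⟨M, hM⟩ := hHc.exists_bound_of_continuous hH
  have hfm : IsFiniteMeasure ((vol X).restrict (ball b₀ r)) :=
    ⟨by rw [Measure.restrict_apply_univ]; exact measure_ball_lt_top⟩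
  have hM0 : 0 ≤ M := (norm_nonneg _).trans (hM 0)
  apply continuousOn_of_dominated (bound := fun _ => M * C)
  · intro a ha
    apply ContinuousOn.aestronglyMeasurable _ measurableSet_ball
    apply ContinuousOn.clm_comp
    · exact (hH.comp (h.cont_right a)).continuousOn
    · exact hw'c.comp (f := fun b => (a, b)) (by fun_prop) (fun b hb => ⟨ha, hb⟩)
  · intro a ha
    refine (ae_restrict_iff' measurableSet_ball).mpr (ae_of_all _ fun b hb => ?_)
    refine (ContinuousLinearMap.opNorm_comp_le _ _).trans ?_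
    exact mul_le_mul (hM _) (h.norm_le hC ha hb (hw' a ha b hb)) (norm_nonneg _) hM0
  · exact integrable_const _
  · refine (ae_restrict_iff' measurableSet_ball).mpr (ae_of_all _ fun b hb => ?_)
    apply ContinuousOn.clm_comp
    · exact (hH.comp (h.cont_left b)).continuousOn
    · exact hw'c.comp (f := fun a => (a, b)) (by fun_prop) (fun a ha => ⟨ha, hb⟩)

/-- averages of a Lipschitz map over a family are continuously differentiable -/
theorem Fam.contDiffAt_integral (h : Fam w a₀ b₀ r K C R) (hfin : finrank ℝ X = finrank ℝ E)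
    (hr : 0 < r) (hC : 0 ≤ C) {g : E → G} {L : ℝ≥0} (hg : LipschitzWith L g)
    {w' : X → X → X →L[ℝ] E}
    (hw' : ∀ a ∈ ball a₀ r, ∀ b ∈ ball b₀ r, HasFDerivAt (fun a => w a b) (w' a b) a)
    (hw'c : ContinuousOn (fun p : X × X => w' p.1 p.2) (ball a₀ r ×ˢ ball b₀ r)) :
    ContDiffAt ℝ 1 (fun a => ∫ b in ball b₀ r, g (w a b) ∂(vol X)) a₀ := by
  have hfm : IsFiniteMeasure ((vol X).restrict (ball b₀ r)) :=
    ⟨by rw [Measure.restrict_apply_univ]; exact measure_ball_lt_top⟩
  have hfmE : IsFiniteMeasure ((vol E).restrict (ball (0 : E) R)) :=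
    ⟨by rw [Measure.restrict_apply_univ]; exact measure_ball_lt_top⟩
  have hmeasD : StronglyMeasurable (fderiv ℝ g) := (measurable_fderiv ℝ g).stronglyMeasurable
  have hDb : ∀ y, ‖fderiv ℝ g y‖ ≤ L := fun y => norm_fderiv_le_of_lipschitz ℝ hg
  have hw'm : ∀ a ∈ ball a₀ r, AEStronglyMeasurable (fun b => w' a b)
      ((vol X).restrict (ball b₀ r)) := fun a ha =>
    (hw'c.comp (f := fun b => (a, b)) (by fun_prop)
      (fun b hb => ⟨ha, hb⟩)).aestronglyMeasurable measurableSet_ball
  have hmeas : ∀ a ∈ ball a₀ r, AEStronglyMeasurable (fun b => (fderiv ℝ g (w a b)).comp (w' a b))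
      ((vol X).restrict (ball b₀ r)) := by
    intro a ha
    have e1 : AEStronglyMeasurable (fun b => fderiv ℝ g (w a b)) ((vol X).restrict (ball b₀ r)) :=
      (hmeasD.comp_measurable (h.cont_right a).measurable).aestronglyMeasurable
    exact (isBoundedBilinearMap_comp (𝕜 := ℝ) (E := X) (F := E)
      (G := G)).continuous.comp_aestronglyMeasurable (e1.prodMk (hw'm a ha))
  set F' : X → X →L[ℝ] G := fun a =>
    ∫ b in ball b₀ r, (fderiv ℝ g (w a b)).comp (w' a b) ∂(vol X) with hF'
  -- the derivative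
  have hder : ∀ a ∈ ball a₀ r,
      Integrable (fun b => (fderiv ℝ g (w a b)).comp (w' a b)) ((vol X).restrict (ball b₀ r)) ∧
      HasFDerivAt (fun a => ∫ b in ball b₀ r, g (w a b) ∂(vol X)) (F' a) a := by
    intro a ha
    apply hasFDerivAt_integral_of_dominated_loc_of_lip' (s := ball a₀ r)
      (bound := fun _ => (L : ℝ) * C) (isOpen_ball.mem_nhds ha)
    · intro a' _
      exact (hg.continuous.comp (h.cont_right a')).aestronglyMeasurable
    · exact ((hg.continuous.comp (h.cont_right a)).continuousOn.integrableOn_compact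
        (isCompact_closedBall b₀ r)).mono_set ball_subset_closedBall
    · exact hmeas a ha
    · refine (ae_restrict_iff' measurableSet_ball).mpr (ae_of_all _ fun b hb => ?_)
      intro a' ha'
      have e1 := hg.dist_le_mul (w a' b) (w a b)
      rw [dist_eq_norm, dist_eq_norm] at e1
      calc _ ≤ L * ‖w a' b - w a b‖ := e1
        _ ≤ L * (C * ‖a' - a‖) := by
          gcongr
          exact h.lip a ha a' ha' b hb
        _ = _ := by ring
    · exact integrable_const _
    · have hN : vol E {y : E | ¬ DifferentiableAt ℝ g y} = 0 := hg.ae_differentiableAt (μ := vol E)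
      have h1 := vol_inter_preimage_le hfin (h.antilip a ha) {y : E | ¬ DifferentiableAt ℝ g y}
      rw [hN, mul_zero] at h1
      have h2 : ∀ᵐ b ∂(vol X), b ∈ ball b₀ r → DifferentiableAt ℝ g (w a b) := by
        rw [ae_iff]
        refine measure_mono_null ?_ (le_antisymm h1 bot_le)
        intro b hb
        simp only [Set.mem_setOf_eq, Classical.not_imp] at hb
        exact ⟨hb.1, hb.2⟩
      refine (ae_restrict_iff' measurableSet_ball).mpr ?_
      filter_upwards [h2] with b hb hbb
      exact (hb hbb).hasFDerivAt.comp a (hw' a ha b hbb)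
  -- continuity of the derivative
  have hcont : ContinuousOn F' (ball a₀ r) := by
    apply continuousOn_of_uniform_approx_of_continuousOn
    intro u hu
    obtain ⟨ε, hε, hεu⟩ := Metric.mem_uniformity_dist.mp hu
    set δ : ℝ := ε / (2 * (C * (K ^ finrank ℝ X : ℝ≥0) + 1)) with hδ
    have hδpos : 0 < δ := by positivity
    have hDi : Integrable (fderiv ℝ g) ((vol E).restrict (ball (0 : E) R)) :=
      ⟨hmeasD.aestronglyMeasurable, HasFiniteIntegral.of_bounded (C := (L : ℝ)) (ae_of_all _ hDb)⟩
    obtain ⟨H, hHc, hHε, hHcont, hHi⟩ := hDi.exists_hasCompactSupport_integral_sub_le hδpos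
    refine ⟨fun a => ∫ b in ball b₀ r, (H (w a b)).comp (w' a b) ∂(vol X),
      h.continuousOn_aux hC hw' hw'c hHcont hHc, fun a ha => hεu ?_⟩
    obtain ⟨M, hM⟩ := hHc.exists_bound_of_continuous hHcont
    have hM0 : 0 ≤ M := (norm_nonneg _).trans (hM 0)
    have hHm : AEStronglyMeasurable (fun b => (H (w a b)).comp (w' a b))
        ((vol X).restrict (ball b₀ r)) :=
      (isBoundedBilinearMap_comp (𝕜 := ℝ) (E := X) (F := E)
        (G := G)).continuous.comp_aestronglyMeasurable
        (((hHcont.comp (h.cont_right a)).aestronglyMeasurable).prodMk (hw'm a ha))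
    have hHI : Integrable (fun b => (H (w a b)).comp (w' a b)) ((vol X).restrict (ball b₀ r)) := by
      refine ⟨hHm, HasFiniteIntegral.of_bounded (C := M * C) ?_⟩
      refine (ae_restrict_iff' measurableSet_ball).mpr (ae_of_all _ fun b hb => ?_)
      refine (ContinuousLinearMap.opNorm_comp_le _ _).trans ?_
      exact mul_le_mul (hM _) (h.norm_le hC ha hb (hw' a ha b hb)) (norm_nonneg _) hM0
    have hcomp := setIntegral_comp_le hfin (f := w a) (g := fun y => ‖fderiv ℝ g y - H y‖)
      (t := ball (0 : E) R) (h.antilip a ha) measurableSet_ball (h.cont_right a).continuousOn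
      (fun b hb => h.bdd a ha b hb) (fun y => norm_nonneg _)
      (hmeasD.sub hHcont.stronglyMeasurable).norm (hDi.sub hHi).norm
    rw [dist_eq_norm, hF']
    simp only
    rw [← integral_sub (hder a ha).1 hHI]
    have hbd : ‖∫ b in ball b₀ r, ((fderiv ℝ g (w a b)).comp (w' a b) - (H (w a b)).comp (w' a b))
        ∂(vol X)‖ ≤ ∫ b in ball b₀ r, C * ‖fderiv ℝ g (w a b) - H (w a b)‖ ∂(vol X) := by
      apply norm_integral_le_of_norm_le (hcomp.1.const_mul C)
      refine (ae_restrict_iff' measurableSet_ball).mpr (ae_of_all _ fun b hb => ?_)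
      rw [← ContinuousLinearMap.sub_comp]
      refine (ContinuousLinearMap.opNorm_comp_le _ _).trans ?_
      rw [mul_comm C]
      exact mul_le_mul_of_nonneg_left (h.norm_le hC ha hb (hw' a ha b hb)) (norm_nonneg _)
    refine lt_of_le_of_lt hbd ?_
    rw [integral_const_mul]
    calc C * ∫ b in ball b₀ r, ‖fderiv ℝ g (w a b) - H (w a b)‖ ∂(vol X)
        ≤ C * ((K ^ finrank ℝ X : ℝ≥0) * δ) := by
          gcongr
          exact hcomp.2.trans (by gcongr)
      _ ≤ (C * (K ^ finrank ℝ X : ℝ≥0) + 1) * δ := by nlinarith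
      _ = ε / 2 := by rw [hδ]; field_simp
      _ < ε := by linarith
  exact contDiffAt_one_iff.mpr ⟨F', ball a₀ r, ball_mem_nhds _ hr, hcont, fun a ha => (hder a ha).2⟩

end fam

end Vale.Agent.P084
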