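import Mathlib
import Vale.Agent.Lib.P084.SphereIso

open Filter Topology Module

namespace Vale.Agent.P084

section hess

variable {E : Type*} [NormedAddCommGroup E] [NormedSpace ℝ E]

theorem hasFDerivAt_dN {x : E} (hE : ContDiffAt ℝ 2 (fun z : E => ‖z‖) x) :
    HasFDerivAt (dN : E → E →L[ℝ] ℝ) (fderiv ℝ dN x) x := by
  have h1 : ContDiffAt ℝ 1 (fderiv ℝ (fun z : E => ‖z‖)) x :=
    hE.fderiv_right (by norm_num)
  exact (h1.differentiableAt (by norm_num)).hasFDerivAt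

theorem contDiffAt_dN {x : E} (hE : ContDiffAt ℝ 2 (fun z : E => ‖z‖) x) :
    ContDiffAt ℝ 1 (dN : E → E →L[ℝ] ℝ) x :=
  hE.fderiv_right (by norm_num)

theorem hess_symm {x : E} (hE : ContDiffAt ℝ 2 (fun z : E => ‖z‖) x) (u v : E) :
    fderiv ℝ dN x u v = fderiv ℝ dN x v u := by
  have h := hE.isSymmSndFDerivAt (by simp)
  exact h u v

theorem hess_smul {x : E} (hE : ContDiffAt ℝ 2 (fun z : E => ‖z‖) x) {c : ℝ} (hc : 0 < c) :
    c • fderiv ℝ dN (c • x) = fderiv ℝ (dN : E → E →L[ℝ] ℝ) x := by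
  have h1 : HasFDerivAt (fun z : E => c • z) (c • ContinuousLinearMap.id ℝ E) x :=
    (hasFDerivAt_id x).const_smul c
  have hE' : ContDiffAt ℝ 2 (fun z : E => ‖z‖) (c • x) := hE.contDiffAt_norm_smul hc.ne'
  have h2 := (hasFDerivAt_dN hE').comp x h1
  have h3 : ((dN : E → E →L[ℝ] ℝ) ∘ fun z : E => c • z) = dN := by
    funext z
    exact dN_smul_pos hc z
  rw [h3] at h2
  have h4 := h2.unique (hasFDerivAt_dN hE)
  rw [← h4]
  ext u v
  simp

theorem hess_self_left {x : E} (hE : ContDiffAt ℝ 2 (fun z : E => ‖z‖) x) (v : E) :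
    fderiv ℝ dN x x v = 0 := by
  have h1 : HasDerivAt (fun t : ℝ => (1 + t) • x) x 0 := by
    have := ((hasDerivAt_id (0 : ℝ)).const_add 1).smul_const x
    simpa using this
  have h2 : HasFDerivAt (dN : E → E →L[ℝ] ℝ) (fderiv ℝ dN x) ((1 + (0:ℝ)) • x) := by
    simpa using hasFDerivAt_dN hE
  have h3 := h2.comp_hasDerivAt (0 : ℝ) h1
  have h4 : ((dN : E → E →L[ℝ] ℝ) ∘ fun t : ℝ => (1 + t) • x) =ᶠ[𝓝 0] fun _ => dN x := by
    have : ∀ᶠ t : ℝ in 𝓝 0, (-1 : ℝ) < t := lt_mem_nhds (by norm_num)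
    filter_upwards [this] with t ht
    exact dN_smul_pos (by linarith) x
  have h5 : HasDerivAt (fun _ : ℝ => dN x) (fderiv ℝ dN x x) 0 := h3.congr_of_eventuallyEq h4.symm
  have h6 := h5.unique (hasDerivAt_const (0 : ℝ) (dN x))
  rw [h6]; simp

end hess

section map

variable {X Y : Type*} [NormedAddCommGroup X] [NormedSpace ℝ X] [NormedAddCommGroup Y]
  [NormedSpace ℝ Y] {T : X → Y}

namespace SphereIso

theorem fderiv_smul (hT : SphereIso T) {x : X} (hTx : DifferentiableAt ℝ T x) {c : ℝ}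
    (hc : c ≠ 0) : HasFDerivAt T (fderiv ℝ T x) (c • x) := by
  have h1 : HasFDerivAt (fun z : X => c⁻¹ • z) (c⁻¹ • ContinuousLinearMap.id ℝ X) (c • x) :=
    (hasFDerivAt_id (c • x)).const_smul c⁻¹
  have hx : HasFDerivAt T (fderiv ℝ T x) (c⁻¹ • (c • x)) := by
    rw [smul_smul, inv_mul_cancel₀ hc, one_smul]; exact hTx.hasFDerivAt
  have h2 := (hx.comp (c • x) h1).const_smul c
  have h3 : (c • (T ∘ fun z : X => c⁻¹ • z)) = T := by
    funext z
    simp only [Pi.smul_apply, Function.comp_apply]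
    rw [← hT.smul, smul_smul, mul_inv_cancel₀ hc, one_smul]
  rw [h3] at h2
  convert h2 using 1
  ext v
  simp [smul_smul, hc]

theorem fderiv_smul_eq (hT : SphereIso T) {x : X} (hTx : DifferentiableAt ℝ T x) {c : ℝ}
    (hc : c ≠ 0) : fderiv ℝ T (c • x) = fderiv ℝ T x :=
  (hT.fderiv_smul hTx hc).fderiv

theorem fderiv_self (hT : SphereIso T) {x : X} (hTx : DifferentiableAt ℝ T x) :
    fderiv ℝ T x x = T x := by
  have h1 : HasDerivAt (fun t : ℝ => (1 + t) • x) x 0 := by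
    have := ((hasDerivAt_id (0 : ℝ)).const_add 1).smul_const x
    simpa using this
  have h2 : HasFDerivAt T (fderiv ℝ T x) ((1 + (0:ℝ)) • x) := by
    simpa using hTx.hasFDerivAt
  have h3 := h2.comp_hasDerivAt (0 : ℝ) h1
  have h4 : (T ∘ fun t : ℝ => (1 + t) • x) = fun t : ℝ => (1 + t) • T x := by
    funext t; exact hT.smul _ _
  rw [h4] at h3
  have h5 : HasDerivAt (fun t : ℝ => (1 + t) • T x) (T x) 0 := by
    have := ((hasDerivAt_id (0 : ℝ)).const_add 1).smul_const (T x)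
    simpa using this
  exact h3.unique h5

theorem snd_self_left (hT : SphereIso T) {x : X} (hTx : ContDiffAt ℝ 2 T x) (v : X) :
    fderiv ℝ (fderiv ℝ T) x x v = 0 := by
  have hd : ContDiffAt ℝ 1 (fderiv ℝ T) x := hTx.fderiv_right (by norm_num)
  have h1 : HasDerivAt (fun t : ℝ => (1 + t) • x) x 0 := by
    have := ((hasDerivAt_id (0 : ℝ)).const_add 1).smul_const x
    simpa using this
  have h2 : HasFDerivAt (fderiv ℝ T) (fderiv ℝ (fderiv ℝ T) x) ((1 + (0:ℝ)) • x) := by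
    simpa using (hd.differentiableAt (by norm_num)).hasFDerivAt
  have h3 := h2.comp_hasDerivAt (0 : ℝ) h1
  have h4 : ((fderiv ℝ T) ∘ fun t : ℝ => (1 + t) • x) =ᶠ[𝓝 0] fun _ => fderiv ℝ T x := by
    have : ∀ᶠ t : ℝ in 𝓝 0, (-1 : ℝ) < t := lt_mem_nhds (by norm_num)
    filter_upwards [this] with t ht
    exact hT.fderiv_smul_eq (hTx.differentiableAt (by norm_num)) (by linarith : 1 + t ≠ 0).symm.symm
  have h5 : HasDerivAt (fun _ : ℝ => fderiv ℝ T x) (fderiv ℝ (fderiv ℝ T) x x) 0 :=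
    h3.congr_of_eventuallyEq h4.symm
  have h6 := h5.unique (hasDerivAt_const (0 : ℝ) (fderiv ℝ T x))
  rw [h6]; simp

theorem dN_comp (hT : SphereIso T) {x : X} (hTx : DifferentiableAt ℝ T x)
    (hY : DifferentiableAt ℝ (fun z : Y => ‖z‖) (T x)) :
    HasFDerivAt (fun z : X => ‖z‖) ((dN (T x)).comp (fderiv ℝ T x)) x := by
  have h := (hasFDerivAt_norm hY).comp x hTx.hasFDerivAt
  have h2 : ((fun z : Y => ‖z‖) ∘ T) = fun z : X => ‖z‖ := by
    funext z; exact hT.norm_map z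
  rwa [h2] at h

theorem dN_apply (hT : SphereIso T) {x : X} (hTx : DifferentiableAt ℝ T x)
    (hY : DifferentiableAt ℝ (fun z : Y => ‖z‖) (T x)) (h : X) :
    dN (T x) (fderiv ℝ T x h) = dN x h := by
  have h1 := (hT.dN_comp hTx hY).fderiv
  have h2 : dN x = (dN (T x)).comp (fderiv ℝ T x) := h1
  rw [h2]; rfl

/-- the derivative is isometric on the tangent space -/
theorem norm_fderiv_tangent (hT : SphereIso T) {x : X} (hx : x ≠ 0)
    (hTx : DifferentiableAt ℝ T x) (hX : DifferentiableAt ℝ (fun z : X => ‖z‖) x)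
    {h : X} (hh : dN x h = 0) : ‖fderiv ℝ T x h‖ = ‖h‖ := by
  have hline : HasDerivAt (fun t : ℝ => x + t • h) h 0 := by
    have := ((hasDerivAt_id (0 : ℝ)).smul_const h).const_add x
    simpa using this
  have hx0 : x + (0 : ℝ) • h = x := by simp
  have hnorm : HasDerivAt (fun t : ℝ => ‖x + t • h‖) 0 0 := by
    have h1 : HasFDerivAt (fun z : X => ‖z‖) (dN x) (x + (0 : ℝ) • h) := by
      rw [hx0]; exact hasFDerivAt_norm hX
    have h2 := h1.comp_hasDerivAt (0 : ℝ) hline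
    rw [hh] at h2
    exact h2
  have hTl : HasDerivAt (fun t : ℝ => T (x + t • h)) (fderiv ℝ T x h) 0 := by
    have h1 : HasFDerivAt T (fderiv ℝ T x) (x + (0 : ℝ) • h) := by
      rw [hx0]; exact hTx.hasFDerivAt
    exact h1.comp_hasDerivAt (0 : ℝ) hline
  have hG : HasDerivAt (fun t : ℝ => ‖x + t • h‖ • T x - ‖x‖ • T (x + t • h))
      (-(‖x‖ • fderiv ℝ T x h)) 0 := by
    have h1 := (hnorm.smul_const (T x)).sub (hTl.const_smul ‖x‖)
    exact h1.congr_deriv (by simp)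
  have hg : HasDerivAt (fun t : ℝ => ‖x + t • h‖ • x - ‖x‖ • (x + t • h))
      (-(‖x‖ • h)) 0 := by
    have h1 := (hnorm.smul_const x).sub (hline.const_smul ‖x‖)
    exact h1.congr_deriv (by simp)
  rw [hasDerivAt_iff_tendsto_slope_zero] at hG hg
  have h1 := hG.norm
  have h2 := hg.norm
  have h3 : (fun t : ℝ => ‖t⁻¹ • ((fun t : ℝ => ‖x + t • h‖ • T x - ‖x‖ • T (x + t • h)) (0 + t)
        - (fun t : ℝ => ‖x + t • h‖ • T x - ‖x‖ • T (x + t • h)) 0)‖)
      = (fun t : ℝ => ‖t⁻¹ • ((fun t : ℝ => ‖x + t • h‖ • x - ‖x‖ • (x + t • h)) (0 + t)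
        - (fun t : ℝ => ‖x + t • h‖ • x - ‖x‖ • (x + t • h)) 0)‖) := by
    funext t
    simp only [zero_add, hx0, sub_self, sub_zero, norm_smul]
    rw [hT.dist_gen]
  rw [h3] at h1
  have h4 := tendsto_nhds_unique h1 h2
  rw [norm_neg, norm_neg, norm_smul, norm_smul] at h4
  exact mul_left_cancel₀ (by simpa using hx) h4

end SphereIso

end map

end Vale.Agent.P084
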