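import Mathlib
import Vale.Agent.Lib.P084.Local

open Filter Topology Module

namespace Vale.Agent.P084

theorem hasFDerivAt_clm_apply_of_zero {E F G : Type*} [NormedAddCommGroup E] [NormedSpace ℝ E]
    [NormedAddCommGroup F] [NormedSpace ℝ F] [NormedAddCommGroup G] [NormedSpace ℝ G]
    {L : E → F →L[ℝ] G} {Δ : E → F} {Δ' : E →L[ℝ] F} {x : E}
    (hL : ContinuousAt L x) (hΔ : HasFDerivAt Δ Δ' x) (h0 : Δ x = 0) :
    HasFDerivAt (fun y => L y (Δ y)) ((L x).comp Δ') x := by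
  have h1 : HasFDerivAt (fun y => L x (Δ y)) ((L x).comp Δ') x :=
    (L x).hasFDerivAt.comp x hΔ
  have h2 : HasFDerivAt (fun y => (L y - L x) (Δ y)) (0 : E →L[ℝ] G) x := by
    rw [hasFDerivAt_iff_isLittleO]
    have hO : (fun y => Δ y) =O[𝓝 x] fun y => y - x := by
      have := hΔ.isBigO_sub
      simpa [h0] using this
    have ho : (fun y => L y - L x) =o[𝓝 x] fun _ => (1 : ℝ) := by
      rw [Asymptotics.isLittleO_one_iff]
      have : Tendsto (fun y => L y - L x) (𝓝 x) (𝓝 (L x - L x)) := hL.tendsto.sub_const _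
      simpa using this
    have h3 : (fun y => (L y - L x) (Δ y)) =O[𝓝 x] fun y => ‖L y - L x‖ * ‖Δ y‖ := by
      apply Asymptotics.IsBigO.of_bound 1
      filter_upwards with y
      rw [one_mul, norm_mul, norm_norm, norm_norm]
      exact (L y - L x).le_opNorm _
    have h4 : (fun y => ‖L y - L x‖ * ‖Δ y‖) =o[𝓝 x] fun y => (1 : ℝ) * ‖y - x‖ :=
      ho.norm_left.mul_isBigO hO.norm_norm
    have h5 := h3.trans_isLittleO h4
    simp only [h0, _root_.map_zero, sub_zero, _root_.zero_apply]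
    simpa using h5
  have h3 := h1.add h2
  simp only [add_zero] at h3
  refine h3.congr_of_eventuallyEq ?_
  filter_upwards with y
  simp

section map

variable {X Y : Type*} [NormedAddCommGroup X] [NormedSpace ℝ X] [NormedAddCommGroup Y]
  [NormedSpace ℝ Y] {T : X → Y}

namespace SphereIso

theorem hess_tangent (hT : SphereIso T)
    (hX : ∀ x : X, x ≠ 0 → ContDiffAt ℝ 2 (fun z : X => ‖z‖) x)
    (hY : ∀ y : Y, y ≠ 0 → ContDiffAt ℝ 2 (fun z : Y => ‖z‖) y)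
    {x : X} (hx : x ≠ 0) (hTx : DifferentiableAt ℝ T x)
    {u h : X} (hu : dN x u = 0) (hh : dN x h = 0) :
    fderiv ℝ dN (T x) (fderiv ℝ T x u) (fderiv ℝ T x h) = fderiv ℝ dN x u h := by
  have hXd : ∀ x : X, x ≠ 0 → DifferentiableAt ℝ (fun z : X => ‖z‖) x :=
    fun x hx => (hX x hx).differentiableAt (by norm_num)
  have hYd : ∀ x : Y, x ≠ 0 → DifferentiableAt ℝ (fun z : Y => ‖z‖) x :=
    fun x hx => (hY x hx).differentiableAt (by norm_num)
  have hTx0 : T x ≠ 0 := hT.map_ne_zero hx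
  have hnx : 0 < ‖x‖ := norm_pos_iff.mpr hx
  have hline : HasDerivAt (fun t : ℝ => x + t • u) u 0 := by
    have := ((hasDerivAt_id (0 : ℝ)).smul_const u).const_add x
    simpa using this
  have hx0 : x + (0 : ℝ) • u = x := by simp
  have hnorm : HasDerivAt (fun t : ℝ => ‖x + t • u‖) 0 0 := by
    have h1 : HasFDerivAt (fun z : X => ‖z‖) (dN x) (x + (0 : ℝ) • u) := by
      rw [hx0]; exact hasFDerivAt_norm (hXd x hx)
    have h2 := h1.comp_hasDerivAt (0 : ℝ) hline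
    rw [hu] at h2
    exact h2
  have hTl : HasDerivAt (fun t : ℝ => T (x + t • u)) (fderiv ℝ T x u) 0 := by
    have h1 : HasFDerivAt T (fderiv ℝ T x) (x + (0 : ℝ) • u) := by
      rw [hx0]; exact hTx.hasFDerivAt
    exact h1.comp_hasDerivAt (0 : ℝ) hline
  have hP : HasDerivAt (fun t : ℝ => ‖x + t • u‖ • T x + ‖x‖ • T (x + t • u))
      (‖x‖ • fderiv ℝ T x u) 0 := by
    have h1 := (hnorm.smul_const (T x)).add (hTl.const_smul ‖x‖)
    exact h1.congr_deriv (by simp)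
  have hp : HasDerivAt (fun t : ℝ => ‖x + t • u‖ • x + ‖x‖ • (x + t • u))
      (‖x‖ • u) 0 := by
    have h1 := (hnorm.smul_const x).add (hline.const_smul ‖x‖)
    exact h1.congr_deriv (by simp)
  have hP0 : ‖x + (0:ℝ) • u‖ • T x + ‖x‖ • T (x + (0:ℝ) • u) = (2 * ‖x‖) • T x := by
    rw [hx0, ← two_smul ℝ, smul_smul]
  have hp0 : ‖x + (0:ℝ) • u‖ • x + ‖x‖ • (x + (0:ℝ) • u) = (2 * ‖x‖) • x := by
    rw [hx0, ← two_smul ℝ, smul_smul]
  have hc : 0 < 2 * ‖x‖ := by positivity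
  have hQ : HasDerivAt (fun t : ℝ => dN (‖x + t • u‖ • T x + ‖x‖ • T (x + t • u)) (fderiv ℝ T x h))
      (fderiv ℝ dN ((2 * ‖x‖) • T x) (‖x‖ • fderiv ℝ T x u) (fderiv ℝ T x h)) 0 := by
    have h1 : HasFDerivAt (dN : Y → Y →L[ℝ] ℝ) (fderiv ℝ dN ((2 * ‖x‖) • T x))
        (‖x + (0:ℝ) • u‖ • T x + ‖x‖ • T (x + (0:ℝ) • u)) := by
      rw [hP0]
      exact hasFDerivAt_dN (hY _ (smul_ne_zero hc.ne' hTx0))
    have h2 := h1.comp_hasDerivAt (0 : ℝ) hP
    have h3 := h2.clm_apply (hasDerivAt_const (0 : ℝ) (fderiv ℝ T x h))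
    exact h3.congr_deriv (by simp)
  have hq : HasDerivAt (fun t : ℝ => dN (‖x + t • u‖ • x + ‖x‖ • (x + t • u)) h)
      (fderiv ℝ dN ((2 * ‖x‖) • x) (‖x‖ • u) h) 0 := by
    have h1 : HasFDerivAt (dN : X → X →L[ℝ] ℝ) (fderiv ℝ dN ((2 * ‖x‖) • x))
        (‖x + (0:ℝ) • u‖ • x + ‖x‖ • (x + (0:ℝ) • u)) := by
      rw [hp0]
      exact hasFDerivAt_dN (hX _ (smul_ne_zero hc.ne' hx))
    have h2 := h1.comp_hasDerivAt (0 : ℝ) hp
    have h3 := h2.clm_apply (hasDerivAt_const (0 : ℝ) h)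
    exact h3.congr_deriv (by simp)
  have hev1 : ∀ᶠ t : ℝ in 𝓝 0, x + t • u ≠ 0 := by
    apply hline.continuousAt.eventually_ne
    rw [hx0]; exact hx
  have hev2 : ∀ᶠ t : ℝ in 𝓝 0, ‖x + t • u‖ • x + ‖x‖ • (x + t • u) ≠ 0 := by
    apply hp.continuousAt.eventually_ne
    rw [hp0]; exact smul_ne_zero hc.ne' hx
  have hev3 : ∀ᶠ t : ℝ in 𝓝 0, ‖x + t • u‖ • T x + ‖x‖ • T (x + t • u) ≠ 0 := by
    apply hP.continuousAt.eventually_ne
    rw [hP0]; exact smul_ne_zero hc.ne' hTx0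
  have heq : (fun t : ℝ => dN (‖x + t • u‖ • T x + ‖x‖ • T (x + t • u)) (fderiv ℝ T x h))
      =ᶠ[𝓝 0] (fun t : ℝ => dN (‖x + t • u‖ • x + ‖x‖ • (x + t • u)) h) := by
    filter_upwards [hev1, hev2, hev3] with t ht1 ht2 ht3
    have e1 : ‖-(x + t • u)‖ • x - ‖x‖ • (-(x + t • u))
        = ‖x + t • u‖ • x + ‖x‖ • (x + t • u) := by
      rw [_root_.norm_neg, smul_neg, sub_neg_eq_add]
    have e2 : ‖-(x + t • u)‖ • T x - ‖x‖ • T (-(x + t • u))
        = ‖x + t • u‖ • T x + ‖x‖ • T (x + t • u) := by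
      rw [_root_.norm_neg, hT.map_neg, smul_neg, sub_neg_eq_add]
    have h1 := hT.first_order (a := x) (b := -(x + t • u)) (h := h) (neg_ne_zero.mpr ht1)
      (hXd x hx) (by rw [e1]; exact hXd _ ht2) (by rw [e2]; exact hYd _ ht3) hTx hh
    rw [e1, e2] at h1
    exact h1
  have h1 := (hQ.congr_of_eventuallyEq heq.symm).unique hq
  have h2 : (2 * ‖x‖) • fderiv ℝ dN ((2 * ‖x‖) • T x) = fderiv ℝ dN (T x) :=
    hess_smul (hY _ hTx0) hc
  have h3 : (2 * ‖x‖) • fderiv ℝ dN ((2 * ‖x‖) • x) = fderiv ℝ dN x :=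
    hess_smul (hX _ hx) hc
  rw [← h2, ← h3]
  simp only [_root_.smul_apply, map_smul, smul_eq_mul] at h1 ⊢
  have h4 := mul_left_cancel₀ hnx.ne' h1
  rw [h4]

theorem snd_symm {x : X} (hTC : ContDiffAt ℝ 2 T x) (u v : X) :
    fderiv ℝ (fderiv ℝ T) x u v = fderiv ℝ (fderiv ℝ T) x v u := by
  have h := hTC.isSymmSndFDerivAt (by simp)
  exact h u v

theorem hasFDerivAt_fderiv {x : X} (hTC : ContDiffAt ℝ 2 T x) :
    HasFDerivAt (fderiv ℝ T) (fderiv ℝ (fderiv ℝ T) x) x := by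
  have hd : ContDiffAt ℝ 1 (fderiv ℝ T) x := hTC.fderiv_right (by norm_num)
  exact (hd.differentiableAt (by norm_num)).hasFDerivAt

theorem exists_decomp {x : X} (hx : x ≠ 0) (hXd : DifferentiableAt ℝ (fun z : X => ‖z‖) x) (u : X) :
    ∃ (α : ℝ) (u₀ : X), dN x u₀ = 0 ∧ u = α • x + u₀ := by
  have hnx : ‖x‖ ≠ 0 := norm_ne_zero_iff.mpr hx
  refine ⟨dN x u / ‖x‖, u - (dN x u / ‖x‖) • x, ?_, by abel⟩
  rw [map_sub, map_smul, dN_self hXd, smul_eq_mul, div_mul_cancel₀ _ hnx, sub_self]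

theorem snd_decomp (hT : SphereIso T) {x : X} (hTC : ContDiffAt ℝ 2 T x) (α β : ℝ) (u h : X) :
    fderiv ℝ (fderiv ℝ T) x (α • x + u) (β • x + h) = fderiv ℝ (fderiv ℝ T) x u h := by
  have h1 : ∀ v, fderiv ℝ (fderiv ℝ T) x x v = 0 := fun v => hT.snd_self_left hTC v
  have h2 : ∀ v, fderiv ℝ (fderiv ℝ T) x v x = 0 := fun v => by
    rw [snd_symm hTC, h1]
  simp only [map_add, map_smul, _root_.add_apply, _root_.smul_apply, h1, h2, smul_zero, zero_add]

theorem dN_snd_zero (hT : SphereIso T)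
    (hX : ∀ x : X, x ≠ 0 → ContDiffAt ℝ 2 (fun z : X => ‖z‖) x)
    (hY : ∀ y : Y, y ≠ 0 → ContDiffAt ℝ 2 (fun z : Y => ‖z‖) y)
    (hTC : ∀ x : X, x ≠ 0 → ContDiffAt ℝ 2 T x)
    {x : X} (hx : x ≠ 0) (u h : X) :
    dN (T x) (fderiv ℝ (fderiv ℝ T) x u h) = 0 := by
  have hXd : ∀ x : X, x ≠ 0 → DifferentiableAt ℝ (fun z : X => ‖z‖) x :=
    fun x hx => (hX x hx).differentiableAt (by norm_num)
  have hYd : ∀ x : Y, x ≠ 0 → DifferentiableAt ℝ (fun z : Y => ‖z‖) x :=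
    fun x hx => (hY x hx).differentiableAt (by norm_num)
  have hTd : ∀ x : X, x ≠ 0 → DifferentiableAt ℝ T x :=
    fun x hx => (hTC x hx).differentiableAt (by norm_num)
  have hTx0 : T x ≠ 0 := hT.map_ne_zero hx
  have key : ∀ u h : X, dN x u = 0 → dN x h = 0 →
      dN (T x) (fderiv ℝ (fderiv ℝ T) x u h) = 0 := by
    intro u h hu hh
    have h1 : HasFDerivAt (fun z => dN (T z)) ((fderiv ℝ dN (T x)).comp (fderiv ℝ T x)) x :=
      (hasFDerivAt_dN (hY _ hTx0)).comp x (hTd x hx).hasFDerivAt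
    have h2 : HasFDerivAt (fun z => fderiv ℝ T z h) ((fderiv ℝ (fderiv ℝ T) x).flip h) x := by
      have := (hasFDerivAt_fderiv (hTC x hx)).clm_apply (hasFDerivAt_const h x)
      refine this.congr_fderiv ?_
      ext v; simp
    have h3 := h1.clm_apply h2
    have h4 : HasFDerivAt (fun z => dN z h) ((fderiv ℝ dN x).flip h) x := by
      have := (hasFDerivAt_dN (hX x hx)).clm_apply (hasFDerivAt_const h x)
      refine this.congr_fderiv ?_
      ext v; simp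
    have heq : (fun z => dN (T z) (fderiv ℝ T z h)) =ᶠ[𝓝 x] (fun z => dN z h) := by
      filter_upwards [isOpen_ne.mem_nhds hx] with z hz
      exact hT.dN_apply (hTd z hz) (hYd _ (hT.map_ne_zero hz)) h
    have h5 := (h3.congr_of_eventuallyEq heq.symm).unique h4
    have h6 := congrArg (fun L : X →L[ℝ] ℝ => L u) h5
    have h7 := hT.hess_tangent hX hY hx (hTd x hx) hu hh
    simp only [_root_.add_apply, ContinuousLinearMap.comp_apply, ContinuousLinearMap.flip_apply,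
      h7] at h6
    linarith
  obtain ⟨α, u₀, hu₀, rfl⟩ := exists_decomp hx (hXd x hx) u
  obtain ⟨β, h₀, hh₀, rfl⟩ := exists_decomp hx (hXd x hx) h
  rw [hT.snd_decomp (hTC x hx)]
  exact key u₀ h₀ hu₀ hh₀

/-- total symmetry of the cubic form -/
theorem third_symm (hT : SphereIso T)
    (hX : ∀ x : X, x ≠ 0 → ContDiffAt ℝ 2 (fun z : X => ‖z‖) x)
    (hY : ∀ y : Y, y ≠ 0 → ContDiffAt ℝ 2 (fun z : Y => ‖z‖) y)
    (hTC : ∀ x : X, x ≠ 0 → ContDiffAt ℝ 2 T x)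
    {x : X} (hx : x ≠ 0) (w u m : X) :
    fderiv ℝ dN (T x) (fderiv ℝ T x w) (fderiv ℝ (fderiv ℝ T) x u m)
      = fderiv ℝ dN (T x) (fderiv ℝ T x u) (fderiv ℝ (fderiv ℝ T) x w m) := by
  have hTd : ∀ x : X, x ≠ 0 → DifferentiableAt ℝ T x :=
    fun x hx => (hTC x hx).differentiableAt (by norm_num)
  have hTx0 : T x ≠ 0 := hT.map_ne_zero hx
  set G : X → ℝ := fun y => dN (T y) (fderiv ℝ T y m - fderiv ℝ T x m) with hG
  set G' : X → X →L[ℝ] ℝ := fun y =>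
    ((fderiv ℝ dN (T y)).comp (fderiv ℝ T y)).flip (fderiv ℝ T y m - fderiv ℝ T x m) with hG'
  set G'' : X →L[ℝ] X →L[ℝ] ℝ :=
    (((fderiv ℝ dN (T x)).comp (fderiv ℝ T x)).flip).comp ((fderiv ℝ (fderiv ℝ T) x).flip m)
    with hG''
  have hd2 : ∀ y : X, y ≠ 0 →
      HasFDerivAt (fun z => fderiv ℝ T z m - fderiv ℝ T x m) ((fderiv ℝ (fderiv ℝ T) y).flip m) y := by
    intro y hy
    have := ((hasFDerivAt_fderiv (hTC y hy)).clm_apply (hasFDerivAt_const m y)).sub_const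
      (fderiv ℝ T x m)
    refine this.congr_fderiv ?_
    ext v; simp
  have h1 : ∀ᶠ y in 𝓝 x, HasFDerivAt G (G' y) y := by
    filter_upwards [isOpen_ne.mem_nhds hx] with y hy
    have h1 : HasFDerivAt (fun z => dN (T z)) ((fderiv ℝ dN (T y)).comp (fderiv ℝ T y)) y :=
      (hasFDerivAt_dN (hY _ (hT.map_ne_zero hy))).comp y (hTd y hy).hasFDerivAt
    have h3 := h1.clm_apply (hd2 y hy)
    refine h3.congr_fderiv ?_
    ext v
    simp only [_root_.add_apply, ContinuousLinearMap.comp_apply, ContinuousLinearMap.flip_apply,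
      hT.dN_snd_zero hX hY hTC hy, zero_add, hG']
  have h2 : HasFDerivAt G' G'' x := by
    have hcont : ContinuousAt (fun y => ((fderiv ℝ dN (T y)).comp (fderiv ℝ T y)).flip) x := by
      have c1 : ContinuousAt (fun y => fderiv ℝ T y) x :=
        (hasFDerivAt_fderiv (hTC x hx)).continuousAt
      have c2 : ContinuousAt (fun y => fderiv ℝ (dN : Y → Y →L[ℝ] ℝ) (T y)) x := by
        have c3 : ContDiffAt ℝ 0 (fderiv ℝ (dN : Y → Y →L[ℝ] ℝ)) (T x) :=
          (contDiffAt_dN (hY _ hTx0)).fderiv_right (by norm_num)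
        exact ContinuousAt.comp (f := T) c3.continuousAt (hTd x hx).continuousAt
      have c3 : ContinuousAt (fun y => (fderiv ℝ dN (T y)).comp (fderiv ℝ T y)) x :=
        c2.clm_comp c1
      exact (ContinuousLinearMap.flipₗᵢ ℝ X Y ℝ).continuous.continuousAt.comp c3
    have := hasFDerivAt_clm_apply_of_zero hcont (hd2 x hx) (sub_self _)
    exact this
  have h3 := second_derivative_symmetric_of_eventually h1 h2 u w
  simpa [hG''] using h3

end SphereIso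

end map

end Vale.Agent.P084
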