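import Mathlib
import Vale.Agent.Lib.P084.Local2

open Filter Topology Module

namespace Vale.Agent.P084

theorem tendsto_slope_of_zero {F : Type*} [NormedAddCommGroup F] [NormedSpace ℝ F] {f : ℝ → F}
    {f' : F} (h : HasDerivAt f f' 0) (h0 : f 0 = 0) :
    Tendsto (fun t : ℝ => t⁻¹ • f t) (𝓝[≠] 0) (𝓝 f') := by
  have := hasDerivAt_iff_tendsto_slope_zero.mp h
  simpa only [zero_add, h0, sub_zero] using this

theorem tendsto_clm_apply {α F G : Type*} [NormedAddCommGroup F] [NormedSpace ℝ F]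
    [NormedAddCommGroup G] [NormedSpace ℝ G] {l : Filter α} {L : α → F →L[ℝ] G} {v : α → F}
    {L0 : F →L[ℝ] G} {v0 : F} (hL : Tendsto L l (𝓝 L0)) (hv : Tendsto v l (𝓝 v0)) :
    Tendsto (fun a => L a (v a)) l (𝓝 (L0 v0)) :=
  ((isBoundedBilinearMap_apply (𝕜 := ℝ) (E := F) (F := G)).continuous.tendsto (L0, v0)).comp
    (hL.prodMk_nhds hv)

theorem hasDerivAt_line {X : Type*} [NormedAddCommGroup X] [NormedSpace ℝ X] (x u : X) :
    HasDerivAt (fun t : ℝ => x + t • u) u 0 := by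
  have := ((hasDerivAt_id (0 : ℝ)).smul_const u).const_add x
  simpa using this

theorem hasDerivAt_comp_line {X F : Type*} [NormedAddCommGroup X] [NormedSpace ℝ X]
    [NormedAddCommGroup F] [NormedSpace ℝ F] {f : X → F} {f' : X →L[ℝ] F} {x : X}
    (hf : HasFDerivAt f f' x) (u : X) :
    HasDerivAt (fun t : ℝ => f (x + t • u)) (f' u) 0 := by
  have h1 : HasFDerivAt f f' (x + (0 : ℝ) • u) := by simpa using hf
  exact h1.comp_hasDerivAt (0 : ℝ) (hasDerivAt_line x u)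

section map

variable {X Y : Type*} [NormedAddCommGroup X] [NormedSpace ℝ X] [NormedAddCommGroup Y]
  [NormedSpace ℝ Y] {T : X → Y}

theorem tendsto_gslope {x u : X} (hTd : DifferentiableAt ℝ T x)
    (hX : DifferentiableAt ℝ (fun z : X => ‖z‖) x) (hu : dN x u = 0) :
    Tendsto (fun t : ℝ => t⁻¹ • (‖x + t • u‖ • T x - ‖x‖ • T (x + t • u))) (𝓝[≠] 0)
      (𝓝 (-(‖x‖ • fderiv ℝ T x u))) := by
  have hnorm : HasDerivAt (fun t : ℝ => ‖x + t • u‖) 0 0 := by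
    have h2 := hasDerivAt_comp_line (hasFDerivAt_norm hX) u
    rwa [hu] at h2
  have hTl : HasDerivAt (fun t : ℝ => T (x + t • u)) (fderiv ℝ T x u) 0 :=
    hasDerivAt_comp_line hTd.hasFDerivAt u
  have hGd : HasDerivAt (fun t : ℝ => ‖x + t • u‖ • T x - ‖x‖ • T (x + t • u))
      (-(‖x‖ • fderiv ℝ T x u)) 0 := by
    have h1 := (hnorm.smul_const (T x)).sub (hTl.const_smul ‖x‖)
    exact h1.congr_deriv (by simp)
  exact tendsto_slope_of_zero hGd (by simp)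

theorem tendsto_hslope {x u k : X} (hX : ContDiffAt ℝ 2 (fun z : X => ‖z‖) x) (hk : dN x k = 0) :
    Tendsto (fun t : ℝ => t⁻¹ * dN (x + t • u) k) (𝓝[≠] 0) (𝓝 (fderiv ℝ dN x u k)) := by
  have h2 := hasDerivAt_comp_line (hasFDerivAt_dN hX) u
  have h3 : HasDerivAt (fun t : ℝ => dN (x + t • u) k) (fderiv ℝ dN x u k) 0 := by
    have h3 := h2.clm_apply (hasDerivAt_const (0 : ℝ) k)
    exact h3.congr_deriv (by simp)
  exact tendsto_slope_of_zero h3 (by simpa using hk)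

theorem tendsto_dslope {x u : X} (hTC : ContDiffAt ℝ 2 T x) :
    Tendsto (fun t : ℝ => t⁻¹ • (fderiv ℝ T (x + t • u) - fderiv ℝ T x)) (𝓝[≠] 0)
      (𝓝 (fderiv ℝ (fderiv ℝ T) x u)) := by
  have h2 : HasDerivAt (fun t : ℝ => fderiv ℝ T (x + t • u) - fderiv ℝ T x)
      (fderiv ℝ (fderiv ℝ T) x u) 0 :=
    (hasDerivAt_comp_line (SphereIso.hasFDerivAt_fderiv hTC) u).sub_const _
  exact tendsto_slope_of_zero h2 (by simp)

namespace SphereIso

/-- the finite difference identity -/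
theorem finite_diff (hT : SphereIso T)
    (hXd : ∀ x : X, x ≠ 0 → DifferentiableAt ℝ (fun z : X => ‖z‖) x)
    (hYd : ∀ y : Y, y ≠ 0 → DifferentiableAt ℝ (fun z : Y => ‖z‖) y)
    (hTd : ∀ x : X, x ≠ 0 → DifferentiableAt ℝ T x)
    {x b k : X} (hx : x ≠ 0) (hb : b ≠ 0) (hg : ‖b‖ • x - ‖x‖ • b ≠ 0)
    (hk1 : dN x k = 0) (hk2 : dN b k = 0) :
    dN (‖b‖ • T x - ‖x‖ • T b) ((fderiv ℝ T b - fderiv ℝ T x) k) = 0 := by
  have hG : ‖b‖ • T x - ‖x‖ • T b ≠ 0 := by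
    rw [← norm_ne_zero_iff, hT.dist_gen, norm_ne_zero_iff]; exact hg
  have e1 := hT.first_order (a := x) (b := b) (h := k) hb (hXd x hx) (hXd _ hg)
    (hYd _ hG) (hTd x hx) hk1
  have hg' : ‖x‖ • b - ‖b‖ • x = -(‖b‖ • x - ‖x‖ • b) := by abel
  have hG' : ‖x‖ • T b - ‖b‖ • T x = -(‖b‖ • T x - ‖x‖ • T b) := by abel
  have e2 := hT.first_order (a := b) (b := x) (h := k) hx (hXd _ hb)
    (by rw [hg']; exact hXd _ (neg_ne_zero.mpr hg))
    (by rw [hG']; exact hYd _ (neg_ne_zero.mpr hG)) (hTd _ hb) hk2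
  rw [hg', hG', dN_neg, dN_neg] at e2
  simp only [_root_.neg_apply] at e2
  rw [_root_.sub_apply, map_sub]
  linarith

theorem fderiv_ne_zero (hT : SphereIso T) {x : X} (hx : x ≠ 0)
    (hTx : DifferentiableAt ℝ T x) (hX : DifferentiableAt ℝ (fun z : X => ‖z‖) x)
    {h : X} (hh : dN x h = 0) (h0 : h ≠ 0) : fderiv ℝ T x h ≠ 0 := by
  rw [← norm_ne_zero_iff, hT.norm_fderiv_tangent hx hTx hX hh, norm_ne_zero_iff]
  exact h0

theorem second_order (hT : SphereIso T)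
    (hX : ∀ x : X, x ≠ 0 → ContDiffAt ℝ 2 (fun z : X => ‖z‖) x)
    (hY : ∀ y : Y, y ≠ 0 → ContDiffAt ℝ 2 (fun z : Y => ‖z‖) y)
    (hTC : ∀ x : X, x ≠ 0 → ContDiffAt ℝ 2 T x)
    {x : X} (hx : x ≠ 0) {u h : X} (hu0 : u ≠ 0) (hu : dN x u = 0) (hh : dN x h = 0)
    (hHuu : fderiv ℝ dN x u u ≠ 0) (hHuh : fderiv ℝ dN x u h = 0) :
    dN (fderiv ℝ T x u) (fderiv ℝ (fderiv ℝ T) x u h) = 0 := by
  have hXd : ∀ x : X, x ≠ 0 → DifferentiableAt ℝ (fun z : X => ‖z‖) x :=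
    fun x hx => (hX x hx).differentiableAt (by norm_num)
  have hYd : ∀ x : Y, x ≠ 0 → DifferentiableAt ℝ (fun z : Y => ‖z‖) x :=
    fun x hx => (hY x hx).differentiableAt (by norm_num)
  have hTd : ∀ x : X, x ≠ 0 → DifferentiableAt ℝ T x :=
    fun x hx => (hTC x hx).differentiableAt (by norm_num)
  have hnx : 0 < ‖x‖ := norm_pos_iff.mpr hx
  have hDu0 : fderiv ℝ T x u ≠ 0 := hT.fderiv_ne_zero hx (hTd x hx) (hXd x hx) hu hu0
  have hGs := tendsto_gslope (hTd x hx) (hXd x hx) hu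
  have hr := tendsto_hslope (u := u) (hX x hx) hh
  have hs := tendsto_hslope (u := u) (hX x hx) hu
  rw [hHuh] at hr
  have hDs := tendsto_dslope (u := u) (hTC x hx)
  -- the corrected vectors
  set k : ℝ → X := fun t => h - ((t⁻¹ * dN (x + t • u) h) / (t⁻¹ * dN (x + t • u) u)) • u with hk
  have hklim : Tendsto k (𝓝[≠] 0) (𝓝 h) := by
    have h1 := (hr.div hs hHuu).smul_const u
    have h2 := h1.const_sub h
    simpa [hk] using h2
  have hv0 : -(‖x‖ • fderiv ℝ T x u) ≠ 0 := by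
    rw [neg_ne_zero]; exact smul_ne_zero hnx.ne' hDu0
  -- eventual facts
  have hev1 : ∀ᶠ t : ℝ in 𝓝[≠] 0, x + t • u ≠ 0 := by
    apply eventually_nhdsWithin_of_eventually_nhds
    apply (hasDerivAt_line x u).continuousAt.eventually_ne
    simpa using hx
  have hev3 : ∀ᶠ t : ℝ in 𝓝[≠] 0, t⁻¹ • (‖x + t • u‖ • T x - ‖x‖ • T (x + t • u)) ≠ 0 :=
    hGs.eventually_ne hv0
  have hev4 : ∀ᶠ t : ℝ in 𝓝[≠] 0, t⁻¹ * dN (x + t • u) u ≠ 0 := hs.eventually_ne hHuu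
  have hev5 : ∀ᶠ t : ℝ in 𝓝[≠] 0, t ≠ 0 := self_mem_nhdsWithin
  have hzero : ∀ᶠ t : ℝ in 𝓝[≠] 0,
      dN (t⁻¹ • (‖x + t • u‖ • T x - ‖x‖ • T (x + t • u)))
        ((t⁻¹ • (fderiv ℝ T (x + t • u) - fderiv ℝ T x)) (k t)) = 0 := by
    filter_upwards [hev1, hev3, hev4, hev5] with t ht1 ht3 ht4 ht5
    have hti : t⁻¹ ≠ 0 := inv_ne_zero ht5
    have hG : ‖x + t • u‖ • T x - ‖x‖ • T (x + t • u) ≠ 0 := fun h0 => ht3 (by rw [h0, smul_zero])
    have hg : ‖x + t • u‖ • x - ‖x‖ • (x + t • u) ≠ 0 := by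
      rw [← norm_ne_zero_iff, ← hT.dist_gen, norm_ne_zero_iff]; exact hG
    have hk1 : dN x (k t) = 0 := by
      simp only [hk, map_sub, map_smul, hh, hu, smul_zero, sub_self]
    have hk2 : dN (x + t • u) (k t) = 0 := by
      have hne : dN (x + t • u) u ≠ 0 := fun h0 => ht4 (by rw [h0, mul_zero])
      simp only [hk, map_sub, map_smul, smul_eq_mul]
      field_simp
      ring
    have e3 := hT.finite_diff hXd hYd hTd hx ht1 hg hk1 hk2
    rcases lt_or_gt_of_ne hti with hneg | hpos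
    · rw [dN_smul_neg hneg]
      simp only [_root_.neg_apply, _root_.smul_apply, map_smul, e3, smul_zero, neg_zero]
    · rw [dN_smul_pos hpos]
      simp only [_root_.smul_apply, map_smul, e3, smul_zero]
  -- pass to the limit
  have hdNc : ContinuousAt (dN : Y → Y →L[ℝ] ℝ) (-(‖x‖ • fderiv ℝ T x u)) :=
    (contDiffAt_dN (hY _ hv0)).continuousAt
  have hl1 := hdNc.tendsto.comp hGs
  have hl3 := tendsto_clm_apply hl1 (tendsto_clm_apply hDs hklim)
  have hl4 : Tendsto (fun _ : ℝ => (0 : ℝ)) (𝓝[≠] 0) (𝓝 (dN (-(‖x‖ • fderiv ℝ T x u))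
      (fderiv ℝ (fderiv ℝ T) x u h))) := by
    refine hl3.congr' ?_
    filter_upwards [hzero] with t ht
    exact ht
  have h5 := tendsto_nhds_unique hl4 tendsto_const_nhds
  rw [dN_neg, dN_smul_pos hnx] at h5
  simpa using h5

end SphereIso

end map

end Vale.Agent.P084
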