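import Mathlib
import Vale.Agent.Lib.P084.SphereIso

open Filter Topology Module Metric

namespace Vale.Agent.P084

variable {X Y : Type*} [NormedAddCommGroup X] [NormedSpace ℝ X] [NormedAddCommGroup Y]
  [NormedSpace ℝ Y]

theorem dist_sphere_two_iff [StrictConvexSpace ℝ X] {x y : X} (hx : ‖x‖ = 1) (hy : ‖y‖ = 1) :
    ‖x - y‖ = 2 → y = -x := by
  intro h
  have h1 : ‖x + (-y)‖ = ‖x‖ + ‖-y‖ := by
    rw [← sub_eq_add_neg, h, norm_neg, hx, hy]; norm_num
  have h2 : x = -y := eq_of_norm_eq_of_norm_add_eq (by rw [norm_neg, hx, hy]) h1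
  rw [h2, neg_neg]

/-- The target is strictly convex. -/
theorem strictConvex_of_isometry [StrictConvexSpace ℝ X] (f : sphere (0 : X) 1 → sphere (0 : Y) 1)
    (hf : Isometry f) (hsurj : Function.Surjective f) : StrictConvexSpace ℝ Y := by
  apply StrictConvexSpace.of_norm_add_ne_two
  intro a b ha hb hab h2
  obtain ⟨a', ha'⟩ := hsurj ⟨a, by simpa using ha⟩
  obtain ⟨b', hb'⟩ := hsurj ⟨-b, by simpa using hb⟩
  obtain ⟨c', hc'⟩ := hsurj ⟨-a, by simpa using ha⟩
  have na' : ‖(a' : X)‖ = 1 := by simp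
  have nb' : ‖(b' : X)‖ = 1 := by simp
  have nc' : ‖(c' : X)‖ = 1 := by simp
  have h3 : ‖(a' : X) - b'‖ = 2 := by
    have := hf.dist_eq a' b'
    rw [ha', hb', Subtype.dist_eq, Subtype.dist_eq, dist_eq_norm, dist_eq_norm] at this
    rw [← this]
    simpa [sub_neg_eq_add] using h2
  have h4 : ‖(a' : X) - c'‖ = 2 := by
    have := hf.dist_eq a' c'
    rw [ha', hc', Subtype.dist_eq, Subtype.dist_eq, dist_eq_norm, dist_eq_norm] at this
    rw [← this]
    simp only [sub_neg_eq_add]
    rw [← two_smul ℝ, norm_smul, ha]; norm_num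
  have h5 := dist_sphere_two_iff na' nb' h3
  have h6 := dist_sphere_two_iff na' nc' h4
  have h7 : b' = c' := Subtype.ext (h5.trans h6.symm)
  rw [h7, hc'] at hb'
  have h8 : -a = -b := congrArg Subtype.val hb'
  exact hab (neg_injective h8)

theorem map_antipode [StrictConvexSpace ℝ Y] (f : sphere (0 : X) 1 → sphere (0 : Y) 1)
    (hf : Isometry f) (x : sphere (0 : X) 1) : (f (-x) : Y) = -(f x : Y) := by
  have nx : ‖(x : X)‖ = 1 := by simp
  apply dist_sphere_two_iff (by simp) (by simp)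
  have := hf.dist_eq x (-x)
  rw [Subtype.dist_eq, Subtype.dist_eq, dist_eq_norm, dist_eq_norm] at this
  rw [this]
  have h : ((-x : sphere (0 : X) 1) : X) = -(x : X) := rfl
  rw [h, sub_neg_eq_add, ← two_smul ℝ, norm_smul, nx]; norm_num

open Classical in
/-- the positively homogeneous extension -/
noncomputable def homExt (f : sphere (0 : X) 1 → sphere (0 : Y) 1) (x : X) : Y :=
  if h : x = 0 then 0 else ‖x‖ • (f ⟨‖x‖⁻¹ • x, by simp [norm_smul, h]⟩ : Y)

theorem homExt_zero (f : sphere (0 : X) 1 → sphere (0 : Y) 1) : homExt f 0 = 0 := by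
  simp [homExt]

theorem homExt_ne (f : sphere (0 : X) 1 → sphere (0 : Y) 1) {x : X} (h : x ≠ 0) :
    homExt f x = ‖x‖ • (f ⟨‖x‖⁻¹ • x, by simp [norm_smul, h]⟩ : Y) := by
  simp [homExt, h]

theorem homExt_smul_of_norm_one (f : sphere (0 : X) 1 → sphere (0 : Y) 1) {c : ℝ} (hc : 0 ≤ c)
    (x : sphere (0 : X) 1) : homExt f (c • (x : X)) = c • (f x : Y) := by
  have nx : ‖(x : X)‖ = 1 := by simp
  rcases hc.eq_or_lt with h0 | hpos
  · rw [← h0, zero_smul, zero_smul, homExt_zero]
  · have hx0 : (x : X) ≠ 0 := by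
      intro h; rw [h, norm_zero] at nx; exact zero_ne_one nx
    rw [homExt_ne f (smul_ne_zero hpos.ne' hx0)]
    have h1 : ‖c • (x : X)‖ = c := by rw [norm_smul, nx, mul_one, Real.norm_of_nonneg hpos.le]
    congr 2
    congr 1
    apply Subtype.ext
    simp only [h1, smul_smul, inv_mul_cancel₀ hpos.ne', one_smul]

theorem exists_polar (x : X) [Nontrivial X] : ∃ (c : ℝ) (u : sphere (0 : X) 1), 0 ≤ c ∧ c = ‖x‖ ∧
    x = c • (u : X) := by
  by_cases hx : x = 0
  · obtain ⟨u, hu⟩ := (NormedSpace.sphere_nonempty (x := (0 : X)) (r := 1)).mpr zero_le_one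
    exact ⟨0, ⟨u, hu⟩, le_rfl, by simp [hx], by simp [hx]⟩
  · refine ⟨‖x‖, ⟨‖x‖⁻¹ • x, by simp [norm_smul, hx]⟩, norm_nonneg _, rfl, ?_⟩
    simp [smul_smul, hx]

theorem sphereIso_homExt [StrictConvexSpace ℝ Y] [Nontrivial X]
    (f : sphere (0 : X) 1 → sphere (0 : Y) 1) (hf : Isometry f) : SphereIso (homExt f) where
  smul := by
    intro c x
    obtain ⟨r, u, hr, -, rfl⟩ := exists_polar x
    rw [smul_smul, homExt_smul_of_norm_one f hr]
    rcases le_or_gt 0 c with hc | hc
    · rw [homExt_smul_of_norm_one f (mul_nonneg hc hr), smul_smul]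
    · have h1 : (c * r) • (u : X) = (-c * r) • ((-u : sphere (0 : X) 1) : X) := by
        have h : ((-u : sphere (0 : X) 1) : X) = -(u : X) := rfl
        rw [h, smul_neg, ← neg_smul]
        congr 1
        ring
      rw [h1, homExt_smul_of_norm_one f (mul_nonneg (by linarith) hr), map_antipode f hf, smul_neg,
        ← neg_smul, smul_smul]
      congr 1
      ring
  dist := by
    intro a b hab
    obtain ⟨r, u, hr, hra, ha⟩ := exists_polar a
    obtain ⟨s, v, hs, hsb, hb⟩ := exists_polar b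
    have hrs : s = r := by rw [hsb, hra, hab]
    subst hrs
    rw [ha, hb, homExt_smul_of_norm_one f hr, homExt_smul_of_norm_one f hr, ← smul_sub, ← smul_sub,
      norm_smul, norm_smul]
    congr 1
    have := hf.dist_eq u v
    rw [Subtype.dist_eq, Subtype.dist_eq, dist_eq_norm, dist_eq_norm] at this
    exact this

theorem homExt_surjective [Nontrivial Y] (f : sphere (0 : X) 1 → sphere (0 : Y) 1)
    (hsurj : Function.Surjective f) : Function.Surjective (homExt f) := by
  intro y
  obtain ⟨r, u, hr, -, rfl⟩ := exists_polar y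
  obtain ⟨x, rfl⟩ := hsurj u
  exact ⟨r • (x : X), homExt_smul_of_norm_one f hr x⟩

namespace SphereIso

variable {T : X → Y}

theorem lipschitz (hT : SphereIso T) : LipschitzWith 3 T := by
  apply LipschitzWith.of_dist_le_mul
  intro a b
  rw [dist_eq_norm, dist_eq_norm, NNReal.coe_ofNat]
  by_cases hb : b = 0
  · subst hb
    rw [hT.map_zero, sub_zero, sub_zero, hT.norm_map]
    linarith [norm_nonneg a]
  · have hbn : 0 < ‖b‖ := norm_pos_iff.mpr hb
    set c : ℝ := ‖a‖ / ‖b‖ with hc
    have hc0 : 0 ≤ c := by positivity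
    have hcb : ‖c • b‖ = ‖a‖ := by
      rw [norm_smul, Real.norm_of_nonneg hc0, hc, div_mul_cancel₀ _ hbn.ne']
    have h1 : ‖T a - T (c • b)‖ = ‖a - c • b‖ := hT.dist a (c • b) hcb.symm
    have h2 : ‖T (c • b) - T b‖ = ‖c • b - b‖ := by
      have e1 : T (c • b) - T b = (c - 1) • T b := by rw [hT.smul, sub_smul, one_smul]
      have e2 : c • b - b = (c - 1) • b := by rw [sub_smul, one_smul]
      rw [e1, e2, norm_smul, norm_smul, hT.norm_map]
    have h3 : ‖c • b - b‖ ≤ ‖a - b‖ := by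
      have e2 : c • b - b = (c - 1) • b := by rw [sub_smul, one_smul]
      have e3 : (c - 1) * ‖b‖ = ‖a‖ - ‖b‖ := by rw [hc]; field_simp
      rw [e2, norm_smul, Real.norm_eq_abs, ← abs_of_pos hbn, ← abs_mul, e3]
      exact abs_norm_sub_norm_le a b
    have h4 : ‖a - c • b‖ ≤ ‖a - b‖ + ‖c • b - b‖ := by
      calc ‖a - c • b‖ = ‖(a - b) - (c • b - b)‖ := by congr 1; abel
        _ ≤ _ := norm_sub_le _ _
    calc ‖T a - T b‖ = ‖(T a - T (c • b)) + (T (c • b) - T b)‖ := by congr 1; abel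
      _ ≤ ‖T a - T (c • b)‖ + ‖T (c • b) - T b‖ := norm_add_le _ _
      _ ≤ 3 * ‖a - b‖ := by rw [h1, h2]; linarith

theorem injective (hT : SphereIso T) : Function.Injective T := by
  intro a b hab
  have h1 : ‖a‖ = ‖b‖ := by rw [← hT.norm_map a, hab, hT.norm_map]
  have h2 := hT.dist a b h1
  rw [hab, sub_self, norm_zero] at h2
  exact sub_eq_zero.mp (norm_eq_zero.mp h2.symm)

/-- the inverse map -/
theorem exists_inverse (hT : SphereIso T) (hsurj : Function.Surjective T) :
    ∃ S : Y → X, SphereIso S ∧ (∀ x, S (T x) = x) ∧ (∀ y, T (S y) = y) := by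
  have hbij : Function.Bijective T := ⟨hT.injective, hsurj⟩
  set e := Equiv.ofBijective T hbij with he
  have h1 : ∀ x, e x = T x := fun x => rfl
  refine ⟨e.symm, ⟨?_, ?_⟩, fun x => e.symm_apply_apply x, fun y => e.apply_symm_apply y⟩
  · intro c y
    apply hT.injective
    rw [← h1, e.apply_symm_apply, hT.smul, ← h1, e.apply_symm_apply]
  · intro a b hab
    have ha : T (e.symm a) = a := e.apply_symm_apply a
    have hb : T (e.symm b) = b := e.apply_symm_apply b
    have h2 : ‖e.symm a‖ = ‖e.symm b‖ := by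
      rw [← hT.norm_map (e.symm a), ← hT.norm_map (e.symm b), ha, hb, hab]
    have h3 := hT.dist _ _ h2
    rw [ha, hb] at h3
    exact h3.symm

theorem finiteDimensional (hT : SphereIso T) (hsurj : Function.Surjective T)
    [FiniteDimensional ℝ X] : FiniteDimensional ℝ Y := by
  apply FiniteDimensional.of_isCompact_closedBall₀ ℝ (zero_lt_one)
  have h1 : T '' (closedBall (0 : X) 1) = closedBall (0 : Y) 1 := by
    ext y
    constructor
    · rintro ⟨x, hx, rfl⟩
      simpa [hT.norm_map] using hx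
    · intro hy
      obtain ⟨x, rfl⟩ := hsurj y
      exact ⟨x, by simpa [hT.norm_map] using hy, rfl⟩
  rw [← h1]
  exact (isCompact_closedBall 0 1).image hT.lipschitz.continuous

theorem finrank_le (hT : SphereIso T) (hsurj : Function.Surjective T)
    [FiniteDimensional ℝ X] [FiniteDimensional ℝ Y] : finrank ℝ Y ≤ finrank ℝ X := by
  have h1 : dimH (Set.range T) ≤ dimH (Set.univ : Set X) := hT.lipschitz.dimH_range_le
  rw [hsurj.range_eq, Real.dimH_univ_eq_finrank, Real.dimH_univ_eq_finrank] at h1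
  exact_mod_cast h1

theorem finrank_eq (hT : SphereIso T) (hsurj : Function.Surjective T)
    [FiniteDimensional ℝ X] [FiniteDimensional ℝ Y] : finrank ℝ X = finrank ℝ Y := by
  obtain ⟨S, hS, hST, hTS⟩ := hT.exists_inverse hsurj
  exact le_antisymm (hS.finrank_le fun x => ⟨T x, hST x⟩) (hT.finrank_le hsurj)

end SphereIso

end Vale.Agent.P084
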