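import Mathlib
import Vale.Agent.Lib.P084.Local3
import Vale.Agent.Lib.P084.Meas
import Vale.Agent.Lib.P084.Setup

open Filter Topology Module Metric MeasureTheory Measure
open scoped NNReal ENNReal

namespace Vale.Agent.P084

section support

variable {E : Type*} [NormedAddCommGroup E] [NormedSpace ℝ E]

theorem apply_le_of_norm_le_one {ψ : E →L[ℝ] ℝ} (h : ‖ψ‖ ≤ 1) (v : E) : ψ v ≤ ‖v‖ := by
  calc ψ v ≤ ‖ψ v‖ := Real.le_norm_self _
    _ ≤ ‖ψ‖ * ‖v‖ := ψ.le_opNorm _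
    _ ≤ 1 * ‖v‖ := mul_le_mul_of_nonneg_right h (norm_nonneg _)
    _ = ‖v‖ := one_mul _

theorem support_eq_dN {y : E} (hy : DifferentiableAt ℝ (fun z : E => ‖z‖) y) {ψ : E →L[ℝ] ℝ}
    (h1 : ∀ v, ψ v ≤ ‖v‖) (h2 : ψ y = ‖y‖) : ψ = dN y := by
  have hmin : IsLocalMin (fun z : E => ‖z‖ - ψ z) y := by
    apply Filter.Eventually.of_forall
    intro z
    have := h1 z
    simp only [h2, sub_self]
    linarith
  have hd : HasFDerivAt (fun z : E => ‖z‖ - ψ z) (dN y - ψ) y :=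
    (hasFDerivAt_norm hy).sub ψ.hasFDerivAt
  exact (sub_eq_zero.mp (hmin.hasFDerivAt_eq_zero hd)).symm

theorem differentiableAt_norm_of_unique [FiniteDimensional ℝ E] {y : E}
    (huniq : ∀ ψ₁ ψ₂ : E →L[ℝ] ℝ, ‖ψ₁‖ ≤ 1 → ‖ψ₂‖ ≤ 1 → ψ₁ y = ‖y‖ → ψ₂ y = ‖y‖ →
      ψ₁ = ψ₂) : DifferentiableAt ℝ (fun z : E => ‖z‖) y := by
  have hex : ∀ y : E, ∃ ψ : E →L[ℝ] ℝ, ‖ψ‖ ≤ 1 ∧ ψ y = ‖y‖ := by
    intro y
    by_cases hy : y = 0
    · exact ⟨0, by simp, by simp [hy]⟩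
    · obtain ⟨g, hg1, hg2⟩ := exists_dual_vector ℝ y (norm_ne_zero_iff.mpr hy)
      exact ⟨g, hg1.le, by simpa using hg2⟩
  choose ψ hψ1 hψ2 using hex
  have hcont : ContinuousAt ψ y := by
    rw [ContinuousAt, tendsto_iff_ultrafilter]
    intro g hg
    have hcomp : IsCompact (closedBall (0 : E →L[ℝ] ℝ) 1) := isCompact_closedBall _ _
    have hle : ((g.map ψ : Ultrafilter (E →L[ℝ] ℝ)) : Filter (E →L[ℝ] ℝ))
        ≤ 𝓟 (closedBall (0 : E →L[ℝ] ℝ) 1) := by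
      rw [le_principal_iff, Ultrafilter.mem_coe, Ultrafilter.mem_map]
      apply Filter.univ_mem'
      intro z
      simpa using hψ1 z
    obtain ⟨χ, hχ1, hχ2⟩ := hcomp.ultrafilter_le_nhds _ hle
    have hχt : Tendsto ψ g (𝓝 χ) := hχ2
    have hid : Tendsto (fun z : E => z) g (𝓝 y) := hg
    have h1 : Tendsto (fun z : E => ψ z z) g (𝓝 (χ y)) := tendsto_clm_apply hχt hid
    have h2 : Tendsto (fun z : E => ψ z z) g (𝓝 ‖y‖) := by
      simp only [hψ2]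
      exact hid.norm
    have h3 := tendsto_nhds_unique h1 h2
    have h4 : χ = ψ y := huniq χ (ψ y) (by simpa using hχ1) (hψ1 y) h3 (hψ2 y)
    rw [← h4]; exact hχt
  have hder : HasFDerivAt (fun z : E => ‖z‖) (ψ y) y := by
    rw [hasFDerivAt_iff_isLittleO]
    have ho : (fun z => ψ z - ψ y) =o[𝓝 y] fun _ => (1 : ℝ) := by
      rw [Asymptotics.isLittleO_one_iff]
      have : Tendsto (fun z => ψ z - ψ y) (𝓝 y) (𝓝 (ψ y - ψ y)) :=
        hcont.tendsto.sub_const _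
      simpa using this
    have hO : (fun z => ‖ψ z - ψ y‖ * ‖z - y‖) =o[𝓝 y] fun z => (1 : ℝ) * ‖z - y‖ :=
      ho.norm_left.mul_isBigO (Asymptotics.isBigO_refl _ _)
    have h1 : (fun z => ‖z‖ - ‖y‖ - ψ y (z - y)) =O[𝓝 y] fun z => ‖ψ z - ψ y‖ * ‖z - y‖ := by
      apply Asymptotics.IsBigO.of_bound 1
      filter_upwards with z
      rw [one_mul, norm_mul, norm_norm, norm_norm, Real.norm_eq_abs, abs_le]
      have hb : (ψ z - ψ y) (z - y) ≤ ‖ψ z - ψ y‖ * ‖z - y‖ :=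
        (Real.le_norm_self _).trans ((ψ z - ψ y).le_opNorm _)
      have hz : ψ z y ≤ ‖y‖ := apply_le_of_norm_le_one (hψ1 z) y
      have hz' : ψ y z ≤ ‖z‖ := apply_le_of_norm_le_one (hψ1 y) z
      have e1 := hψ2 z
      have e2 := hψ2 y
      have hnn : 0 ≤ ‖ψ z - ψ y‖ * ‖z - y‖ := by positivity
      simp only [_root_.sub_apply, map_sub] at hb ⊢
      constructor
      · linarith
      · linarith
    have h2 := h1.trans_isLittleO hO
    simpa using h2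
  exact hder.differentiableAt

/-- at a point of non-differentiability there are two different support functionals -/
theorem exists_two_supports [FiniteDimensional ℝ E] {y : E}
    (h : ¬ DifferentiableAt ℝ (fun z : E => ‖z‖) y) :
    ∃ ψ₁ ψ₂ : E →L[ℝ] ℝ, ‖ψ₁‖ ≤ 1 ∧ ‖ψ₂‖ ≤ 1 ∧ ψ₁ y = ‖y‖ ∧ ψ₂ y = ‖y‖ ∧ ψ₁ ≠ ψ₂ := by
  by_contra hno
  push Not at hno
  exact h (differentiableAt_norm_of_unique fun ψ₁ ψ₂ h1 h2 h3 h4 => hno ψ₁ ψ₂ h1 h2 h3 h4)

/-- In a strictly convex space, derivatives of the norm near a point separate points. -/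
theorem eq_zero_of_dN_zero [StrictConvexSpace ℝ E] {O D : Set E} (hO : IsOpen O) {y₀ : E}
    (hy₀ : y₀ ∈ O) (hD : O ⊆ closure D)
    (hd : ∀ y ∈ D, DifferentiableAt ℝ (fun z : E => ‖z‖) y) {v : E}
    (hv : ∀ y ∈ D, dN y v = 0) : v = 0 := by
  have h1 : ∀ t : ℝ, ∀ y ∈ O, ‖y‖ ≤ ‖y + t • v‖ := by
    intro t y hy
    have hcl : closure D ⊆ {y : E | ‖y‖ ≤ ‖y + t • v‖} := by
      apply (isClosed_le (by fun_prop) (by fun_prop)).closure_subset_iff.mpr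
      intro d hdD
      show ‖d‖ ≤ ‖d + t • v‖
      calc ‖d‖ = dN d (d + t • v) := by
            rw [map_add, map_smul, hv d hdD, smul_zero, add_zero, dN_self (hd d hdD)]
        _ ≤ _ := dN_le _ _
    exact hcl (hD hy)
  by_contra hv0
  obtain ⟨ε, hε, hball⟩ := Metric.isOpen_iff.mp hO y₀ hy₀
  have hnv : 0 < ‖v‖ := norm_pos_iff.mpr hv0
  set t : ℝ := ε / (2 * ‖v‖) with ht
  have htpos : 0 < t := by positivity
  have hmem : y₀ + t • v ∈ O := by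
    apply hball
    rw [mem_ball, dist_eq_norm, add_sub_cancel_left, norm_smul, Real.norm_of_nonneg htpos.le, ht]
    have : ε / (2 * ‖v‖) * ‖v‖ = ε / 2 := by field_simp
    rw [this]; linarith
  have e1 : ‖y₀‖ = ‖y₀ + t • v‖ := by
    apply le_antisymm (h1 t y₀ hy₀)
    have := h1 (-t) (y₀ + t • v) hmem
    rwa [neg_smul, add_neg_cancel_right] at this
  have e2 : y₀ = y₀ + t • v := by
    apply eq_of_norm_eq_of_norm_add_eq e1
    apply le_antisymm (norm_add_le _ _)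
    have e3 : y₀ + (y₀ + t • v) = (2 : ℝ) • (y₀ + (t / 2) • v) := by module
    rw [← e1, e3, norm_smul, Real.norm_ofNat]
    have := h1 (t / 2) y₀ hy₀
    linarith
  have e3 : t • v = 0 := by
    have := e2.symm
    rwa [add_eq_left] at this
  exact hv0 ((smul_eq_zero.mp e3).resolve_left htpos.ne')

end support

section lip

variable {X Y : Type*} [NormedAddCommGroup X] [NormedSpace ℝ X] [NormedAddCommGroup Y]
  [NormedSpace ℝ Y] {T : X → Y}

namespace SphereIso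

theorem lipschitz_Wv (hT : SphereIso T) (x₀ : X) :
    ∃ K : ℝ≥0, LipschitzWith K (fun b : X => Wv (T x₀) (T b)) := by
  refine ⟨⟨4 * ‖x₀‖, by positivity⟩, ?_⟩
  apply LipschitzWith.of_dist_le_mul
  intro a b
  have h3 := hT.lipschitz.dist_le_mul a b
  rw [dist_eq_norm, dist_eq_norm, NNReal.coe_ofNat] at h3
  rw [dist_eq_norm, dist_eq_norm, Wv_sub_Wv, hT.norm_map, hT.norm_map, hT.norm_map]
  calc ‖(‖a‖ - ‖b‖) • T x₀ - ‖x₀‖ • (T a - T b)‖
      ≤ ‖(‖a‖ - ‖b‖) • T x₀‖ + ‖‖x₀‖ • (T a - T b)‖ := norm_sub_le _ _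
    _ = |‖a‖ - ‖b‖| * ‖x₀‖ + ‖x₀‖ * ‖T a - T b‖ := by
        rw [norm_smul, norm_smul, norm_norm, hT.norm_map, Real.norm_eq_abs]
    _ ≤ ‖a - b‖ * ‖x₀‖ + ‖x₀‖ * (3 * ‖a - b‖) := by
        gcongr
        exact abs_norm_sub_norm_le a b
    _ = 4 * ‖x₀‖ * ‖a - b‖ := by ring

theorem id_iso : SphereIso (fun x : X => x) := ⟨fun _ _ => rfl, fun _ _ _ => rfl⟩

end SphereIso

end lip

section sep

variable {X Y : Type*} [NormedAddCommGroup X] [NormedSpace ℝ X] [NormedAddCommGroup Y]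
  [NormedSpace ℝ Y] [MeasurableSpace X] [BorelSpace X] [MeasurableSpace Y] [BorelSpace Y]
  {T : X → Y}

namespace SphereIso

/-- almost every `b` is good -/
theorem ae_good [StrictConvexSpace ℝ X] [StrictConvexSpace ℝ Y] [FiniteDimensional ℝ X]
    [FiniteDimensional ℝ Y] (hT : SphereIso T) (hsurj : Function.Surjective T)
    (hfin : finrank ℝ X = finrank ℝ Y) (hdim : 2 ≤ finrank ℝ X) {x₀ : X} (hx₀ : x₀ ≠ 0) :
    ∀ᵐ b ∂(vol X), Wv x₀ b ≠ 0 ∧ DifferentiableAt ℝ (fun z : X => ‖z‖) (Wv x₀ b) ∧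
      DifferentiableAt ℝ (fun z : Y => ‖z‖) (Wv (T x₀) (T b)) := by
  have hTx0 : T x₀ ≠ 0 := hT.map_ne_zero hx₀
  have hX : vol X {y : X | ¬ DifferentiableAt ℝ (fun z : X => ‖z‖) y} = 0 :=
    (lipschitzWith_one_norm (E := X)).ae_differentiableAt (μ := vol X)
  have hY : vol Y {y : Y | ¬ DifferentiableAt ℝ (fun z : Y => ‖z‖) y} = 0 :=
    (lipschitzWith_one_norm (E := Y)).ae_differentiableAt (μ := vol Y)
  have h0 : vol X {b : X | Wv x₀ b = 0} = 0 := vol_ray_null hdim hx₀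
  have h1 := vol_preimage_Wv_null (z := x₀) hX
  have h2 := vol_preimage_Wv_null (z := T x₀) hY
  obtain ⟨S, hS, hST, hTS⟩ := hT.exists_inverse hsurj
  have h3 := vol_image_null hfin.symm hS.lipschitz h2
  have h4 : vol X ({b : X | Wv x₀ b = 0} ∪ ({b : X | Wv x₀ b ≠ 0 ∧ Wv x₀ b ∈
      {y : X | ¬ DifferentiableAt ℝ (fun z : X => ‖z‖) y}} ∪
      S '' {b : Y | Wv (T x₀) b ≠ 0 ∧ Wv (T x₀) b ∈
        {y : Y | ¬ DifferentiableAt ℝ (fun z : Y => ‖z‖) y}})) = 0 :=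
    measure_union_null h0 (measure_union_null h1 h3)
  refine measure_mono_null ?_ h4
  intro b hb
  by_contra hno
  apply hb
  simp only [Set.mem_union, not_or] at hno
  obtain ⟨n1, n2, n3⟩ := hno
  have e1 : Wv x₀ b ≠ 0 := n1
  refine ⟨e1, ?_, ?_⟩
  · by_contra hd
    exact n2 ⟨e1, hd⟩
  · by_contra hd
    apply n3
    exact ⟨T b, ⟨hT.Wv_map_ne e1, hd⟩, hST b⟩

/-- the support functionals at good points separate points -/
theorem separates [StrictConvexSpace ℝ Y] [FiniteDimensional ℝ X]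
    [FiniteDimensional ℝ Y] (hT : SphereIso T) (hsurj : Function.Surjective T)
    (hfin : finrank ℝ X = finrank ℝ Y) {x₀ : X} (hx₀ : x₀ ≠ 0)
    {G : Set X} (hG : ∀ᵐ b ∂(vol X), b ∈ G)
    (hd : ∀ b ∈ G, DifferentiableAt ℝ (fun z : Y => ‖z‖) (Wv (T x₀) (T b)))
    {v : Y} (hv : ∀ b ∈ G, dN (Wv (T x₀) (T b)) v = 0) : v = 0 := by
  have hTx0 : T x₀ ≠ 0 := hT.map_ne_zero hx₀
  obtain ⟨K, hK⟩ := hT.lipschitz_Wv x₀
  have hG' : vol X Gᶜ = 0 := hG
  have h1 := vol_image_null hfin hK hG'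
  have hdense : Dense ((fun b : X => Wv (T x₀) (T b)) '' Gᶜ)ᶜ := by
    have h2 : ∀ᵐ y ∂(vol Y), y ∈ ((fun b : X => Wv (T x₀) (T b)) '' Gᶜ)ᶜ := by
      rw [ae_iff]
      refine measure_mono_null ?_ h1
      intro y hy
      exact not_not.mp hy
    exact dense_of_ae h2
  set O : Set Y := ball ((2 * ‖T x₀‖) • T x₀) (‖T x₀‖ ^ 2) with hO
  have hOopen : IsOpen O := isOpen_ball
  have hpos : 0 < ‖T x₀‖ ^ 2 := by
    have := norm_pos_iff.mpr hTx0
    positivity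
  have hmem : (2 * ‖T x₀‖) • T x₀ ∈ O := mem_ball_self hpos
  set D : Set Y := (fun b : X => Wv (T x₀) (T b)) '' G with hD
  have hsub : O ⊆ closure D := by
    refine (hdense.open_subset_closure_inter hOopen).trans (closure_mono ?_)
    rintro y ⟨hyO, hyn⟩
    rw [hO, mem_ball, dist_eq_norm] at hyO
    obtain ⟨c, hc⟩ := exists_Wv_eq hTx0 hyO
    obtain ⟨b, rfl⟩ := hsurj c
    refine ⟨b, ?_, hc⟩
    by_contra hb
    exact hyn ⟨b, hb, hc⟩
  refine eq_zero_of_dN_zero hOopen hmem hsub ?_ ?_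
  · rintro _ ⟨b, hb, rfl⟩
    exact hd b hb
  · rintro _ ⟨b, hb, rfl⟩
    exact hv b hb

end SphereIso

end sep

end Vale.Agent.P084
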