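import Mathlib
import Vale.Agent.Lib.P084.Sep

open Filter Topology Module Metric MeasureTheory Measure
open scoped NNReal ENNReal

namespace Vale.Agent.P084

theorem tendsto_slope_seq {E F : Type*} [NormedAddCommGroup E] [NormedSpace ℝ E]
    [NormedAddCommGroup F] [NormedSpace ℝ F] {f : E → F} {f' : E →L[ℝ] F} {w : E}
    (hf : HasFDerivAt f f' w) {l : Filter ℝ} (hl : l ≤ 𝓝[>] (0 : ℝ)) {k : ℝ → E} {k₀ : E}
    (hk : Tendsto k l (𝓝 k₀)) :
    Tendsto (fun t : ℝ => t⁻¹ • (f (w + t • k t) - f w)) l (𝓝 (f' k₀)) := by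
  have ht0 : Tendsto (fun t : ℝ => t) l (𝓝 0) := hl.trans nhdsWithin_le_nhds
  have hpos : ∀ᶠ t : ℝ in l, 0 < t := hl self_mem_nhdsWithin
  refine (hasFDerivWithinAt_univ.mpr hf).lim (c := fun t : ℝ => t⁻¹) (d := fun t : ℝ => t • k t)
    ?_ (Filter.Eventually.of_forall fun _ => Set.mem_univ _) ?_
  · simpa using ht0.smul hk
  · refine hk.congr' ?_
    filter_upwards [hpos] with t ht
    rw [smul_smul, inv_mul_cancel₀ ht.ne', one_smul]

theorem exists_ultra_slope {X F : Type*} [NormedAddCommGroup X] [NormedSpace ℝ X]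
    [NormedAddCommGroup F] [NormedSpace ℝ F] [FiniteDimensional ℝ F] {g : X → F} {K : ℝ≥0}
    (hg : LipschitzWith K g) {U : Ultrafilter ℝ} (hU : (U : Filter ℝ) ≤ 𝓝[>] (0 : ℝ)) (x v : X) :
    ∃ y, Tendsto (fun t : ℝ => t⁻¹ • (g (x + t • v) - g x)) U (𝓝 y) := by
  have hpos : ∀ᶠ t : ℝ in U, 0 < t := hU self_mem_nhdsWithin
  have hcomp : IsCompact (closedBall (0 : F) (K * ‖v‖)) := isCompact_closedBall _ _
  have hle : ((U.map (fun t : ℝ => t⁻¹ • (g (x + t • v) - g x)) : Ultrafilter F) : Filter F)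
      ≤ 𝓟 (closedBall (0 : F) (K * ‖v‖)) := by
    rw [le_principal_iff, Ultrafilter.mem_coe, Ultrafilter.mem_map]
    filter_upwards [hpos] with t ht
    simp only [Set.mem_preimage, mem_closedBall, dist_zero_right]
    have h3 := hg.dist_le_mul (x + t • v) x
    rw [dist_eq_norm, dist_eq_norm, add_sub_cancel_left, norm_smul,
      Real.norm_of_nonneg ht.le] at h3
    rw [norm_smul, norm_inv, Real.norm_of_nonneg ht.le]
    calc t⁻¹ * ‖g (x + t • v) - g x‖ ≤ t⁻¹ * (K * (t * ‖v‖)) :=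
          mul_le_mul_of_nonneg_left h3 (by positivity)
      _ = K * ‖v‖ := by field_simp
  obtain ⟨y, -, hy2⟩ := hcomp.ultrafilter_le_nhds _ hle
  exact ⟨y, hy2⟩

section slopes

variable {E : Type*} [NormedAddCommGroup E] [NormedSpace ℝ E] {U : Ultrafilter ℝ}

/-- directional slopes of the norm at `x` along an ultrafilter -/
def IsSlope (U : Ultrafilter ℝ) (x : E) (p : E → ℝ) : Prop :=
  ∀ v, Tendsto (fun t : ℝ => t⁻¹ • (‖x + t • v‖ - ‖x‖)) U (𝓝 (p v))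

theorem exists_isSlope (hU : (U : Filter ℝ) ≤ 𝓝[>] (0 : ℝ)) (x : E) :
    ∃ p : E → ℝ, IsSlope U x p := by
  have h := fun v : E => exists_ultra_slope (lipschitzWith_one_norm (E := E)) hU x v
  choose p hp using h
  exact ⟨p, hp⟩

theorem IsSlope.ge_support (hU : (U : Filter ℝ) ≤ 𝓝[>] (0 : ℝ)) {x : E} {p : E → ℝ}
    (hp : IsSlope U x p) {ψ : E →L[ℝ] ℝ} (h1 : ‖ψ‖ ≤ 1) (h2 : ψ x = ‖x‖) (v : E) : ψ v ≤ p v := by
  have hpos : ∀ᶠ t : ℝ in U, 0 < t := hU self_mem_nhdsWithin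
  refine ge_of_tendsto (hp v) ?_
  filter_upwards [hpos] with t ht
  have h3 := apply_le_of_norm_le_one h1 (x + t • v)
  rw [map_add, map_smul, h2, smul_eq_mul] at h3
  rw [smul_eq_mul, ← div_eq_inv_mul, le_div_iff₀ ht]
  linarith

theorem IsSlope.lipschitz (hU : (U : Filter ℝ) ≤ 𝓝[>] (0 : ℝ)) {x : E} {p : E → ℝ}
    (hp : IsSlope U x p) (u v : E) : |p u - p v| ≤ ‖u - v‖ := by
  have hpos : ∀ᶠ t : ℝ in U, 0 < t := hU self_mem_nhdsWithin
  have h1 := ((hp u).sub (hp v)).abs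
  refine le_of_tendsto h1 ?_
  filter_upwards [hpos] with t ht
  have e1 : t⁻¹ • (‖x + t • u‖ - ‖x‖) - t⁻¹ • (‖x + t • v‖ - ‖x‖)
      = t⁻¹ * (‖x + t • u‖ - ‖x + t • v‖) := by simp only [smul_eq_mul]; ring
  have e2 : |‖x + t • u‖ - ‖x + t • v‖| ≤ t * ‖u - v‖ := by
    have e3 := abs_norm_sub_norm_le (x + t • u) (x + t • v)
    have e4 : x + t • u - (x + t • v) = t • (u - v) := by module
    rwa [e4, norm_smul, Real.norm_of_nonneg ht.le] at e3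
  rw [e1, abs_mul, abs_of_pos (inv_pos.mpr ht)]
  calc t⁻¹ * |‖x + t • u‖ - ‖x + t • v‖| ≤ t⁻¹ * (t * ‖u - v‖) :=
        mul_le_mul_of_nonneg_left e2 (by positivity)
    _ = ‖u - v‖ := by field_simp

theorem IsSlope.continuous (hU : (U : Filter ℝ) ≤ 𝓝[>] (0 : ℝ)) {x : E} {p : E → ℝ}
    (hp : IsSlope U x p) : Continuous p := by
  have : LipschitzWith 1 p := by
    apply LipschitzWith.of_dist_le_mul
    intro u v
    rw [Real.dist_eq, dist_eq_norm, NNReal.coe_one, one_mul]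
    exact hp.lipschitz hU u v
  exact this.continuous

theorem IsSlope.convex (hU : (U : Filter ℝ) ≤ 𝓝[>] (0 : ℝ)) {x : E} {p : E → ℝ}
    (hp : IsSlope U x p) {c : ℝ} (hc0 : 0 ≤ c) (hc1 : c ≤ 1) (u v : E) :
    p (c • u + (1 - c) • v) ≤ c * p u + (1 - c) * p v := by
  have hpos : ∀ᶠ t : ℝ in U, 0 < t := hU self_mem_nhdsWithin
  refine le_of_tendsto_of_tendsto (hp _) (((hp u).const_mul c).add ((hp v).const_mul (1 - c))) ?_
  filter_upwards [hpos] with t ht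
  have e1 : x + t • (c • u + (1 - c) • v) = c • (x + t • u) + (1 - c) • (x + t • v) := by module
  have e2 : ‖x + t • (c • u + (1 - c) • v)‖ ≤ c * ‖x + t • u‖ + (1 - c) * ‖x + t • v‖ := by
    rw [e1]
    refine (norm_add_le _ _).trans ?_
    rw [norm_smul, norm_smul, Real.norm_of_nonneg hc0,
      Real.norm_of_nonneg (by linarith : 0 ≤ 1 - c)]
  simp only [smul_eq_mul]
  calc t⁻¹ * (‖x + t • (c • u + (1 - c) • v)‖ - ‖x‖)
      ≤ t⁻¹ * ((c * ‖x + t • u‖ + (1 - c) * ‖x + t • v‖) - ‖x‖) :=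
        mul_le_mul_of_nonneg_left (by linarith) (by positivity)
    _ = _ := by ring

/-- the slope in an inward direction is negative -/
theorem IsSlope.neg_of_Wv [StrictConvexSpace ℝ E] (hU : (U : Filter ℝ) ≤ 𝓝[>] (0 : ℝ)) {x : E}
    {p : E → ℝ} (hp : IsSlope U x p) {b : E} (hb : Wv x b ≠ 0) : p (-Wv x b) < 0 := by
  obtain ⟨hx0, hb0⟩ := ne_zero_of_Wv_ne hb
  have hnx : 0 < ‖x‖ := norm_pos_iff.mpr hx0
  have hnb : 0 < ‖b‖ := norm_pos_iff.mpr hb0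
  have hpos : ∀ᶠ t : ℝ in U, 0 < t := hU self_mem_nhdsWithin
  set t₀ : ℝ := 1 / (2 * ‖b‖) with ht₀
  have ht₀pos : 0 < t₀ := by positivity
  have hlt : ‖x + t₀ • (-Wv x b)‖ < ‖x‖ := by
    have e1 : x + t₀ • (-Wv x b) = (‖x‖ / (2 * ‖b‖)) • (b + (‖b‖ / ‖x‖) • x) := by
      have e2 : t₀ * ‖b‖ = 1 / 2 := by rw [ht₀]; field_simp
      have e3 : ‖x‖ / (2 * ‖b‖) * (‖b‖ / ‖x‖) = 1 / 2 := by field_simp
      have e4 : t₀ * ‖x‖ = ‖x‖ / (2 * ‖b‖) := by rw [ht₀]; ring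
      rw [Wv_def, smul_add, smul_smul, e3, smul_neg, smul_sub, smul_smul, smul_smul, e2, e4]
      module
    have e2 := norm_add_smul_lt hb (show 0 < ‖b‖ / ‖x‖ by positivity)
    rw [div_mul_cancel₀ _ hnx.ne'] at e2
    rw [e1, norm_smul, Real.norm_of_nonneg (by positivity : 0 ≤ ‖x‖ / (2 * ‖b‖))]
    calc ‖x‖ / (2 * ‖b‖) * ‖b + (‖b‖ / ‖x‖) • x‖ < ‖x‖ / (2 * ‖b‖) * (‖b‖ + ‖b‖) :=
          mul_lt_mul_of_pos_left e2 (by positivity)
      _ = ‖x‖ := by field_simp; ring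
  have hle : p (-Wv x b) ≤ t₀⁻¹ * (‖x + t₀ • (-Wv x b)‖ - ‖x‖) := by
    refine le_of_tendsto (hp _) ?_
    have hsmall : ∀ᶠ t : ℝ in U, t < t₀ := by
      have h1 : ∀ᶠ t : ℝ in 𝓝 (0 : ℝ), t < t₀ := gt_mem_nhds ht₀pos
      exact (hU.trans nhdsWithin_le_nhds) h1
    filter_upwards [hpos, hsmall] with t ht htt
    set c : ℝ := t / t₀ with hc
    have hc0 : 0 ≤ c := by positivity
    have hc1 : c ≤ 1 := by rw [hc, div_le_one ht₀pos]; exact htt.le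
    have hct : c * t₀ = t := by rw [hc]; field_simp
    have e1 : x + t • (-Wv x b) = (1 - c) • x + c • (x + t₀ • (-Wv x b)) := by
      rw [smul_add, smul_smul, hct]; module
    have e2 : ‖x + t • (-Wv x b)‖ ≤ (1 - c) * ‖x‖ + c * ‖x + t₀ • (-Wv x b)‖ := by
      rw [e1]
      refine (norm_add_le _ _).trans ?_
      rw [norm_smul, norm_smul, Real.norm_of_nonneg hc0,
        Real.norm_of_nonneg (by linarith : 0 ≤ 1 - c)]
    rw [smul_eq_mul]
    calc t⁻¹ * (‖x + t • (-Wv x b)‖ - ‖x‖) ≤ t⁻¹ * (c * (‖x + t₀ • (-Wv x b)‖ - ‖x‖)) :=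
          mul_le_mul_of_nonneg_left (by linarith) (by positivity)
      _ = t₀⁻¹ * (‖x + t₀ • (-Wv x b)‖ - ‖x‖) := by
          rw [hc]; field_simp
  refine lt_of_le_of_lt hle ?_
  have : 0 < t₀⁻¹ := inv_pos.mpr ht₀pos
  nlinarith

/-- existence of a transversal direction -/
theorem exists_support_dir {x : E} (hx : x ≠ 0) {ψ₁ ψ₂ : E →L[ℝ] ℝ} (h1 : ψ₁ x = ‖x‖)
    (h2 : ψ₂ x = ‖x‖) (hne : ψ₁ ≠ ψ₂) : ∃ (v : E) (σ : ℝ), 0 < σ ∧ ψ₁ v = σ ∧ ψ₂ v = -σ := by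
  have hnx : 0 < ‖x‖ := norm_pos_iff.mpr hx
  have hex : ∃ v₁ : E, 0 < ψ₁ v₁ - ψ₂ v₁ := by
    by_contra hno
    push Not at hno
    apply hne
    ext v
    have e1 := hno v
    have e2 := hno (-v)
    rw [_root_.map_neg, _root_.map_neg] at e2
    linarith
  obtain ⟨v₁, hv₁⟩ := hex
  refine ⟨v₁ - ((ψ₁ v₁ + ψ₂ v₁) / (2 * ‖x‖)) • x, (ψ₁ v₁ - ψ₂ v₁) / 2, by linarith, ?_, ?_⟩
  · rw [map_sub, map_smul, h1, smul_eq_mul]
    field_simp
    ring
  · rw [map_sub, map_smul, h2, smul_eq_mul]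
    field_simp
    ring

end slopes

section map

variable {X Y : Type*} [NormedAddCommGroup X] [NormedSpace ℝ X] [NormedAddCommGroup Y]
  [NormedSpace ℝ Y] {T : X → Y} {U : Ultrafilter ℝ}

/-- the blow up of `T` at `x` along an ultrafilter -/
def IsBlow (U : Ultrafilter ℝ) (T : X → Y) (x : X) (q : X → Y) : Prop :=
  ∀ v, Tendsto (fun t : ℝ => t⁻¹ • (T (x + t • v) - T x)) U (𝓝 (q v))

namespace SphereIso

theorem exists_isBlow [FiniteDimensional ℝ Y] (hT : SphereIso T)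
    (hU : (U : Filter ℝ) ≤ 𝓝[>] (0 : ℝ)) (x : X) : ∃ q : X → Y, IsBlow U T x q := by
  have h := fun v : X => exists_ultra_slope hT.lipschitz hU x v
  choose q hq using h
  exact ⟨q, hq⟩

theorem blow_relation (hT : SphereIso T) (hU : (U : Filter ℝ) ≤ 𝓝[>] (0 : ℝ)) {x : X}
    {p : X → ℝ} (hp : IsSlope U x p) {q : X → Y} (hq : IsBlow U T x q) {b : X}
    (hb : DifferentiableAt ℝ (fun z : X => ‖z‖) (Wv x b))
    (hb' : DifferentiableAt ℝ (fun z : Y => ‖z‖) (Wv (T x) (T b))) (u : X) :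
    dN (Wv (T x) (T b)) (‖b‖ • q u - p u • T b) = dN (Wv x b) (‖b‖ • u - p u • b) := by
  have hpos : ∀ᶠ t : ℝ in U, 0 < t := hU self_mem_nhdsWithin
  have hk : Tendsto (fun t : ℝ => ‖b‖ • u - (t⁻¹ • (‖x + t • u‖ - ‖x‖)) • b) U
      (𝓝 (‖b‖ • u - p u • b)) := ((hp u).smul_const b).const_sub _
  have hk' : Tendsto (fun t : ℝ => ‖b‖ • (t⁻¹ • (T (x + t • u) - T x))
      - (t⁻¹ • (‖x + t • u‖ - ‖x‖)) • T b) U (𝓝 (‖b‖ • q u - p u • T b)) :=
    ((hq u).const_smul ‖b‖).sub ((hp u).smul_const (T b))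
  have h1 := tendsto_slope_seq (hasFDerivAt_norm hb) hU hk
  have h2 := tendsto_slope_seq (hasFDerivAt_norm hb') hU hk'
  refine tendsto_nhds_unique (h2.congr' ?_) h1
  filter_upwards [hpos] with t ht
  have e1 : Wv x b + t • (‖b‖ • u - (t⁻¹ • (‖x + t • u‖ - ‖x‖)) • b) = Wv (x + t • u) b := by
    simp only [Wv_def, smul_sub, smul_smul, smul_eq_mul]
    have : t * (t⁻¹ * (‖x + t • u‖ - ‖x‖)) = ‖x + t • u‖ - ‖x‖ := by field_simp
    rw [this]
    module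
  have e2 : Wv (T x) (T b) + t • (‖b‖ • (t⁻¹ • (T (x + t • u) - T x))
      - (t⁻¹ • (‖x + t • u‖ - ‖x‖)) • T b) = Wv (T (x + t • u)) (T b) := by
    rw [hT.Wv_map, hT.Wv_map]
    simp only [smul_sub, smul_smul, smul_eq_mul]
    have e3 : t * (t⁻¹ * (‖x + t • u‖ - ‖x‖)) = ‖x + t • u‖ - ‖x‖ := by field_simp
    have e4 : t * (‖b‖ * t⁻¹) = ‖b‖ := by field_simp
    rw [e3, e4]
    module
  rw [e1, e2, hT.norm_Wv, hT.norm_Wv]

theorem slope_blow (hT : SphereIso T) (hU : (U : Filter ℝ) ≤ 𝓝[>] (0 : ℝ)) {x : X}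
    {p : X → ℝ} (hp : IsSlope U x p) {p' : Y → ℝ} (hp' : IsSlope U (T x) p')
    {q : X → Y} (hq : IsBlow U T x q) (u : X) : p' (q u) = p u := by
  have hpos : ∀ᶠ t : ℝ in U, 0 < t := hU self_mem_nhdsWithin
  have h1 := (hp' (q u)).sub (hp u)
  have h2 : Tendsto (fun t : ℝ => ‖q u - t⁻¹ • (T (x + t • u) - T x)‖) U (𝓝 0) := by
    have := ((hq u).const_sub (q u)).norm
    simpa using this
  have h3 : Tendsto (fun t : ℝ => t⁻¹ • (‖T x + t • q u‖ - ‖T x‖) - t⁻¹ • (‖x + t • u‖ - ‖x‖)) U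
      (𝓝 0) := by
    refine squeeze_zero_norm' ?_ h2
    filter_upwards [hpos] with t ht
    have e1 : t⁻¹ • (‖T x + t • q u‖ - ‖T x‖) - t⁻¹ • (‖x + t • u‖ - ‖x‖)
        = t⁻¹ * (‖T x + t • q u‖ - ‖T (x + t • u)‖) := by
      rw [hT.norm_map, hT.norm_map, smul_eq_mul, smul_eq_mul]; ring
    have e2 : T x + t • q u - T (x + t • u) = t • (q u - t⁻¹ • (T (x + t • u) - T x)) := by
      rw [smul_sub, smul_smul, mul_inv_cancel₀ ht.ne', one_smul]; abel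
    rw [e1, norm_mul, norm_inv, Real.norm_of_nonneg ht.le]
    calc t⁻¹ * ‖‖T x + t • q u‖ - ‖T (x + t • u)‖‖
        ≤ t⁻¹ * ‖T x + t • q u - T (x + t • u)‖ :=
          mul_le_mul_of_nonneg_left (abs_norm_sub_norm_le _ _) (by positivity)
      _ = ‖q u - t⁻¹ • (T (x + t • u) - T x)‖ := by
          rw [e2, norm_smul, Real.norm_of_nonneg ht.le]; field_simp
  exact sub_eq_zero.mp (tendsto_nhds_unique h1 h3)

theorem blow_surj [FiniteDimensional ℝ X] (hT : SphereIso T) (hsurj : Function.Surjective T)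
    (hU : (U : Filter ℝ) ≤ 𝓝[>] (0 : ℝ)) {x : X} {q : X → Y} (hq : IsBlow U T x q) (y : Y) :
    ∃ u, q u = y := by
  have hpos : ∀ᶠ t : ℝ in U, 0 < t := hU self_mem_nhdsWithin
  obtain ⟨S, hS, hST, hTS⟩ := hT.exists_inverse hsurj
  obtain ⟨u, hu⟩ := exists_ultra_slope hS.lipschitz hU (T x) y
  refine ⟨u, ?_⟩
  have h2 : Tendsto (fun t : ℝ => 3 * ‖u - t⁻¹ • (S (T x + t • y) - S (T x))‖) U (𝓝 0) := by
    have := ((hu.const_sub u).norm).const_mul 3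
    simpa using this
  have h3 : Tendsto (fun t : ℝ => t⁻¹ • (T (x + t • u) - T x) - y) U (𝓝 0) := by
    refine squeeze_zero_norm' ?_ h2
    filter_upwards [hpos] with t ht
    have e1 : t⁻¹ • (T (x + t • u) - T x) - y
        = t⁻¹ • (T (x + t • u) - T (S (T x + t • y))) := by
      rw [hTS, smul_sub, smul_sub, smul_add, smul_smul, inv_mul_cancel₀ ht.ne', one_smul]; abel
    have e2 := hT.lipschitz.dist_le_mul (x + t • u) (S (T x + t • y))
    rw [dist_eq_norm, dist_eq_norm, NNReal.coe_ofNat] at e2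
    have e3 : x + t • u - S (T x + t • y) = t • (u - t⁻¹ • (S (T x + t • y) - S (T x))) := by
      rw [hST, smul_sub, smul_smul, mul_inv_cancel₀ ht.ne', one_smul]; abel
    rw [e3, norm_smul, Real.norm_of_nonneg ht.le] at e2
    rw [e1, norm_smul, norm_inv, Real.norm_of_nonneg ht.le]
    calc t⁻¹ * ‖T (x + t • u) - T (S (T x + t • y))‖
        ≤ t⁻¹ * (3 * (t * ‖u - t⁻¹ • (S (T x + t • y) - S (T x))‖)) :=
          mul_le_mul_of_nonneg_left e2 (by positivity)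
      _ = _ := by field_simp
  have h4 := (hq u).sub_const y
  exact sub_eq_zero.mp (tendsto_nhds_unique h4 h3)

end SphereIso

end map

end Vale.Agent.P084
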