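import Mathlib

open Filter Topology Module Metric Asymptotics
open scoped NNReal ENNReal

namespace Vale.Agent.P084

section lipAt

variable {V W Z : Type*} [NormedAddCommGroup V] [NormedAddCommGroup W] [NormedAddCommGroup Z]

/-- locally Lipschitz at a point -/
def LipAt (f : V → W) (x : V) : Prop :=
  (fun p : V × V => f p.1 - f p.2) =O[𝓝 (x, x)] fun p => p.1 - p.2

theorem lipAt_of_lipschitzOn {f : V → W} {x : V} {K : ℝ≥0} {t : Set V} (ht : t ∈ 𝓝 x)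
    (hf : LipschitzOnWith K f t) : LipAt f x := by
  apply IsBigO.of_bound K
  rw [nhds_prod_eq]
  filter_upwards [prod_mem_prod ht ht] with p hp
  have := hf.dist_le_mul p.1 hp.1 p.2 hp.2
  rwa [dist_eq_norm, dist_eq_norm] at this

theorem LipAt.exists_lipschitzOn {f : V → W} {x : V} (hf : LipAt f x) :
    ∃ K : ℝ≥0, ∃ ε > 0, LipschitzOnWith K f (ball x ε) := by
  obtain ⟨c, hc⟩ := IsBigO.bound hf
  rw [nhds_prod_eq] at hc
  obtain ⟨t, ht, hc⟩ := mem_prod_same_iff.mp hc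
  obtain ⟨ε, hε, hball⟩ := Metric.mem_nhds_iff.mp ht
  refine ⟨⟨max c 0, le_max_right _ _⟩, ε, hε, LipschitzOnWith.of_dist_le_mul ?_⟩
  intro a ha b hb
  rw [dist_eq_norm, dist_eq_norm]
  have h1 : ‖f a - f b‖ ≤ c * ‖a - b‖ := hc (Set.mk_mem_prod (hball ha) (hball hb))
  refine h1.trans ?_
  exact mul_le_mul_of_nonneg_right (le_max_left _ _) (norm_nonneg _)

theorem LipAt.comp {g : W → Z} {f : V → W} {x : V} (hg : LipAt g (f x)) (hf : LipAt f x)
    (hc : ContinuousAt f x) : LipAt (fun z => g (f z)) x := by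
  have h1 : Tendsto (fun p : V × V => (f p.1, f p.2)) (𝓝 (x, x)) (𝓝 (f x, f x)) := by
    rw [nhds_prod_eq, nhds_prod_eq]
    exact (hc.tendsto.comp tendsto_fst).prodMk (hc.tendsto.comp tendsto_snd)
  have h2 := IsBigO.comp_tendsto hg h1
  exact h2.trans hf

theorem LipAt.congr {f g : V → W} {x : V} (hf : LipAt f x) (h : ∀ᶠ z in 𝓝 x, f z = g z) :
    LipAt g x := by
  refine IsBigO.congr' hf ?_ EventuallyEq.rfl
  rw [nhds_prod_eq]
  filter_upwards [h.prod_inl (𝓝 x), h.prod_inr (𝓝 x)] with p h1 h2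
  rw [h1, h2]

end lipAt

section theta

variable {X Y : Type*} [NormedAddCommGroup X] [NormedSpace ℝ X] [NormedAddCommGroup Y]
  [NormedSpace ℝ Y]

/-- solving the averaged first order identities by a smooth expression -/
theorem exists_theta [FiniteDimensional ℝ Y] {ι : Type*} [Fintype ι]
    (Φ : ι → X → Y →L[ℝ] ℝ) (F : ι → X → X →L[ℝ] ℝ) (T : X → Y) {x₀ : X}
    (D : X → X →L[ℝ] Y) (δ : X → X →L[ℝ] ℝ)
    (hid : ∀ᶠ a in 𝓝 x₀, ∀ i h,
      Φ i a (D a h) - (Φ i a (T a) - F i a a) * δ a h = F i a h)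
    (hsep : ∀ (w : Y) (α : ℝ), (∀ i, Φ i x₀ w - (Φ i x₀ (T x₀) - F i x₀ x₀) * α = 0) →
      w = 0 ∧ α = 0)
    (hcont : ContinuousAt (fun a => ((fun i => Φ i a, fun i => F i a, T a, a) :
      (ι → Y →L[ℝ] ℝ) × (ι → X →L[ℝ] ℝ) × Y × X)) x₀) :
    ∃ Θ : (ι → Y →L[ℝ] ℝ) × (ι → X →L[ℝ] ℝ) × Y × X → (X →L[ℝ] ℝ),
      ContDiffAt ℝ 1 Θ (fun i => Φ i x₀, fun i => F i x₀, T x₀, x₀) ∧
      ∀ᶠ a in 𝓝 x₀, δ a = Θ (fun i => Φ i a, fun i => F i a, T a, a) := by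
  classical
  set m : X → (ι → Y →L[ℝ] ℝ) × (ι → X →L[ℝ] ℝ) × Y × X :=
    fun a => (fun i => Φ i a, fun i => F i a, T a, a) with hm
  -- the left inverse
  set J₀ : (Y × ℝ) →ₗ[ℝ] (ι → ℝ) := LinearMap.pi fun i =>
    (((Φ i x₀).comp (ContinuousLinearMap.fst ℝ Y ℝ)
      - (Φ i x₀ (T x₀) - F i x₀ x₀) • ContinuousLinearMap.snd ℝ Y ℝ :
        (Y × ℝ) →L[ℝ] ℝ) : (Y × ℝ) →ₗ[ℝ] ℝ) with hJ₀
  have hJ₀app : ∀ v i, J₀ v i = Φ i x₀ v.1 - (Φ i x₀ (T x₀) - F i x₀ x₀) * v.2 := fun v i => by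
    simp [hJ₀]
  have hker : J₀.ker = ⊥ := by
    rw [LinearMap.ker_eq_bot']
    intro v hv
    have h1 := hsep v.1 v.2 (fun i => by rw [← hJ₀app, hv]; rfl)
    exact Prod.ext h1.1 h1.2
  obtain ⟨P, hP⟩ := LinearMap.exists_leftInverse_of_injective J₀ hker
  set q : ι → Y × ℝ := fun i => P (Pi.single i 1) with hq
  have hPq : ∀ c : ι → ℝ, P c = ∑ i, c i • q i := by
    intro c
    have e1 : c = ∑ i, c i • (Pi.single i (1 : ℝ) : ι → ℝ) := by
      funext j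
      simp [Finset.sum_apply, Pi.single_apply]
    conv_lhs => rw [e1]
    rw [map_sum]
    simp only [map_smul, hq]
  set A : (ι → Y →L[ℝ] ℝ) × (ι → X →L[ℝ] ℝ) × Y × X → ((Y × ℝ) →L[ℝ] (Y × ℝ)) := fun p =>
    ∑ i, ((p.1 i).comp (ContinuousLinearMap.fst ℝ Y ℝ)
      - (p.1 i p.2.2.1 - p.2.1 i p.2.2.2) • ContinuousLinearMap.snd ℝ Y ℝ).smulRight (q i) with hA
  set B : (ι → Y →L[ℝ] ℝ) × (ι → X →L[ℝ] ℝ) × Y × X → (X →L[ℝ] (Y × ℝ)) := fun p =>
    ∑ i, (p.2.1 i).smulRight (q i) with hB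
  have hAC : ContDiff ℝ 1 A := by
    rw [hA]; fun_prop
  have hBC : ContDiff ℝ 1 B := by
    rw [hB]; fun_prop
  have hAapp : ∀ p v, A p v = ∑ i, (p.1 i v.1 - (p.1 i p.2.2.1 - p.2.1 i p.2.2.2) * v.2) • q i := by
    intro p v
    simp [hA]
  have hBapp : ∀ p v, B p v = ∑ i, (p.2.1 i v) • q i := by
    intro p v
    simp [hB]
  have hA1 : A (m x₀) = 1 := by
    refine ContinuousLinearMap.ext fun v => ?_
    rw [hAapp]
    have h1 := congrArg (fun L : (Y × ℝ) →ₗ[ℝ] (Y × ℝ) => L v) hP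
    simp only [LinearMap.comp_apply, LinearMap.id_apply] at h1
    rw [hPq] at h1
    simp only [hJ₀app] at h1
    exact h1
  refine ⟨fun p => (ContinuousLinearMap.snd ℝ Y ℝ).comp ((Ring.inverse (A p)).comp (B p)), ?_, ?_⟩
  · have h1 : ContDiffAt ℝ 1 (fun p => Ring.inverse (A p)) (m x₀) := by
      have h2 : ContDiffAt ℝ 1 (Ring.inverse : ((Y × ℝ) →L[ℝ] (Y × ℝ)) → _) (A (m x₀)) := by
        rw [hA1]
        exact contDiffAt_ringInverse ℝ (1 : ((Y × ℝ) →L[ℝ] (Y × ℝ))ˣ)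
      exact h2.comp (m x₀) hAC.contDiffAt
    exact contDiffAt_const.clm_comp (h1.clm_comp hBC.contDiffAt)
  · have h1 : ∀ᶠ a in 𝓝 x₀, IsUnit (A (m a)) := by
      have h2 : ContinuousAt (fun a => A (m a)) x₀ :=
        ContinuousAt.comp (f := m) (g := A) hAC.continuous.continuousAt hcont
      have h3 : {x : (Y × ℝ) →L[ℝ] (Y × ℝ) | IsUnit x} ∈ 𝓝 (A (m x₀)) := by
        rw [hA1]
        exact Units.nhds (1 : ((Y × ℝ) →L[ℝ] (Y × ℝ))ˣ)
      exact h2 h3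
    filter_upwards [h1, hid] with a ha1 ha2
    have h4 : (A (m a)).comp ((D a).prod (δ a)) = B (m a) := by
      refine ContinuousLinearMap.ext fun v => ?_
      rw [ContinuousLinearMap.comp_apply, hAapp, hBapp]
      apply Finset.sum_congr rfl
      intro i _
      congr 1
      exact ha2 i v
    have h5 : (Ring.inverse (A (m a))).comp (B (m a)) = (D a).prod (δ a) := by
      rw [← h4, ← ContinuousLinearMap.comp_assoc]
      have h6 : (Ring.inverse (A (m a))).comp (A (m a)) = 1 := Ring.inverse_mul_cancel _ ha1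
      rw [h6]
      rfl
    show δ a = (ContinuousLinearMap.snd ℝ Y ℝ).comp ((Ring.inverse (A (m a))).comp (B (m a)))
    rw [h5]
    rfl

end theta

theorem LipAt.continuousAt {V W : Type*} [NormedAddCommGroup V] [NormedAddCommGroup W] {f : V → W}
    {x : V} (hf : LipAt f x) : ContinuousAt f x := by
  obtain ⟨K, ε, hε, hK⟩ := hf.exists_lipschitzOn
  exact hK.continuousOn.continuousAt (ball_mem_nhds _ hε)

theorem lipAt_of_contDiffAt {V W : Type*} [NormedAddCommGroup V] [NormedSpace ℝ V]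
    [NormedAddCommGroup W] [NormedSpace ℝ W] {f : V → W} {x : V} (hf : ContDiffAt ℝ 1 f x) :
    LipAt f x :=
  (hf.hasStrictFDerivAt (by norm_num)).isBigO_sub

end Vale.Agent.P084
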