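import Mathlib
import Vale.Agent.Lib.P084.Wv

open Filter Topology Module Metric

namespace Vale.Agent.P084

variable {X Y : Type*} [NormedAddCommGroup X] [NormedSpace ℝ X] [NormedAddCommGroup Y]
  [NormedSpace ℝ Y] {T : X → Y}

theorem forall_of_dense {A : Type*} [TopologicalSpace A] {G : Set A} (hG : Dense G)
    {p : A → Prop} (hp : IsClosed {a | p a}) (h : ∀ a ∈ G, p a) : ∀ a, p a := by
  intro a
  have h1 : closure G ⊆ {a | p a} := (hp.closure_subset_iff).mpr h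
  rw [hG.closure_eq] at h1
  exact h1 (Set.mem_univ a)

namespace SphereIso

/-- Rigidity: if all support functionals of the differences from a base point are transported by
one linear map, then the map is linear. -/
theorem eq_linear_of_support [StrictConvexSpace ℝ Y] (hT : SphereIso T)
    (hsurj : Function.Surjective T) (hcont : Continuous T) (L : X ≃L[ℝ] Y) {x₀ : X} (hx₀ : x₀ ≠ 0)
    {G : Set X} (hG : Dense G)
    (hGd : ∀ b ∈ G, DifferentiableAt ℝ (fun z : X => ‖z‖) (Wv x₀ b))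
    (hGd' : ∀ b ∈ G, DifferentiableAt ℝ (fun z : Y => ‖z‖) (Wv (T x₀) (T b)))
    (hGL : ∀ b ∈ G, ∀ u : X, dN (Wv (T x₀) (T b)) (L u) = dN (Wv x₀ b) u)
    (hdesc : ∀ b, Wv x₀ b ≠ 0 → ∃ t : ℝ, 0 < t ∧ ‖T x₀ - t • L (Wv x₀ b)‖ < ‖x₀‖) :
    ∀ x, T x = L x := by
  have hTx0 : T x₀ ≠ 0 := hT.map_ne_zero hx₀
  have hc1 : Continuous fun b : X => Wv x₀ b := continuous_Wv_right x₀
  have hc2 : Continuous fun b : X => Wv (T x₀) (T b) := (continuous_Wv_right (T x₀)).comp hcont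
  have h1 : ∀ b, ‖Wv x₀ b‖ ≤ ‖L (Wv x₀ b)‖ := by
    refine forall_of_dense (p := fun b => ‖Wv x₀ b‖ ≤ ‖L (Wv x₀ b)‖) hG ?_ ?_
    · exact isClosed_le (by fun_prop) (by fun_prop)
    · intro b hb
      rw [← dN_self (hGd b hb), ← hGL b hb]
      exact dN_le _ _
  have h2 : ∀ b, ‖Wv (T x₀) (T b)‖ ≤ ‖L.symm (Wv (T x₀) (T b))‖ := by
    refine forall_of_dense (p := fun b => ‖Wv (T x₀) (T b)‖ ≤ ‖L.symm (Wv (T x₀) (T b))‖) hG ?_ ?_
    · exact isClosed_le (by fun_prop) (by fun_prop)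
    · intro b hb
      rw [← dN_self (hGd' b hb)]
      have e1 : dN (Wv (T x₀) (T b)) (Wv (T x₀) (T b))
          = dN (Wv (T x₀) (T b)) (L (L.symm (Wv (T x₀) (T b)))) := by
        rw [L.apply_symm_apply]
      rw [e1, hGL b hb]
      exact dN_le _ _
  have h3 : ∀ b, ‖L (Wv x₀ b)‖ ≤ ‖Wv x₀ b‖ := by
    intro b
    by_cases hb : Wv x₀ b = 0
    · rw [hb, _root_.map_zero, norm_zero, norm_zero]
    · obtain ⟨t, ht, hlt⟩ := hdesc b hb
      rw [← hT.norm_map x₀] at hlt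
      obtain ⟨c, s, hs, hc⟩ := exists_Wv_eq_smul hTx0 ht hlt
      obtain ⟨b', rfl⟩ := hsurj c
      have h4 := h2 b'
      rw [hc, map_smul, L.symm_apply_apply, norm_smul, norm_smul] at h4
      exact le_of_mul_le_mul_left h4 (by rw [Real.norm_of_nonneg hs.le]; exact hs)
  have h4 : ∀ b, Wv (T x₀) (T b) = L (Wv x₀ b) := by
    refine forall_of_dense (p := fun b => Wv (T x₀) (T b) = L (Wv x₀ b)) hG ?_ ?_
    · exact isClosed_eq (by fun_prop) (by fun_prop)
    · intro b hb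
      have e1 : ‖Wv (T x₀) (T b)‖ = ‖L (Wv x₀ b)‖ := by
        rw [hT.norm_Wv]; exact le_antisymm (h1 b) (h3 b)
      apply eq_of_norm_eq_of_norm_add_eq e1
      apply le_antisymm (norm_add_le _ _)
      calc ‖Wv (T x₀) (T b)‖ + ‖L (Wv x₀ b)‖
          = dN (Wv (T x₀) (T b)) (Wv (T x₀) (T b) + L (Wv x₀ b)) := by
            rw [map_add, dN_self (hGd' b hb), hGL b hb, dN_self (hGd b hb)]
            congr 1
            exact le_antisymm (h3 b) (h1 b)
        _ ≤ _ := dN_le _ _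
  have h5 : T x₀ = L x₀ := by
    have e1 := h4 (-x₀)
    rw [hT.map_neg, Wv_neg_self, Wv_neg_self, map_smul, hT.norm_map] at e1
    have hne : 2 * ‖x₀‖ ≠ 0 := by
      have := norm_pos_iff.mpr hx₀
      positivity
    exact smul_right_injective Y hne e1
  intro x
  have e1 := h4 x
  rw [hT.Wv_map, Wv_def, map_sub, map_smul, map_smul, h5] at e1
  have e2 : ‖x₀‖ • T x = ‖x₀‖ • L x := sub_right_injective e1
  exact smul_right_injective Y (norm_ne_zero_iff.mpr hx₀) e2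

end SphereIso

end Vale.Agent.P084
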