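import Mathlib
import Vale.Agent.Lib.P084.Rigid
import Vale.Agent.Lib.P084.Sep

open Filter Topology Module Metric MeasureTheory Measure
open scoped NNReal ENNReal

namespace Vale.Agent.P084

variable {X Y : Type*} [NormedAddCommGroup X] [NormedSpace ℝ X] [NormedAddCommGroup Y]
  [NormedSpace ℝ Y] {T : X → Y}

namespace SphereIso

/-- the first order identity in all directions -/
theorem first_order_full (hT : SphereIso T) {a b : X} (ha : a ≠ 0) (hb : b ≠ 0)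
    (hna : DifferentiableAt ℝ (fun z : X => ‖z‖) a)
    (hnw : DifferentiableAt ℝ (fun z : X => ‖z‖) (Wv a b))
    (hnw' : DifferentiableAt ℝ (fun z : Y => ‖z‖) (Wv (T a) (T b)))
    (hTa : DifferentiableAt ℝ T a) (h : X) :
    dN (Wv (T a) (T b)) (fderiv ℝ T a h)
      - (dN (Wv (T a) (T b)) (T a) - dN (Wv a b) a) * (‖a‖⁻¹ * dN a h) = dN (Wv a b) h := by
  have hnb : 0 < ‖b‖ := norm_pos_iff.mpr hb
  have hnapos : 0 < ‖a‖ := norm_pos_iff.mpr ha
  have hA : HasFDerivAt (fun z : X => ‖b‖ • T z - ‖z‖ • T b)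
      (‖b‖ • fderiv ℝ T a - (dN a).smulRight (T b)) a :=
    (hTa.hasFDerivAt.const_smul ‖b‖).sub ((hasFDerivAt_norm hna).smul_const (T b))
  have hB : HasFDerivAt (fun z : X => ‖b‖ • z - ‖z‖ • b)
      (‖b‖ • ContinuousLinearMap.id ℝ X - (dN a).smulRight b) a :=
    ((hasFDerivAt_id a).const_smul ‖b‖).sub ((hasFDerivAt_norm hna).smul_const b)
  have hW' : Wv (T a) (T b) = ‖b‖ • T a - ‖a‖ • T b := hT.Wv_map a b
  have hW : Wv a b = ‖b‖ • a - ‖a‖ • b := rfl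
  set φ : Y →L[ℝ] ℝ := dN (Wv (T a) (T b)) with hφ
  set f : X →L[ℝ] ℝ := dN (Wv a b) with hf
  have hd1 : HasFDerivAt (fun z : Y => ‖z‖) φ (‖b‖ • T a - ‖a‖ • T b) := by
    rw [← hW']; exact hasFDerivAt_norm hnw'
  have hd2 : HasFDerivAt (fun z : X => ‖z‖) f (‖b‖ • a - ‖a‖ • b) := by
    rw [← hW]; exact hasFDerivAt_norm hnw
  have hA' := hd1.comp a hA
  have hB' := hd2.comp a hB
  have heq : ((fun z : Y => ‖z‖) ∘ fun z : X => ‖b‖ • T z - ‖z‖ • T b)
      = ((fun z : X => ‖z‖) ∘ fun z : X => ‖b‖ • z - ‖z‖ • b) := by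
    funext z
    exact hT.dist_gen z b
  rw [heq] at hA'
  have h1 := congrArg (fun L : X →L[ℝ] ℝ => L h) (hA'.unique hB')
  simp only [ContinuousLinearMap.comp_apply, _root_.sub_apply,
    _root_.smul_apply, ContinuousLinearMap.smulRight_apply, map_sub,
    map_smul, smul_eq_mul, ContinuousLinearMap.id_apply] at h1
  have h2 : φ (Wv (T a) (T b)) = f (Wv a b) := by
    rw [hφ, hf, dN_self hnw, dN_self hnw', hT.norm_Wv]
  rw [hW', hW, map_sub, map_sub, map_smul, map_smul, map_smul, map_smul, smul_eq_mul, smul_eq_mul,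
    smul_eq_mul, smul_eq_mul] at h2
  -- h1 : ‖b‖ φ(DT h) - dN a h φ(T b) = ‖b‖ f h - dN a h f b
  -- h2 : ‖b‖ φ(T a) - ‖a‖ φ(T b) = ‖b‖ f a - ‖a‖ f b
  have h3 : ‖b‖ * (φ (T a) - f a) = ‖a‖ * (φ (T b) - f b) := by linarith
  have h4 : φ (T b) - f b = ‖a‖⁻¹ * (‖b‖ * (φ (T a) - f a)) := by
    rw [h3, ← mul_assoc, inv_mul_cancel₀ hnapos.ne', one_mul]
  apply mul_left_cancel₀ hnb.ne'
  have h5 : ‖b‖ * φ (fderiv ℝ T a h) = ‖b‖ * f h + dN a h * (φ (T b) - f b) := by linarith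
  rw [mul_sub, h5, h4]
  ring

/-- the degenerate case -/
theorem linear_of_degenerate [StrictConvexSpace ℝ X] [StrictConvexSpace ℝ Y]
    [FiniteDimensional ℝ X] [FiniteDimensional ℝ Y]
    (hT : SphereIso T) (hsurj : Function.Surjective T) (hfin : finrank ℝ X = finrank ℝ Y)
    (hdim : 2 ≤ finrank ℝ X) {x₀ : X} (hx₀ : x₀ ≠ 0)
    (hX : ∀ x : X, x ≠ 0 → DifferentiableAt ℝ (fun z : X => ‖z‖) x)
    (hY : ∀ y : Y, y ≠ 0 → DifferentiableAt ℝ (fun z : Y => ‖z‖) y)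
    (hTd : DifferentiableAt ℝ T x₀) {w₀ : Y}
    (hdeg : ∀ b : X, Wv x₀ b ≠ 0 → dN (Wv (T x₀) (T b)) w₀
      = dN (Wv (T x₀) (T b)) (T x₀) - dN (Wv x₀ b) x₀) :
    ∃ L : X →L[ℝ] Y, ∀ x, T x = L x := by
  letI : MeasurableSpace X := borel X
  haveI : BorelSpace X := ⟨rfl⟩
  letI : MeasurableSpace Y := borel Y
  haveI : BorelSpace Y := ⟨rfl⟩
  have hnx : 0 < ‖x₀‖ := norm_pos_iff.mpr hx₀
  have hTx0 : T x₀ ≠ 0 := hT.map_ne_zero hx₀
  set G : Set X := {b | Wv x₀ b ≠ 0} with hG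
  have hGae : ∀ᵐ b ∂(vol X), b ∈ G := by
    filter_upwards [hT.ae_good hsurj hfin hdim hx₀] with b hb
    exact hb.1
  have hGdense : Dense G := dense_of_ae hGae
  set L : X →L[ℝ] Y := fderiv ℝ T x₀ - (‖x₀‖⁻¹ • dN x₀).smulRight w₀ with hL
  have hLapp : ∀ u, L u = fderiv ℝ T x₀ u - (‖x₀‖⁻¹ * dN x₀ u) • w₀ := fun u => by
    simp [hL]
  have hLφ : ∀ b ∈ G, ∀ u, dN (Wv (T x₀) (T b)) (L u) = dN (Wv x₀ b) u := by
    intro b hb u
    have e1 := hT.first_order_full hx₀ (ne_zero_of_Wv_ne hb).2 (hX _ hx₀) (hX _ hb)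
      (hY _ (hT.Wv_map_ne hb)) hTd u
    rw [hLapp, map_sub, map_smul, smul_eq_mul, hdeg b hb, ← e1]
    ring
  have hsepX : ∀ y : X, (∀ b ∈ G, dN (Wv x₀ b) y = 0) → y = 0 := fun y hy =>
    (id_iso (X := X)).separates (fun z => ⟨z, rfl⟩) rfl hx₀ hGae (fun b hb => hX _ hb) hy
  have hLinj : Function.Injective (L : X →ₗ[ℝ] Y) := by
    rw [injective_iff_map_eq_zero]
    intro u hu
    apply hsepX
    intro b hb
    have hu' : L u = 0 := hu
    rw [← hLφ b hb, hu', _root_.map_zero]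
  set Le : X ≃L[ℝ] Y := ((L : X →ₗ[ℝ] Y).linearEquivOfInjective hLinj hfin).toContinuousLinearEquiv
    with hLe
  have hLe' : ∀ u, Le u = L u := fun u => rfl
  -- `dN (T x₀) w₀ = 0`
  have hw₀ : dN (T x₀) w₀ = 0 := by
    have hne : Wv x₀ (-x₀) ≠ 0 := by
      rw [Wv_neg_self]; exact smul_ne_zero (by positivity) hx₀
    have e1 := hdeg (-x₀) hne
    rw [hT.map_neg, Wv_neg_self, Wv_neg_self, hT.norm_map, dN_smul_pos (by positivity),
      dN_smul_pos (by positivity), dN_self (hY _ hTx0), dN_self (hX _ hx₀), hT.norm_map,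
      sub_self] at e1
    exact e1
  refine ⟨(Le : X →L[ℝ] Y), hT.eq_linear_of_support hsurj hT.lipschitz.continuous Le hx₀ hGdense
    (fun b hb => hX _ hb) (fun b hb => hY _ (hT.Wv_map_ne hb)) (fun b hb u => ?_)
    (fun b hb => ?_)⟩
  · rw [hLe', hLφ b hb]
  · rw [hLe']
    set u : X := Wv x₀ b with hu
    have hpos : 0 < dN x₀ u := by
      rw [hu, Wv_def, map_sub, map_smul, map_smul, dN_self (hX _ hx₀), smul_eq_mul, smul_eq_mul]
      have := support_lt hb (fun v => dN_le x₀ v) (dN_self (hX _ hx₀))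
      nlinarith
    have hLu : dN (T x₀) (L u) = dN x₀ u := by
      rw [hLapp, map_sub, map_smul, hw₀, smul_zero, sub_zero, hT.dN_apply hTd (hY _ hTx0)]
    -- directional derivative
    have hline : HasDerivAt (fun t : ℝ => T x₀ - t • L u) (-(L u)) 0 := by
      have := ((hasDerivAt_id (0 : ℝ)).smul_const (L u)).const_sub (T x₀)
      simpa using this
    have hN : HasFDerivAt (fun z : Y => ‖z‖) (dN (T x₀)) (T x₀ - (0 : ℝ) • L u) := by
      rw [zero_smul, sub_zero]; exact hasFDerivAt_norm (hY _ hTx0)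
    have hder := hN.comp_hasDerivAt (0 : ℝ) hline
    rw [_root_.map_neg, hLu] at hder
    have hneg : -(dN x₀ u) < 0 := by linarith
    have hev := (hasDerivAt_iff_tendsto_slope_zero.mp hder).eventually_lt_const hneg
    have hev2 : ∀ᶠ t : ℝ in 𝓝[>] 0, t⁻¹ • (((fun z : Y => ‖z‖) ∘ fun t : ℝ => T x₀ - t • L u) (0 + t)
        - ((fun z : Y => ‖z‖) ∘ fun t : ℝ => T x₀ - t • L u) 0) < 0 :=
      hev.filter_mono (nhdsWithin_mono _ (fun t ht => ne_of_gt ht))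
    obtain ⟨t, ht, htpos⟩ := (hev2.and self_mem_nhdsWithin).exists
    have htpos' : 0 < t := htpos
    refine ⟨t, htpos', ?_⟩
    simp only [Function.comp_apply, zero_add, zero_smul, sub_zero, smul_eq_mul, hT.norm_map] at ht
    have h6 := (mul_neg_iff.mp ht)
    rcases h6 with h6 | h6
    · linarith [h6.2]
    · exact absurd h6.1 (not_lt.mpr (inv_nonneg.mpr htpos'.le))

end SphereIso

end Vale.Agent.P084
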