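import Mathlib
import Vale.Agent.Lib.P084.Avg2
import Vale.Agent.Lib.P084.Boot1
import Vale.Agent.Lib.P084.Deg

open Filter Topology Module Metric MeasureTheory Measure
open scoped NNReal ENNReal

namespace Vale.Agent.P084

variable {X Y : Type*} [NormedAddCommGroup X] [NormedSpace ℝ X] [NormedAddCommGroup Y]
  [NormedSpace ℝ Y] {T : X → Y}

namespace SphereIso

/-- The differences form a good family. -/
theorem exists_fam [StrictConvexSpace ℝ Y] (hT : SphereIso T) (hsurj : Function.Surjective T)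
    {a₀ b₀ : X} (h : Wv a₀ b₀ ≠ 0) : ∃ r₀ : ℝ, 0 < r₀ ∧ ∃ (K : ℝ≥0) (C R : ℝ), 0 < C ∧ 0 < R ∧
      Fam (fun a b => Wv (T a) (T b)) a₀ b₀ r₀ K C R ∧
      ∀ a ∈ ball a₀ r₀, ∀ b ∈ ball b₀ r₀, Wv a b ≠ 0 := by
  obtain ⟨S, hS, hST, hTS⟩ := hT.exists_inverse hsurj
  obtain ⟨r₁, hr₁, K₁, hK₁, hball⟩ := exists_antilip (hT.Wv_map_ne h)
  have hcont : Continuous T := hT.lipschitz.continuous
  have hev : ∀ᶠ p : X × X in 𝓝 (a₀, b₀), Wv p.1 p.2 ≠ 0 :=
    continuous_Wv.continuousAt.eventually_ne h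
  obtain ⟨r₂, hr₂, hball₂⟩ := Metric.eventually_nhds_iff_ball.mp hev
  have hmapball : ∀ x y : X, y ∈ ball x (r₁ / 3) → T y ∈ ball (T x) r₁ := by
    intro x y hy
    have := hT.lipschitz.dist_le_mul y x
    rw [NNReal.coe_ofNat] at this
    rw [mem_ball] at hy ⊢
    linarith
  set r₀ : ℝ := min (r₁ / 3) (min r₂ 1) with hr₀
  have hr₀1 : r₀ ≤ r₁ / 3 := min_le_left _ _
  have hr₀2 : r₀ ≤ r₂ := (min_le_right _ _).trans (min_le_left _ _)
  have hr₀3 : r₀ ≤ 1 := (min_le_right _ _).trans (min_le_right _ _)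
  have hbnorm : ∀ x y : X, y ∈ ball x r₀ → ‖y‖ ≤ ‖x‖ + 1 := by
    intro x y hy
    rw [mem_ball, dist_eq_norm] at hy
    have := norm_sub_norm_le y x
    linarith
  refine ⟨r₀, lt_min (by positivity) (lt_min hr₂ one_pos), ⟨3 * K₁, by positivity⟩,
    4 * (‖b₀‖ + 1), 2 * (‖a₀‖ + 1) * (‖b₀‖ + 1) + 1, by positivity, by positivity, ?_, ?_⟩
  · refine ⟨?_, ?_, ?_, ?_⟩
    · exact continuous_Wv.comp ((hcont.comp continuous_fst).prodMk (hcont.comp continuous_snd))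
    · intro a ha b hb b' hb'
      have e1 := hball (T a) (hmapball a₀ a (ball_subset_ball hr₀1 ha)) (T b)
        (hmapball b₀ b (ball_subset_ball hr₀1 hb)) (T b') (hmapball b₀ b' (ball_subset_ball hr₀1 hb'))
      have e2 := hS.lipschitz.dist_le_mul (T b) (T b')
      rw [hST, hST, dist_eq_norm, dist_eq_norm, NNReal.coe_ofNat] at e2
      show _ ≤ (3 * K₁) * _
      linarith
    · intro a ha a' ha' b hb
      have e1 : Wv (T a') (T b) - Wv (T a) (T b)
          = ‖b‖ • (T a' - T a) - (‖a'‖ - ‖a‖) • T b := by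
        rw [hT.Wv_map, hT.Wv_map]; module
      have e2 := hT.lipschitz.dist_le_mul a' a
      rw [dist_eq_norm, dist_eq_norm, NNReal.coe_ofNat] at e2
      have e3 := abs_norm_sub_norm_le a' a
      have e4 := hbnorm b₀ b hb
      rw [e1]
      refine (norm_sub_le _ _).trans ?_
      rw [norm_smul, norm_smul, norm_norm, hT.norm_map, Real.norm_eq_abs]
      calc ‖b‖ * ‖T a' - T a‖ + |‖a'‖ - ‖a‖| * ‖b‖
          ≤ (‖b₀‖ + 1) * (3 * ‖a' - a‖) + ‖a' - a‖ * (‖b₀‖ + 1) := by gcongr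
        _ = _ := by ring
    · intro a ha b hb
      have e3 := hbnorm a₀ a ha
      have e4 := hbnorm b₀ b hb
      rw [mem_ball_zero_iff]
      rw [hT.norm_Wv, Wv_def]
      have e5 : ‖‖b‖ • a - ‖a‖ • b‖ ≤ ‖b‖ * ‖a‖ + ‖a‖ * ‖b‖ := by
        refine (norm_sub_le _ _).trans ?_
        rw [norm_smul, norm_smul, norm_norm, norm_norm]
      have e6 : ‖a‖ * ‖b‖ ≤ (‖a₀‖ + 1) * (‖b₀‖ + 1) := by gcongr
      nlinarith
  · intro a ha b hb
    apply hball₂ (a, b)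
    rw [mem_ball, Prod.dist_eq]
    exact max_lt (ball_subset_ball hr₀2 ha) (ball_subset_ball hr₀2 hb)

end SphereIso

section zero

variable [MeasurableSpace X] [BorelSpace X] [FiniteDimensional ℝ X]

theorem eq_zero_of_setIntegral {g : X → ℝ} {b₀ : X} (hg : ContinuousAt g b₀)
    (h : ∀ᶠ r : ℝ in 𝓝[>] 0, ∫ b in ball b₀ r, g b ∂(vol X) = 0)
    (hint : ∀ᶠ r : ℝ in 𝓝[>] 0, IntegrableOn g (ball b₀ r) (vol X)) : g b₀ = 0 := by
  by_contra hne
  have hpos : 0 < |g b₀| / 2 := by positivity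
  obtain ⟨ε, hε, hball⟩ := Metric.continuousAt_iff.mp hg _ hpos
  have hev : ∀ᶠ r : ℝ in 𝓝[>] 0, r < ε :=
    eventually_nhdsWithin_of_eventually_nhds (gt_mem_nhds hε)
  obtain ⟨r, ⟨⟨h1, h2⟩, h3⟩, h4⟩ := (((h.and hint).and hev).and self_mem_nhdsWithin).exists
  have h4' : 0 < r := h4
  have hμ : (vol X) (ball b₀ r) < ⊤ := measure_ball_lt_top
  have hμ0 : 0 < (vol X).real (ball b₀ r) :=
    ENNReal.toReal_pos (measure_ball_pos _ _ h4').ne' hμ.ne
  have h5 : ‖∫ b in ball b₀ r, (g b - g b₀) ∂(vol X)‖ ≤ |g b₀| / 2 * (vol X).real (ball b₀ r) := by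
    apply norm_setIntegral_le_of_norm_le_const hμ
    intro b hb
    have := hball (lt_of_lt_of_le hb h3.le)
    rw [Real.dist_eq] at this
    exact this.le
  have hc : IntegrableOn (fun _ : X => g b₀) (ball b₀ r) (vol X) :=
    integrableOn_const hμ.ne
  rw [integral_sub h2 hc, h1, setIntegral_const, zero_sub, norm_neg, smul_eq_mul, norm_mul,
    Real.norm_of_nonneg hμ0.le, Real.norm_eq_abs] at h5
  have h6 : 0 < |g b₀| := by positivity
  nlinarith

end zero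

namespace SphereIso

variable [MeasurableSpace X] [BorelSpace X] [MeasurableSpace Y] [BorelSpace Y]

/-- a shorthand for the average on the target side -/
noncomputable def avT (T : X → Y) (b₀ : X) (r : ℝ) (a : X) : Y →L[ℝ] ℝ :=
  avg (fun a b => Wv (T a) (T b)) b₀ r a

/-- averages are Lipschitz -/
theorem avT_lip [StrictConvexSpace ℝ Y] [FiniteDimensional ℝ X] [FiniteDimensional ℝ Y]
    (hT : SphereIso T) (hsurj : Function.Surjective T) (hfin : finrank ℝ X = finrank ℝ Y)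
    (hY1 : ∀ y : Y, y ≠ 0 → ContDiffAt ℝ 1 (fun z : Y => ‖z‖) y)
    {x₀ b₀ : X} (h : Wv x₀ b₀ ≠ 0) :
    ∃ r₀ : ℝ, 0 < r₀ ∧ ∀ r, 0 < r → r < r₀ → LipAt (avT T b₀ r) x₀ ∧
      (∀ a ∈ ball x₀ r, IntegrableOn (fun b => dN (Wv (T a) (T b))) (ball b₀ r) (vol X)) ∧
      ∀ a ∈ ball x₀ r, ∀ b ∈ ball b₀ r, Wv a b ≠ 0 := by
  obtain ⟨r₀, hr₀, K, C, R, hC, hR, hfam, hne⟩ := hT.exists_fam hsurj h
  refine ⟨r₀, hr₀, fun r hr hrr => ?_⟩
  have hfam' := hfam.mono hrr.le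
  have hne' : ∀ a ∈ ball x₀ r, ∀ b ∈ ball b₀ r, Wv a b ≠ 0 := fun a ha b hb =>
    hne a (ball_subset_ball hrr.le ha) b (ball_subset_ball hrr.le hb)
  have hneT : ∀ a ∈ ball x₀ r, ∀ b ∈ ball b₀ r, (fun a b => Wv (T a) (T b)) a b ≠ 0 :=
    fun a ha b hb => hT.Wv_map_ne (hne' a ha b hb)
  obtain ⟨C', hC'⟩ := hfam'.exists_lip hfin hr hC hR hY1 hneT
  exact ⟨lipAt_of_lipschitzOn (ball_mem_nhds _ hr) hC',
    fun a ha => hfam'.integrableOn hY1 (hneT a ha), hne'⟩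

/-- averages are `C¹` if the derivative of the norm is locally Lipschitz -/
theorem avT_C1 [StrictConvexSpace ℝ Y] [FiniteDimensional ℝ X] [FiniteDimensional ℝ Y]
    (hT : SphereIso T) (hsurj : Function.Surjective T) (hfin : finrank ℝ X = finrank ℝ Y)
    (hX1 : ∀ x : X, x ≠ 0 → ContDiffAt ℝ 1 (fun z : X => ‖z‖) x)
    (hT1 : ∀ x : X, x ≠ 0 → ContDiffAt ℝ 1 T x)
    (hlip : ∀ y : Y, y ≠ 0 → LipAt (dN : Y → Y →L[ℝ] ℝ) y)
    {x₀ b₀ : X} (h : Wv x₀ b₀ ≠ 0) :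
    ∃ r₀ : ℝ, 0 < r₀ ∧ ∀ r, 0 < r → r < r₀ → ContDiffAt ℝ 1 (avT T b₀ r) x₀ := by
  have hcont : Continuous T := hT.lipschitz.continuous
  obtain ⟨r₁, hr₁, K, C, R, hC, hR, hfam, hne⟩ := hT.exists_fam hsurj h
  obtain ⟨K₂, ε, hε, hK₂⟩ := (hlip _ (hT.Wv_map_ne h)).exists_lipschitzOn
  obtain ⟨g, hg, hgeq⟩ := hK₂.extend_finite_dimension
  have hcW : Continuous fun p : X × X => Wv (T p.1) (T p.2) :=
    continuous_Wv.comp ((hcont.comp continuous_fst).prodMk (hcont.comp continuous_snd))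
  have hev : ∀ᶠ p : X × X in 𝓝 (x₀, b₀), Wv (T p.1) (T p.2) ∈ ball (Wv (T x₀) (T b₀)) ε :=
    hcW.continuousAt.eventually (ball_mem_nhds _ hε)
  obtain ⟨r₂, hr₂, hball₂⟩ := Metric.eventually_nhds_iff_ball.mp hev
  refine ⟨min r₁ r₂, lt_min hr₁ hr₂, fun r hr hrr => ?_⟩
  have hrr1 : r ≤ r₁ := (hrr.trans_le (min_le_left _ _)).le
  have hrr2 : r ≤ r₂ := (hrr.trans_le (min_le_right _ _)).le
  have hfam' := hfam.mono hrr1
  have ha0 : ∀ a ∈ ball x₀ r, a ≠ 0 := fun a ha =>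
    (ne_zero_of_Wv_ne (hne a (ball_subset_ball hrr1 ha) b₀ (mem_ball_self hr₁))).1
  have hmain := hfam'.contDiffAt_integral hfin hr hC.le hg
    (w' := fun a b => ‖b‖ • fderiv ℝ T a - (dN a).smulRight (T b)) (by
      intro a ha b hb
      have hd1 : HasFDerivAt T (fderiv ℝ T a) a :=
        ((hT1 a (ha0 a ha)).differentiableAt (by norm_num)).hasFDerivAt
      have hd2 : HasFDerivAt (fun z : X => ‖z‖) (dN a) a :=
        hasFDerivAt_norm ((hX1 a (ha0 a ha)).differentiableAt (by norm_num))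
      have hd3 : HasFDerivAt (fun z : X => ‖b‖ • T z - ‖z‖ • T b)
          (‖b‖ • fderiv ℝ T a - (dN a).smulRight (T b)) a :=
        (hd1.const_smul ‖b‖).sub (hd2.smul_const (T b))
      have e1 : (fun a => Wv (T a) (T b)) = fun z : X => ‖b‖ • T z - ‖z‖ • T b := by
        funext z; exact hT.Wv_map z b
      rw [e1]; exact hd3) (by
      intro p hp
      have hp0 : p.1 ≠ 0 := ha0 p.1 hp.1
      have hc1 : ContinuousAt (fun p : X × X => fderiv ℝ T p.1) p := by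
        have e1 : ContDiffAt ℝ 0 (fderiv ℝ T) p.1 := (hT1 _ hp0).fderiv_right (by norm_num)
        exact ContinuousAt.comp (f := Prod.fst) e1.continuousAt continuousAt_fst
      have hc2 : ContinuousAt (fun p : X × X => (dN p.1 : X →L[ℝ] ℝ)) p :=
        ContinuousAt.comp (f := Prod.fst) (continuousAt_dN (hX1 _ hp0)) continuousAt_fst
      have hc3 : ContinuousAt (fun p : X × X => T p.2) p := (hcont.comp continuous_snd).continuousAt
      have hc4 : ContinuousAt (fun p : X × X => ‖p.2‖) p := (by fun_prop : Continuous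
        fun p : X × X => ‖p.2‖).continuousAt
      have hc5 : ContinuousAt (fun p : X × X => (dN p.1 : X →L[ℝ] ℝ).smulRight (T p.2)) p := by
        have e2 : Continuous fun q : (X →L[ℝ] ℝ) × Y => q.1.smulRight q.2 := by fun_prop
        exact ContinuousAt.comp (f := fun p : X × X => ((dN p.1 : X →L[ℝ] ℝ), T p.2))
          (g := fun q : (X →L[ℝ] ℝ) × Y => q.1.smulRight q.2) e2.continuousAt (hc2.prodMk hc3)
      exact ((hc4.smul hc1).sub hc5).continuousWithinAt)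
  refine hmain.congr_of_eventuallyEq ?_
  filter_upwards [ball_mem_nhds x₀ hr] with a ha
  show ∫ b in ball b₀ r, dN (Wv (T a) (T b)) ∂(vol X) = _
  apply setIntegral_congr_fun measurableSet_ball
  intro b hb
  refine hgeq (hball₂ (a, b) ?_)
  rw [mem_ball, Prod.dist_eq]
  exact max_lt (ball_subset_ball hrr2 ha) (ball_subset_ball hrr2 hb)

/-- the averaged first order identity -/
theorem avT_identity (hT : SphereIso T) [FiniteDimensional ℝ X] [FiniteDimensional ℝ Y]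
    (hX1 : ∀ x : X, x ≠ 0 → ContDiffAt ℝ 1 (fun z : X => ‖z‖) x)
    (hY1 : ∀ y : Y, y ≠ 0 → ContDiffAt ℝ 1 (fun z : Y => ‖z‖) y)
    (hT1 : ∀ x : X, x ≠ 0 → ContDiffAt ℝ 1 T x) {a b₀ : X} {r : ℝ} (ha : a ≠ 0)
    (hi1 : IntegrableOn (fun b => dN (Wv a b)) (ball b₀ r) (vol X))
    (hi2 : IntegrableOn (fun b => dN (Wv (T a) (T b))) (ball b₀ r) (vol X))
    (hne : ∀ b ∈ ball b₀ r, Wv a b ≠ 0) (h : X) :
    avT T b₀ r a (fderiv ℝ T a h)
      - (avT T b₀ r a (T a) - avT (fun x : X => x) b₀ r a a) * (‖a‖⁻¹ • dN a) h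
      = avT (fun x : X => x) b₀ r a h := by
  have hXd : ∀ x : X, x ≠ 0 → DifferentiableAt ℝ (fun z : X => ‖z‖) x :=
    fun x hx => (hX1 x hx).differentiableAt (by norm_num)
  have hYd : ∀ x : Y, x ≠ 0 → DifferentiableAt ℝ (fun z : Y => ‖z‖) x :=
    fun x hx => (hY1 x hx).differentiableAt (by norm_num)
  have happ1 : ∀ v : X, avT (fun x : X => x) b₀ r a v
      = ∫ b in ball b₀ r, dN (Wv a b) v ∂(vol X) := fun v =>
    ContinuousLinearMap.integral_apply hi1 v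
  have happ2 : ∀ v : Y, avT T b₀ r a v
      = ∫ b in ball b₀ r, dN (Wv (T a) (T b)) v ∂(vol X) := fun v =>
    ContinuousLinearMap.integral_apply hi2 v
  have hI1 : ∀ v : X, IntegrableOn (fun b => dN (Wv a b) v) (ball b₀ r) (vol X) := fun v =>
    ((ContinuousLinearMap.apply ℝ ℝ v).integrable_comp hi1)
  have hI2 : ∀ v : Y, IntegrableOn (fun b => dN (Wv (T a) (T b)) v) (ball b₀ r) (vol X) := fun v =>
    ((ContinuousLinearMap.apply ℝ ℝ v).integrable_comp hi2)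
  rw [happ1, happ1, happ2, happ2, ← integral_sub (hI2 _) (hI1 _), ← integral_mul_const]
  have hI3 : IntegrableOn (fun b => (dN (Wv (T a) (T b)) (T a) - dN (Wv a b) a)
      * (‖a‖⁻¹ • dN a) h) (ball b₀ r) (vol X) := ((hI2 _).sub (hI1 _)).mul_const _
  rw [← integral_sub (hI2 _) hI3]
  apply setIntegral_congr_fun measurableSet_ball
  intro b hb
  have hb0 := hne b hb
  exact hT.first_order_full ha (ne_zero_of_Wv_ne hb0).2 (hXd _ ha) (hXd _ hb0)
    (hYd _ (hT.Wv_map_ne hb0)) ((hT1 a ha).differentiableAt (by norm_num)) h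

end SphereIso

end Vale.Agent.P084
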