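import Mathlib
import Vale.Agent.Lib.P084.Local3

open Filter Topology Module

namespace Vale.Agent.P084

theorem exists_finset_separating {Y : Type*} [NormedAddCommGroup Y] [NormedSpace ℝ Y]
    [FiniteDimensional ℝ Y] (S : Set (Y →L[ℝ] ℝ)) (hS : ∀ v : Y, (∀ φ ∈ S, φ v = 0) → v = 0) :
    ∃ s : Finset (Y →L[ℝ] ℝ), (s : Set (Y →L[ℝ] ℝ)) ⊆ S ∧
      ∀ v : Y, (∀ φ ∈ s, φ v = 0) → v = 0 := by
  have hfg : (Submodule.span ℝ S).FG := IsNoetherian.noetherian _
  obtain ⟨s, hsS, hspan⟩ := (Submodule.fg_span_iff_fg_span_finset_subset S).mp hfg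
  refine ⟨s, hsS, fun v hv => hS v fun φ hφ => ?_⟩
  have key : ∀ φ ∈ Submodule.span ℝ (s : Set (Y →L[ℝ] ℝ)), φ v = 0 := by
    intro φ hφ
    induction hφ using Submodule.span_induction with
    | mem x hx => exact hv x hx
    | zero => simp
    | add x y _ _ hx hy => rw [_root_.add_apply, hx, hy, add_zero]
    | smul a x _ hx => rw [_root_.smul_apply, hx, smul_zero]
  exact key φ (by rw [← hspan]; exact Submodule.subset_span hφ)

variable {X Y : Type*} [NormedAddCommGroup X] [NormedSpace ℝ X] [NormedAddCommGroup Y]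
  [NormedSpace ℝ Y] {T : X → Y}

namespace SphereIso

/-- The functionals appearing in the derivatives of the distance functions separate points. -/
theorem separating (hT : SphereIso T) (hsurj : Function.Surjective T)
    (hYd : ∀ y : Y, y ≠ 0 → ContDiffAt ℝ 1 (fun z : Y => ‖z‖) y)
    {x : X} (hx : x ≠ 0) {v : Y}
    (hv : ∀ z : X, ‖z‖ • T x - ‖T x‖ • T z ≠ 0 →
      dN (‖z‖ • T x - ‖T x‖ • T z) (‖z‖ • v - dN (T x) v • T z) = 0) : v = 0 := by
  have hTx0 : T x ≠ 0 := hT.map_ne_zero hx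
  have hnT : 0 < ‖T x‖ := norm_pos_iff.mpr hTx0
  have hnx : 0 < ‖x‖ := norm_pos_iff.mpr hx
  have hYd' : ∀ y : Y, y ≠ 0 → DifferentiableAt ℝ (fun z : Y => ‖z‖) y :=
    fun y hy => (hYd y hy).differentiableAt (by norm_num)
  -- first: `dN (T x) v = 0`
  have h1 : dN (T x) v = 0 := by
    have e1 : ‖-x‖ • T x - ‖T x‖ • T (-x) = (2 * ‖x‖) • T x := by
      rw [_root_.norm_neg, hT.map_neg, hT.norm_map, smul_neg, sub_neg_eq_add, ← two_smul ℝ,
        smul_smul]
    have hne : ‖-x‖ • T x - ‖T x‖ • T (-x) ≠ 0 := by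
      rw [e1]; exact smul_ne_zero (by positivity) hTx0
    have h2 := hv (-x) hne
    rw [e1, dN_smul_pos (by positivity), hT.map_neg, _root_.norm_neg, map_sub, map_smul, smul_neg,
      _root_.map_neg, map_smul, dN_self (hYd' _ hTx0), hT.norm_map, smul_eq_mul, smul_eq_mul] at h2
    have h3 : (2 * ‖x‖) * dN (T x) v = 0 := by linarith
    exact (mul_eq_zero.mp h3).resolve_left (by positivity)
  by_contra hv0
  -- second: choose points close to `T x`
  have hsl := tendsto_gslope (T := fun y : Y => y) (x := T x) (u := v)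
    differentiableAt_id (hYd' _ hTx0) h1
  have hfid : fderiv ℝ (fun y : Y => y) (T x) v = v := by simp
  rw [hfid] at hsl
  have hlim0 : -(‖T x‖ • v) ≠ 0 := by
    rw [neg_ne_zero]; exact smul_ne_zero hnT.ne' hv0
  have hev1 := hsl.eventually_ne hlim0
  have hev2 : ∀ᶠ t : ℝ in 𝓝[≠] 0, T x + t • v ≠ 0 := by
    apply eventually_nhdsWithin_of_eventually_nhds
    apply (hasDerivAt_line (T x) v).continuousAt.eventually_ne
    simpa using hTx0
  have hev3 : ∀ᶠ t : ℝ in 𝓝[≠] 0, t ≠ 0 := self_mem_nhdsWithin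
  have hzero : ∀ᶠ t : ℝ in 𝓝[≠] 0,
      dN (t⁻¹ • (‖T x + t • v‖ • T x - ‖T x‖ • (T x + t • v))) v = 0 := by
    filter_upwards [hev1, hev2, hev3] with t ht1 ht2 ht3
    obtain ⟨z, hz⟩ := hsurj (T x + t • v)
    have hzn : ‖z‖ = ‖T x + t • v‖ := by rw [← hz, hT.norm_map]
    have hne : ‖z‖ • T x - ‖T x‖ • T z ≠ 0 := by
      rw [hzn, hz]
      intro h0
      apply ht1
      rw [h0, smul_zero]
    have h2 := hv z hne
    rw [h1, zero_smul, sub_zero, map_smul, smul_eq_mul, hzn, hz] at h2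
    have h3 := (mul_eq_zero.mp h2).resolve_left (norm_ne_zero_iff.mpr ht2)
    rcases lt_or_gt_of_ne (inv_ne_zero ht3) with hneg | hpos
    · rw [dN_smul_neg hneg, _root_.neg_apply, h3, neg_zero]
    · rw [dN_smul_pos hpos, h3]
  have hc : ContinuousAt (dN : Y → Y →L[ℝ] ℝ) (-(‖T x‖ • v)) := by
    have : ContDiffAt ℝ 0 (dN : Y → Y →L[ℝ] ℝ) (-(‖T x‖ • v)) :=
      (hYd _ hlim0).fderiv_right (by norm_num)
    exact this.continuousAt
  have hl := tendsto_clm_apply (hc.tendsto.comp hsl) (tendsto_const_nhds (x := v))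
  have h5 : Tendsto (fun _ : ℝ => (0 : ℝ)) (𝓝[≠] 0) (𝓝 (dN (-(‖T x‖ • v)) v)) := by
    refine hl.congr' ?_
    filter_upwards [hzero] with t ht
    exact ht
  have h6 := tendsto_nhds_unique h5 tendsto_const_nhds
  rw [dN_neg, dN_smul_pos hnT, _root_.neg_apply, dN_self (hYd' _ hv0)] at h6
  exact hv0 (norm_eq_zero.mp (by linarith))

/-- Regularity of `T`. -/
theorem contDiffAt (hT : SphereIso T) (hsurj : Function.Surjective T) (hcont : Continuous T)
    [FiniteDimensional ℝ Y] {n : WithTop ℕ∞} (hn : 1 ≤ n)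
    (hX : ∀ x : X, x ≠ 0 → ContDiffAt ℝ n (fun z : X => ‖z‖) x)
    (hY : ∀ y : Y, y ≠ 0 → ContDiffAt ℝ n (fun z : Y => ‖z‖) y)
    {x : X} (hx : x ≠ 0) : ContDiffAt ℝ n T x := by
  have hn0 : n ≠ 0 := by
    intro h0; rw [h0] at hn; exact absurd hn (by norm_num)
  have hTx0 : T x ≠ 0 := hT.map_ne_zero hx
  have hYd : ∀ y : Y, y ≠ 0 → DifferentiableAt ℝ (fun z : Y => ‖z‖) y :=
    fun y hy => (hY y hy).differentiableAt hn0
  set S : Set (Y →L[ℝ] ℝ) := {L | ∃ z : X, ‖z‖ • T x - ‖T x‖ • T z ≠ 0 ∧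
    L = (dN (‖z‖ • T x - ‖T x‖ • T z)).comp
      (‖z‖ • ContinuousLinearMap.id ℝ Y - (dN (T x)).smulRight (T z))} with hS
  obtain ⟨s, hsS, hsep⟩ := exists_finset_separating S (by
    intro v hv
    apply hT.separating hsurj (fun y hy => (hY y hy).of_le hn) hx
    intro z hz
    have := hv _ ⟨z, hz, rfl⟩
    simpa using this)
  have hchoice : ∀ φ : s, ∃ z : X, ‖z‖ • T x - ‖T x‖ • T z ≠ 0 ∧
    (φ : Y →L[ℝ] ℝ) = (dN (‖z‖ • T x - ‖T x‖ • T z)).comp
      (‖z‖ • ContinuousLinearMap.id ℝ Y - (dN (T x)).smulRight (T z)) := fun φ => hsS φ.2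
  choose z hz1 hz2 using hchoice
  -- the distance functions
  set Φ' : Y → (s → ℝ) := fun w φ => ‖‖z φ‖ • w - ‖w‖ • T (z φ)‖ with hΦ'
  set Φ : X → (s → ℝ) := fun w φ => ‖‖z φ‖ • w - ‖w‖ • z φ‖ with hΦ
  have hcomp : ∀ w, Φ' (T w) = Φ w := by
    intro w; funext φ
    simp only [hΦ', hΦ]
    rw [hT.norm_map w]
    exact hT.dist_gen w (z φ)
  set D : Y →L[ℝ] (s → ℝ) := ContinuousLinearMap.pi (fun φ : s => (φ : Y →L[ℝ] ℝ)) with hD
  have hDder : HasFDerivAt Φ' D (T x) := by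
    rw [hasFDerivAt_pi']
    intro φ
    have h1 : HasFDerivAt (fun w : Y => ‖z φ‖ • w - ‖w‖ • T (z φ))
        (‖z φ‖ • ContinuousLinearMap.id ℝ Y - (dN (T x)).smulRight (T (z φ))) (T x) :=
      ((hasFDerivAt_id (T x)).const_smul ‖z φ‖).sub
        ((hasFDerivAt_norm (hYd _ hTx0)).smul_const (T (z φ)))
    have h2 := (hasFDerivAt_norm (hYd _ (hz1 φ))).comp (T x) h1
    rw [← hz2 φ] at h2
    refine h2.congr_fderiv ?_
    ext v; simp [hD]
  have hΦ'C : ContDiffAt ℝ n Φ' (T x) := by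
    rw [contDiffAt_pi]
    intro φ
    have h1 : ContDiffAt ℝ n (fun w : Y => ‖z φ‖ • w - ‖w‖ • T (z φ)) (T x) :=
      (contDiffAt_id.const_smul ‖z φ‖).sub ((hY _ hTx0).smul contDiffAt_const)
    exact (hY _ (hz1 φ)).comp (T x) h1
  have hΦC : ContDiffAt ℝ n Φ x := by
    rw [contDiffAt_pi]
    intro φ
    have h1 : ContDiffAt ℝ n (fun w : X => ‖z φ‖ • w - ‖w‖ • z φ) x :=
      (contDiffAt_id.const_smul ‖z φ‖).sub ((hX _ hx).smul contDiffAt_const)
    have hne : ‖z φ‖ • x - ‖x‖ • z φ ≠ 0 := by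
      rw [← norm_ne_zero_iff, ← hT.dist_gen, norm_ne_zero_iff, ← hT.norm_map x]
      exact hz1 φ
    exact (hX _ hne).comp x h1
  have hker : (D : Y →ₗ[ℝ] (s → ℝ)).ker = ⊥ := by
    rw [LinearMap.ker_eq_bot']
    intro v hv
    apply hsep
    intro φ hφ
    exact congrFun hv ⟨φ, hφ⟩
  obtain ⟨P₀, hP₀⟩ := LinearMap.exists_leftInverse_of_injective (D : Y →ₗ[ℝ] (s → ℝ)) hker
  set P : (s → ℝ) →L[ℝ] Y := LinearMap.toContinuousLinearMap P₀ with hP
  have hPD : P.comp D = ContinuousLinearMap.id ℝ Y := by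
    ext v
    exact congrArg (fun L : Y →ₗ[ℝ] Y => L v) hP₀
  have hGder : HasFDerivAt (fun w => P (Φ' w)) ((ContinuousLinearEquiv.refl ℝ Y : Y ≃L[ℝ] Y) : Y →L[ℝ] Y)
      (T x) := by
    have := P.hasFDerivAt.comp (T x) hDder
    rw [hPD] at this
    exact this
  have hGC : ContDiffAt ℝ n (fun w => P (Φ' w)) (T x) := P.contDiff.contDiffAt.comp (T x) hΦ'C
  have hGXC : ContDiffAt ℝ n (fun w => P (Φ w)) x := P.contDiff.contDiffAt.comp x hΦC
  have hinvC := hGC.to_localInverse hGder hn0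
  have hstrict := hGC.hasStrictFDerivAt' hGder hn0
  have hleft : ∀ᶠ w in 𝓝 (T x), hGC.localInverse hGder hn0 (P (Φ' w)) = w :=
    hstrict.eventually_left_inverse
  have hleft' : ∀ᶠ w in 𝓝 x, hGC.localInverse hGder hn0 (P (Φ w)) = T w := by
    have := hcont.continuousAt.eventually hleft
    filter_upwards [this] with w hw
    rw [← hcomp]; exact hw
  have hcompC : ContDiffAt ℝ n (fun w => hGC.localInverse hGder hn0 (P (Φ w))) x := by
    have h1 : ContDiffAt ℝ n (hGC.localInverse hGder hn0) (P (Φ x)) := by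
      rw [← hcomp]; exact hinvC
    exact h1.comp x hGXC
  exact hcompC.congr_of_eventuallyEq (by
    filter_upwards [hleft'] with w hw
    exact hw.symm)

end SphereIso

end Vale.Agent.P084
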