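import Mathlib
import Vale.Agent.Lib.P084.Boot2
import Vale.Agent.Lib.P084.Regular

open Filter Topology Module Metric MeasureTheory Measure
open scoped NNReal ENNReal

namespace Vale.Agent.P084

variable {X Y : Type*} [NormedAddCommGroup X] [NormedSpace ℝ X] [NormedAddCommGroup Y]
  [NormedSpace ℝ Y] {T : X → Y}

namespace SphereIso

/-- nondegeneracy at a point -/
def Nondeg (T : X → Y) (x₀ : X) : Prop :=
  ∀ (w : Y) (α : ℝ), (∀ b : X, Wv x₀ b ≠ 0 → dN (Wv (T x₀) (T b)) w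
    - (dN (Wv (T x₀) (T b)) (T x₀) - dN (Wv x₀ b) x₀) * α = 0) → w = 0 ∧ α = 0

/-- either nondegenerate or linear -/
theorem nondeg_or_linear [StrictConvexSpace ℝ X] [StrictConvexSpace ℝ Y]
    [FiniteDimensional ℝ X] [FiniteDimensional ℝ Y]
    (hT : SphereIso T) (hsurj : Function.Surjective T) (hfin : finrank ℝ X = finrank ℝ Y)
    (hdim : 2 ≤ finrank ℝ X) {x₀ : X} (hx₀ : x₀ ≠ 0)
    (hX : ∀ x : X, x ≠ 0 → DifferentiableAt ℝ (fun z : X => ‖z‖) x)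
    (hY : ∀ y : Y, y ≠ 0 → DifferentiableAt ℝ (fun z : Y => ‖z‖) y)
    (hTd : DifferentiableAt ℝ T x₀) (hnl : ¬ ∃ L : X →L[ℝ] Y, ∀ x, T x = L x) :
    Nondeg T x₀ := by
  letI : MeasurableSpace X := borel X
  haveI : BorelSpace X := ⟨rfl⟩
  letI : MeasurableSpace Y := borel Y
  haveI : BorelSpace Y := ⟨rfl⟩
  intro w α hw
  have hα : α = 0 := by
    by_contra hα
    apply hnl
    refine hT.linear_of_degenerate hsurj hfin hdim hx₀ hX hY hTd (w₀ := α⁻¹ • w) fun b hb => ?_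
    have h1 := hw b hb
    rw [map_smul, smul_eq_mul, sub_eq_zero.mp h1]
    field_simp
  refine ⟨?_, hα⟩
  have hGae : ∀ᵐ b ∂(vol X), b ∈ {b : X | Wv x₀ b ≠ 0} := by
    filter_upwards [hT.ae_good hsurj hfin hdim hx₀] with b hb
    exact hb.1
  refine hT.separates hsurj hfin hx₀ hGae (fun b hb => hY _ (hT.Wv_map_ne hb)) fun b hb => ?_
  have h1 := hw b hb
  rwa [hα, mul_zero, sub_zero] at h1

variable [MeasurableSpace X] [BorelSpace X] [MeasurableSpace Y] [BorelSpace Y]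

/-- representation of the derivative of the norm by averages -/
theorem exists_rep [FiniteDimensional ℝ X] [FiniteDimensional ℝ Y]
    (hT : SphereIso T)
    (hX1 : ∀ x : X, x ≠ 0 → ContDiffAt ℝ 1 (fun z : X => ‖z‖) x)
    (hY1 : ∀ y : Y, y ≠ 0 → ContDiffAt ℝ 1 (fun z : Y => ‖z‖) y)
    (hT1 : ∀ x : X, x ≠ 0 → ContDiffAt ℝ 1 T x) {x₀ : X} (hx₀ : x₀ ≠ 0)
    (hnd : Nondeg T x₀) (P : X → ℝ → Prop)
    (hP : ∀ b₀, Wv x₀ b₀ ≠ 0 → ∃ r₀ : ℝ, 0 < r₀ ∧ ∀ r, 0 < r → r < r₀ → P b₀ r)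
    (hP' : ∀ b₀ r, P b₀ r → 0 < r ∧ (∀ a ∈ ball x₀ r, ∀ b ∈ ball b₀ r, Wv a b ≠ 0) ∧
      (∀ a ∈ ball x₀ r, IntegrableOn (fun b => dN (Wv a b)) (ball b₀ r) (vol X)) ∧
      (∀ a ∈ ball x₀ r, IntegrableOn (fun b => dN (Wv (T a) (T b))) (ball b₀ r) (vol X)) ∧
      ContinuousAt (avT (fun x : X => x) b₀ r) x₀ ∧ ContinuousAt (avT T b₀ r) x₀) :
    ∃ (s : Finset ((Y × ℝ) →L[ℝ] ℝ)) (β : s → X) (ρ : s → ℝ)
      (Θ : (s → Y →L[ℝ] ℝ) × (s → X →L[ℝ] ℝ) × Y × X → (X →L[ℝ] ℝ)),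
      (∀ i, P (β i) (ρ i)) ∧
      ContDiffAt ℝ 1 Θ (fun i => avT T (β i) (ρ i) x₀,
        fun i => avT (fun x : X => x) (β i) (ρ i) x₀, T x₀, x₀) ∧
      ∀ᶠ a in 𝓝 x₀, ‖a‖⁻¹ • dN a = Θ (fun i => avT T (β i) (ρ i) a,
        fun i => avT (fun x : X => x) (β i) (ρ i) a, T a, a) := by
  have hcont : Continuous T := hT.lipschitz.continuous
  set Ψ : X → ℝ → ((Y × ℝ) →L[ℝ] ℝ) := fun b r =>
    (avT T b r x₀).comp (ContinuousLinearMap.fst ℝ Y ℝ)
      - (avT T b r x₀ (T x₀) - avT (fun x : X => x) b r x₀ x₀) • ContinuousLinearMap.snd ℝ Y ℝ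
    with hΨ
  have hΨapp : ∀ b r v, Ψ b r v = avT T b r x₀ v.1
      - (avT T b r x₀ (T x₀) - avT (fun x : X => x) b r x₀ x₀) * v.2 := fun b r v => by
    simp [hΨ]
  set S : Set ((Y × ℝ) →L[ℝ] ℝ) := {L | ∃ b r, P b r ∧ L = Ψ b r} with hS
  obtain ⟨s, hsS, hsep⟩ := exists_finset_separating S (by
    intro v hv
    have h1 : v.1 = 0 ∧ v.2 = 0 := by
      apply hnd
      intro b₀ hb₀
      obtain ⟨r₀, hr₀, hPr⟩ := hP b₀ hb₀
      have hsmall : ∀ᶠ r : ℝ in 𝓝[>] 0, 0 < r ∧ r < r₀ := by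
        filter_upwards [self_mem_nhdsWithin,
          eventually_nhdsWithin_of_eventually_nhds (gt_mem_nhds hr₀)] with r h1 h2
        exact ⟨h1, h2⟩
      have hneT : Wv (T x₀) (T b₀) ≠ 0 := hT.Wv_map_ne hb₀
      have hI1 : ∀ r, 0 < r → r < r₀ → ∀ u : X,
          IntegrableOn (fun b => dN (Wv x₀ b) u) (ball b₀ r) (vol X) := fun r h1 h2 u =>
        ((ContinuousLinearMap.apply ℝ ℝ u).integrable_comp
          ((hP' b₀ r (hPr r h1 h2)).2.2.1 x₀ (mem_ball_self h1)))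
      have hI2 : ∀ r, 0 < r → r < r₀ → ∀ u : Y,
          IntegrableOn (fun b => dN (Wv (T x₀) (T b)) u) (ball b₀ r) (vol X) := fun r h1 h2 u =>
        ((ContinuousLinearMap.apply ℝ ℝ u).integrable_comp
          ((hP' b₀ r (hPr r h1 h2)).2.2.2.1 x₀ (mem_ball_self h1)))
      refine eq_zero_of_setIntegral (g := fun b => dN (Wv (T x₀) (T b)) v.1
        - (dN (Wv (T x₀) (T b)) (T x₀) - dN (Wv x₀ b) x₀) * v.2) ?_ ?_ ?_
      · have hc1 : ContinuousAt (fun b => (dN (Wv x₀ b) : X →L[ℝ] ℝ)) b₀ :=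
          ContinuousAt.comp (f := fun b => Wv x₀ b) (continuousAt_dN (hX1 _ hb₀))
            (continuous_Wv_right x₀).continuousAt
        have hc2 : ContinuousAt (fun b => (dN (Wv (T x₀) (T b)) : Y →L[ℝ] ℝ)) b₀ :=
          ContinuousAt.comp (f := fun b => Wv (T x₀) (T b)) (continuousAt_dN (hY1 _ hneT))
            ((continuous_Wv_right (T x₀)).comp hcont).continuousAt
        exact (hc2.clm_apply continuousAt_const).sub
          (((hc2.clm_apply continuousAt_const).sub (hc1.clm_apply continuousAt_const)).mul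
            continuousAt_const)
      · filter_upwards [hsmall] with r hr
        have e1 := hv _ ⟨b₀, r, hPr r hr.1 hr.2, rfl⟩
        rw [hΨapp] at e1
        have happ1 : ∀ u : X, avT (fun x : X => x) b₀ r x₀ u
            = ∫ b in ball b₀ r, dN (Wv x₀ b) u ∂(vol X) := fun u =>
          ContinuousLinearMap.integral_apply
            ((hP' b₀ r (hPr r hr.1 hr.2)).2.2.1 x₀ (mem_ball_self hr.1)) u
        have happ2 : ∀ u : Y, avT T b₀ r x₀ u
            = ∫ b in ball b₀ r, dN (Wv (T x₀) (T b)) u ∂(vol X) := fun u =>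
          ContinuousLinearMap.integral_apply
            ((hP' b₀ r (hPr r hr.1 hr.2)).2.2.2.1 x₀ (mem_ball_self hr.1)) u
        have hI3 : IntegrableOn (fun b => (dN (Wv (T x₀) (T b)) (T x₀) - dN (Wv x₀ b) x₀) * v.2)
            (ball b₀ r) (vol X) := ((hI2 r hr.1 hr.2 _).sub (hI1 r hr.1 hr.2 _)).mul_const _
        rw [integral_sub (hI2 r hr.1 hr.2 _) hI3, integral_mul_const,
          integral_sub (hI2 r hr.1 hr.2 _) (hI1 r hr.1 hr.2 _), ← happ1, ← happ2, ← happ2]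
        exact e1
      · filter_upwards [hsmall] with r hr
        exact (hI2 r hr.1 hr.2 _).sub
          (((hI2 r hr.1 hr.2 _).sub (hI1 r hr.1 hr.2 _)).mul_const _)
    exact Prod.ext h1.1 h1.2)
  have hchoice : ∀ i : s, ∃ b r, P b r ∧ (i : (Y × ℝ) →L[ℝ] ℝ) = Ψ b r := fun i => hsS i.2
  choose β ρ hβρ hψ using hchoice
  obtain ⟨Θ, hΘ1, hΘ2⟩ := exists_theta (ι := s) (fun i => avT T (β i) (ρ i))
    (fun i => avT (fun x : X => x) (β i) (ρ i)) T (x₀ := x₀) (fun a => fderiv ℝ T a)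
    (fun a => ‖a‖⁻¹ • dN a) (by
      have h1 : ∀ i : s, ∀ᶠ a in 𝓝 x₀, a ∈ ball x₀ (ρ i) := fun i =>
        ball_mem_nhds _ (hP' _ _ (hβρ i)).1
      have h2 : ∀ᶠ a in 𝓝 x₀, a ≠ 0 := isOpen_compl_singleton.mem_nhds hx₀
      filter_upwards [Filter.eventually_all.mpr h1, h2] with a ha ha0
      intro i h
      obtain ⟨p1, p2, p3, p4, -, -⟩ := hP' _ _ (hβρ i)
      exact hT.avT_identity hX1 hY1 hT1 ha0 (p3 a (ha i)) (p4 a (ha i)) (p2 a (ha i)) h) (by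
      intro w α hw
      have h1 : ((w, α) : Y × ℝ) = 0 := by
        apply hsep
        intro φ hφ
        have h2 := hψ ⟨φ, hφ⟩
        simp only at h2
        rw [h2, hΨapp]
        exact hw ⟨φ, hφ⟩
      exact ⟨congrArg Prod.fst h1, congrArg Prod.snd h1⟩) (by
      refine ContinuousAt.prodMk ?_ (ContinuousAt.prodMk ?_ (ContinuousAt.prodMk ?_ ?_))
      · exact continuousAt_pi.mpr fun i => (hP' _ _ (hβρ i)).2.2.2.2.2
      · exact continuousAt_pi.mpr fun i => (hP' _ _ (hβρ i)).2.2.2.2.1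
      · exact hcont.continuousAt
      · exact continuousAt_id)
  exact ⟨s, β, ρ, Θ, hβρ, hΘ1, hΘ2⟩

end SphereIso

end Vale.Agent.P084
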