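import Mathlib
import Vale.Agent.Lib.P084.Local3

open Filter Topology Module

namespace Vale.Agent.P084

theorem second_deriv_nonneg_of_isLocalMin {f : ℝ → ℝ} (h : IsLocalMin f 0)
    (hc : ContinuousAt f 0) : 0 ≤ deriv (deriv f) 0 := by
  by_contra hneg
  push Not at hneg
  have h1 := isLocalMax_of_deriv_deriv_neg hneg h.deriv_eq_zero hc
  have h2 : f =ᶠ[𝓝 0] fun _ => f 0 := by
    filter_upwards [h, h1] with t ht1 ht2
    exact le_antisymm ht2 ht1
  have h3 : deriv f =ᶠ[𝓝 0] fun _ => 0 := by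
    have := h2.deriv
    filter_upwards [this] with t ht
    rw [ht]; simp
  rw [h3.deriv_eq] at hneg
  simp at hneg

variable {X : Type*} [NormedAddCommGroup X] [NormedSpace ℝ X]

theorem strict_gap [StrictConvexSpace ℝ X] {x₀ y : X} (hx₀ : x₀ ≠ 0)
    (hX : DifferentiableAt ℝ (fun z : X => ‖z‖) x₀) (hy : y ≠ x₀) :
    0 < ‖y‖ ^ 2 / 2 - ‖x₀‖ ^ 2 / 2 - ‖x₀‖ * dN x₀ (y - x₀) := by
  have h0 : dN x₀ x₀ = ‖x₀‖ := dN_self hX
  have hpos : 0 < ‖x₀‖ := norm_pos_iff.mpr hx₀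
  have hle : dN x₀ y ≤ ‖y‖ := dN_le x₀ y
  have e : ‖y‖ ^ 2 / 2 - ‖x₀‖ ^ 2 / 2 - ‖x₀‖ * dN x₀ (y - x₀)
      = (‖y‖ - ‖x₀‖) ^ 2 / 2 + ‖x₀‖ * (‖y‖ - dN x₀ y) := by
    rw [map_sub, h0]; ring
  rw [e]
  have h1 : 0 ≤ (‖y‖ - ‖x₀‖) ^ 2 / 2 := by positivity
  have h2 : 0 ≤ ‖x₀‖ * (‖y‖ - dN x₀ y) := mul_nonneg hpos.le (by linarith)
  rcases h1.lt_or_eq with h1' | h1'
  · linarith
  rcases h2.lt_or_eq with h2' | h2'
  · linarith
  exfalso
  have hn : ‖y‖ = ‖x₀‖ := by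
    have : (‖y‖ - ‖x₀‖) ^ 2 = 0 := by linarith
    have := pow_eq_zero_iff (n := 2) (by norm_num) |>.mp this
    linarith
  have hd : dN x₀ y = ‖y‖ := by
    rcases mul_eq_zero.mp h2'.symm with h | h
    · exact absurd h hpos.ne'
    · linarith
  apply hy
  have h3 : ‖y + x₀‖ = ‖y‖ + ‖x₀‖ := by
    apply le_antisymm (norm_add_le _ _)
    calc ‖y‖ + ‖x₀‖ = dN x₀ (y + x₀) := by rw [map_add, hd, h0]
      _ ≤ ‖y + x₀‖ := dN_le _ _
  exact eq_of_norm_eq_of_norm_add_eq hn h3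

theorem exists_posDef [FiniteDimensional ℝ X] [StrictConvexSpace ℝ X]
    (hX : ∀ x : X, x ≠ 0 → ContDiffAt ℝ 2 (fun z : X => ‖z‖) x)
    {x₀ : X} (hx₀ : x₀ ≠ 0) {ε : ℝ} (hε : 0 < ε) :
    ∃ x : X, dist x x₀ < ε ∧ x ≠ 0 ∧ ∀ v : X, dN x v = 0 → v ≠ 0 → 0 < fderiv ℝ dN x v v := by
  have hXd : ∀ x : X, x ≠ 0 → DifferentiableAt ℝ (fun z : X => ‖z‖) x :=
    fun x hx => (hX x hx).differentiableAt (by norm_num)
  have hnx0 : 0 < ‖x₀‖ := norm_pos_iff.mpr hx₀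
  have : Nontrivial X := ⟨⟨x₀, 0, hx₀⟩⟩
  set r : ℝ := min (ε / 2) (‖x₀‖ / 2) with hr
  have hrpos : 0 < r := lt_min (by positivity) (by positivity)
  have hrε : r < ε := lt_of_le_of_lt (min_le_left _ _) (by linarith)
  have hrx : r < ‖x₀‖ := lt_of_le_of_lt (min_le_right _ _) (by linarith)
  have hball0 : ∀ y ∈ Metric.closedBall x₀ r, y ≠ 0 := by
    intro y hy h0
    rw [h0, Metric.mem_closedBall, dist_zero_left] at hy
    linarith
  set Φ := toEuclidean (E := X) with hΦ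
  set w : X → ℝ := fun y => ‖y‖ ^ 2 / 2 - ‖x₀‖ ^ 2 / 2 - ‖x₀‖ * dN x₀ (y - x₀) with hw
  have hwc : Continuous w := by fun_prop
  set q : X → ℝ := fun y => ‖Φ (y - x₀)‖ ^ 2 with hq
  have hqc : Continuous q := by fun_prop
  have hsc : IsCompact (Metric.sphere x₀ r) := isCompact_sphere _ _
  have hsn : (Metric.sphere x₀ r).Nonempty := NormedSpace.sphere_nonempty.mpr hrpos.le
  obtain ⟨y1, hy1, hy1min⟩ := hsc.exists_isMinOn hsn hwc.continuousOn
  obtain ⟨y2, hy2, hy2max⟩ := hsc.exists_isMaxOn hsn hqc.continuousOn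
  have hmpos : 0 < w y1 := by
    apply strict_gap hx₀ (hXd x₀ hx₀)
    intro h0
    rw [h0, Metric.mem_sphere, dist_self] at hy1
    linarith
  set C : ℝ := q y2 + 1 with hC
  have hCpos : 0 < C := by have : 0 ≤ q y2 := by positivity
                           linarith
  set δ : ℝ := w y1 / (2 * C) with hδ
  have hδpos : 0 < δ := by positivity
  set k : X → ℝ := fun y => w y - δ * q y with hk
  have hkc : Continuous k := by fun_prop
  obtain ⟨x₁, hx₁, hx₁min⟩ := (isCompact_closedBall x₀ r).exists_isMinOn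
    (Metric.nonempty_closedBall.mpr hrpos.le) hkc.continuousOn
  have hk0 : k x₀ = 0 := by simp [hk, hw, hq]
  have hk1 : k x₁ ≤ 0 := by
    have := hx₁min (Metric.mem_closedBall_self hrpos.le)
    simpa [hk0] using this
  have hx₁ball : x₁ ∈ Metric.ball x₀ r := by
    rw [Metric.mem_ball]
    rw [Metric.mem_closedBall] at hx₁
    rcases hx₁.lt_or_eq with h | h
    · exact h
    · exfalso
      have hs : x₁ ∈ Metric.sphere x₀ r := h
      have h1 : w y1 ≤ w x₁ := hy1min hs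
      have h2 : q x₁ ≤ q y2 := hy2max hs
      have h3 : δ * q x₁ ≤ δ * C := mul_le_mul_of_nonneg_left (by linarith) hδpos.le
      have h4 : δ * C = w y1 / 2 := by rw [hδ]; field_simp
      have h5 : k x₁ = w x₁ - δ * q x₁ := rfl
      linarith
  have hx₁0 : x₁ ≠ 0 := hball0 x₁ hx₁
  have hlocmin : IsLocalMin k x₁ := by
    filter_upwards [Metric.isOpen_ball.mem_nhds hx₁ball] with y hy
    exact hx₁min (Metric.ball_subset_closedBall hy)
  refine ⟨x₁, ?_, hx₁0, ?_⟩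
  · exact lt_trans (Metric.mem_ball.mp hx₁ball) hrε
  intro v hv hv0
  set κ : ℝ → ℝ := fun t => k (x₁ + t • v) with hκ
  have hκmin : IsLocalMin κ 0 := by
    have hc : ContinuousAt (fun t : ℝ => x₁ + t • v) 0 := by fun_prop
    have h1 : ∀ᶠ y in 𝓝 (x₁ + (0:ℝ) • v), k x₁ ≤ k y := by
      rw [zero_smul, add_zero]; exact hlocmin
    have h2 := hc.eventually h1
    filter_upwards [h2] with t ht
    simpa [hκ] using ht
  have hκc : ContinuousAt κ 0 := by
    have : Continuous κ := by fun_prop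
    exact this.continuousAt
  have h2nd := second_deriv_nonneg_of_isLocalMin hκmin hκc
  -- compute the derivatives
  have hne : ∀ᶠ t : ℝ in 𝓝 0, x₁ + t • v ≠ 0 := by
    apply (hasDerivAt_line x₁ v).continuousAt.eventually_ne
    simpa using hx₁0
  set A := ‖Φ v‖ ^ 2 with hA
  have hd1 : ∀ᶠ t : ℝ in 𝓝 0, HasDerivAt κ
      (‖x₁ + t • v‖ * dN (x₁ + t • v) v - ‖x₀‖ * dN x₀ v
        - δ * (2 * inner ℝ (Φ (x₁ - x₀)) (Φ v) + 2 * t * A)) t := by
    filter_upwards [hne] with t ht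
    have hl : HasDerivAt (fun s : ℝ => x₁ + s • v) v t := by
      have := ((hasDerivAt_id t).smul_const v).const_add x₁
      simpa using this
    have h1 : HasDerivAt (fun s : ℝ => ‖x₁ + s • v‖) (dN (x₁ + t • v) v) t :=
      (hasFDerivAt_norm (hXd _ ht)).comp_hasDerivAt t hl
    have h2 : HasDerivAt (fun s : ℝ => ‖x₁ + s • v‖ ^ 2 / 2)
        (‖x₁ + t • v‖ * dN (x₁ + t • v) v) t := by
      have := (h1.pow 2).div_const 2
      exact this.congr_deriv (by simp; ring)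
    have h3 : HasDerivAt (fun s : ℝ => ‖x₀‖ * dN x₀ (x₁ + s • v - x₀)) (‖x₀‖ * dN x₀ v) t := by
      have := ((dN x₀).hasFDerivAt.comp_hasDerivAt t (hl.sub_const x₀)).const_mul ‖x₀‖
      exact this
    have h4 : HasDerivAt (fun s : ℝ => q (x₁ + s • v))
        (2 * inner ℝ (Φ (x₁ - x₀)) (Φ v) + 2 * t * A) t := by
      have e1 : (fun s : ℝ => q (x₁ + s • v)) = fun s : ℝ => ‖Φ (x₁ - x₀)‖ ^ 2
          + s * (2 * inner ℝ (Φ (x₁ - x₀)) (Φ v)) + s ^ 2 * A := by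
        funext s
        have e2 : x₁ + s • v - x₀ = (x₁ - x₀) + s • v := by abel
        simp only [hq, hA]
        rw [e2, map_add, map_smul, norm_add_sq_real, inner_smul_right, norm_smul, mul_pow,
          Real.norm_eq_abs, sq_abs]
        ring
      rw [e1]
      have h5 := ((hasDerivAt_const t (‖Φ (x₁ - x₀)‖ ^ 2)).add
        ((hasDerivAt_id t).mul_const (2 * inner ℝ (Φ (x₁ - x₀)) (Φ v)))).add
        (((hasDerivAt_id t).pow 2).mul_const A)
      exact h5.congr_deriv (by simp)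
    have h5 := ((h2.sub_const (‖x₀‖ ^ 2 / 2)).sub h3).sub (h4.const_mul δ)
    exact h5
  have hd2 : deriv κ =ᶠ[𝓝 0] fun t : ℝ => ‖x₁ + t • v‖ * dN (x₁ + t • v) v - ‖x₀‖ * dN x₀ v
        - δ * (2 * inner ℝ (Φ (x₁ - x₀)) (Φ v) + 2 * t * A) := by
    filter_upwards [hd1] with t ht
    exact ht.deriv
  rw [hd2.deriv_eq] at h2nd
  have h3 : HasDerivAt (fun t : ℝ => ‖x₁ + t • v‖ * dN (x₁ + t • v) v - ‖x₀‖ * dN x₀ v
        - δ * (2 * inner ℝ (Φ (x₁ - x₀)) (Φ v) + 2 * t * A))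
        (‖x₁‖ * fderiv ℝ dN x₁ v v - δ * (2 * A)) 0 := by
    have h1 := hasDerivAt_comp_line (hasFDerivAt_norm (hXd _ hx₁0)) v
    have h2 : HasDerivAt (fun t : ℝ => dN (x₁ + t • v) v) (fderiv ℝ dN x₁ v v) 0 := by
      have h3 := (hasDerivAt_comp_line (hasFDerivAt_dN (hX _ hx₁0)) v).clm_apply
        (hasDerivAt_const (0 : ℝ) v)
      exact h3.congr_deriv (by simp)
    have h4 : HasDerivAt (fun t : ℝ => δ * (2 * inner ℝ (Φ (x₁ - x₀)) (Φ v) + 2 * t * A))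
        (δ * (2 * A)) 0 := by
      have := ((((hasDerivAt_id (0:ℝ)).const_mul 2).mul_const A).const_add
        (2 * inner ℝ (Φ (x₁ - x₀)) (Φ v))).const_mul δ
      exact this.congr_deriv (by simp)
    have h5 := ((h1.mul h2).sub_const (‖x₀‖ * dN x₀ v)).sub h4
    refine h5.congr_deriv ?_
    simp [hv]
  rw [h3.deriv] at h2nd
  have hApos : 0 < A := by
    have : Φ v ≠ 0 := by simpa using hv0
    positivity
  have h4 : 0 < ‖x₁‖ * fderiv ℝ dN x₁ v v := by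
    have : 0 < δ * (2 * A) := by positivity
    linarith
  exact (pos_iff_pos_of_mul_pos h4).mp (norm_pos_iff.mpr hx₁0)

end Vale.Agent.P084
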