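import Mathlib
import Vale.Agent.Lib.P084.Algebra
import Vale.Agent.Lib.P084.Local3

open Filter Topology Module

namespace Vale.Agent.P084

variable {X Y : Type*} [NormedAddCommGroup X] [NormedSpace ℝ X] [NormedAddCommGroup Y]
  [NormedSpace ℝ Y] {T : X → Y}

namespace SphereIso

theorem fderiv_injective (hT : SphereIso T) {x : X} (hx : x ≠ 0)
    (hTx : DifferentiableAt ℝ T x) (hX : DifferentiableAt ℝ (fun z : X => ‖z‖) x)
    (hY : DifferentiableAt ℝ (fun z : Y => ‖z‖) (T x)) :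
    Function.Injective (fderiv ℝ T x) := by
  rw [injective_iff_map_eq_zero]
  intro h h0
  have h1 := hT.dN_apply hTx hY h
  rw [h0, _root_.map_zero] at h1
  have h2 := hT.norm_fderiv_tangent hx hTx hX h1.symm
  rw [h0, norm_zero] at h2
  exact norm_eq_zero.mp h2.symm

theorem snd_eq_zero_of_posDef [FiniteDimensional ℝ X] [FiniteDimensional ℝ Y]
    (hT : SphereIso T)
    (hX : ∀ x : X, x ≠ 0 → ContDiffAt ℝ 2 (fun z : X => ‖z‖) x)
    (hY : ∀ y : Y, y ≠ 0 → ContDiffAt ℝ 2 (fun z : Y => ‖z‖) y)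
    (hTC : ∀ x : X, x ≠ 0 → ContDiffAt ℝ 2 T x)
    (hfin : finrank ℝ X = finrank ℝ Y) (hdim : 3 ≤ finrank ℝ X)
    {x : X} (hx : x ≠ 0)
    (hpos : ∀ v : X, dN x v = 0 → v ≠ 0 → 0 < fderiv ℝ dN x v v) :
    fderiv ℝ (fderiv ℝ T) x = 0 := by
  have hXd : DifferentiableAt ℝ (fun z : X => ‖z‖) x := (hX x hx).differentiableAt (by norm_num)
  have hTx0 : T x ≠ 0 := hT.map_ne_zero hx
  have hYd : DifferentiableAt ℝ (fun z : Y => ‖z‖) (T x) :=
    (hY _ hTx0).differentiableAt (by norm_num)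
  have hTd : DifferentiableAt ℝ T x := (hTC x hx).differentiableAt (by norm_num)
  have hinj := hT.fderiv_injective hx hTd hXd hYd
  set D : X →ₗ[ℝ] Y := (fderiv ℝ T x : X →ₗ[ℝ] Y) with hD
  have hDinj : Function.Injective D := hinj
  set e : X ≃ₗ[ℝ] Y := D.linearEquivOfInjective hDinj hfin with he
  have heapp : ∀ v, e v = fderiv ℝ T x v := fun v => rfl
  set V : Submodule ℝ X := LinearMap.ker ((dN x : X →ₗ[ℝ] ℝ)) with hV
  have hVmem : ∀ v : X, v ∈ V ↔ dN x v = 0 := fun v => by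
    rw [hV, LinearMap.mem_ker]; rfl
  have hV0 : ∀ v : V, dN x (v : X) = 0 := fun v => (hVmem _).mp v.2
  -- the product
  have hmem : ∀ u v : X, e.symm (fderiv ℝ (fderiv ℝ T) x u v) ∈ V := by
    intro u v
    rw [hVmem, ← hT.dN_apply hTd hYd, ← heapp, LinearEquiv.apply_symm_apply]
    exact hT.dN_snd_zero hX hY hTC hx u v
  let m : V →ₗ[ℝ] V →ₗ[ℝ] V := LinearMap.mk₂ ℝ
    (fun u v : V => (⟨e.symm (fderiv ℝ (fderiv ℝ T) x (u : X) (v : X)), hmem _ _⟩ : V))
    (fun u u' v => by ext; simp)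
    (fun c u v => by ext; simp)
    (fun u v v' => by ext; simp)
    (fun c u v => by ext; simp)
  have hm : ∀ u v : V, fderiv ℝ T x ((m u v : V) : X) = fderiv ℝ (fderiv ℝ T) x (u : X) (v : X) := by
    intro u v
    rw [← heapp]
    exact LinearEquiv.apply_symm_apply e _
  let B : V →ₗ[ℝ] V →ₗ[ℝ] ℝ := LinearMap.mk₂ ℝ
    (fun u v : V => fderiv ℝ dN x (u : X) (v : X))
    (fun u u' v => by simp)
    (fun c u v => by simp)
    (fun u v v' => by simp)
    (fun c u v => by simp)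
  have hB : ∀ u v : V, B u v = fderiv ℝ dN x (u : X) (v : X) := fun u v => rfl
  have hBs : ∀ u v, B u v = B v u := fun u v => by rw [hB, hB, hess_symm (hX x hx)]
  have hBp : ∀ v, v ≠ 0 → 0 < B v v := fun v hv => by
    rw [hB]
    exact hpos _ (hV0 v) (by simpa using hv)
  have hms : ∀ u v, m u v = m v u := by
    intro u v
    apply Subtype.ext
    apply hinj
    rw [hm, hm, snd_symm (hTC x hx)]
  have hH : ∀ u v : V, fderiv ℝ dN (T x) (fderiv ℝ T x (u : X)) (fderiv ℝ T x (v : X))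
      = fderiv ℝ dN x (u : X) (v : X) := fun u v =>
    hT.hess_tangent hX hY hx hTd (hV0 u) (hV0 v)
  have hmB : ∀ u v w, B (m u v) w = B u (m v w) := by
    intro u v w
    rw [hB, hB, ← hH, ← hH, hm, hm, hess_symm (hY _ hTx0), hT.third_symm hX hY hTC hx,
      snd_symm (hTC x hx) (w : X) (v : X)]
  let φ : V → V →ₗ[ℝ] ℝ := fun u =>
    ((dN (fderiv ℝ T x (u : X)) : Y →L[ℝ] ℝ) : Y →ₗ[ℝ] ℝ) ∘ₗ (fderiv ℝ T x : X →ₗ[ℝ] Y) ∘ₗ V.subtype
  have hφapp : ∀ u v : V, φ u v = dN (fderiv ℝ T x (u : X)) (fderiv ℝ T x (v : X)) :=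
    fun u v => rfl
  have hDne : ∀ u : V, u ≠ 0 → fderiv ℝ T x (u : X) ≠ 0 := by
    intro u hu
    exact hT.fderiv_ne_zero hx hTd hXd (hV0 u) (by simpa using hu)
  have hφ : ∀ u, u ≠ 0 → 0 < φ u u := by
    intro u hu
    rw [hφapp, dN_self ((hY _ (hDne u hu)).differentiableAt (by norm_num))]
    exact norm_pos_iff.mpr (hDne u hu)
  have hφc : ∀ e v z, e ≠ 0 → Tendsto (fun t : ℝ => φ (e + t • v) z) (𝓝[≠] 0) (𝓝 (φ e z)) := by
    intro e v z he
    simp only [hφapp]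
    apply Tendsto.mono_left _ nhdsWithin_le_nhds
    have hc : ContinuousAt (dN : Y → Y →L[ℝ] ℝ) (fderiv ℝ T x (e : X)) :=
      (contDiffAt_dN (hY _ (hDne e he))).continuousAt
    have hl : Tendsto (fun t : ℝ => fderiv ℝ T x ((e + t • v : V) : X)) (𝓝 0)
        (𝓝 (fderiv ℝ T x (e : X))) := by
      have hcont : Continuous fun t : ℝ => fderiv ℝ T x ((e + t • v : V) : X) := by
        have : (fun t : ℝ => fderiv ℝ T x ((e + t • v : V) : X))
            = fun t : ℝ => fderiv ℝ T x (e : X) + t • fderiv ℝ T x (v : X) := by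
          funext t; simp
        rw [this]; fun_prop
      have := hcont.tendsto 0
      simpa using this
    exact tendsto_clm_apply (hc.tendsto.comp hl) tendsto_const_nhds
  have hfinV : 2 ≤ finrank ℝ V := by
    have hne : (dN x : X →ₗ[ℝ] ℝ) ≠ 0 := by
      intro h0
      have h1 := dN_self hXd
      have h2 : dN x x = 0 := congrArg (fun L : X →ₗ[ℝ] ℝ => L x) h0
      rw [h2] at h1
      exact hx (norm_eq_zero.mp h1.symm)
    have := Module.Dual.finrank_ker_add_one_of_ne_zero (f := (dN x : X →ₗ[ℝ] ℝ)) hne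
    rw [← hV] at this
    omega
  have h : ∀ u s, u ≠ 0 → B u s = 0 → φ u (m u s) = 0 := by
    intro u s hu hus
    rw [hφapp, hm]
    have hu' : (u : X) ≠ 0 := by simpa using hu
    exact hT.second_order hX hY hTC hx hu' (hV0 u) (hV0 s) (hpos _ (hV0 u) hu').ne' hus
  have hzero := algebra_lemma B hBs hBp m hms hmB φ hφ hφc hfinV h
  have hzero' : ∀ u v : V, fderiv ℝ (fderiv ℝ T) x (u : X) (v : X) = 0 := by
    intro u v
    rw [← hm, hzero]; simp
  ext u v
  obtain ⟨α, u₀, hu₀, rfl⟩ := exists_decomp hx hXd u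
  obtain ⟨β, v₀, hv₀, rfl⟩ := exists_decomp hx hXd v
  rw [hT.snd_decomp (hTC x hx)]
  exact hzero' ⟨u₀, (hVmem _).mpr hu₀⟩ ⟨v₀, (hVmem _).mpr hv₀⟩

end SphereIso

end Vale.Agent.P084
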