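import Mathlib
import Vale.Agent.Lib.P084.Density
import Vale.Agent.Lib.P084.Pointwise

open Filter Topology Module

namespace Vale.Agent.P084

variable {X Y : Type*} [NormedAddCommGroup X] [NormedSpace ℝ X] [NormedAddCommGroup Y]
  [NormedSpace ℝ Y] {T : X → Y}

namespace SphereIso

theorem snd_eq_zero [FiniteDimensional ℝ X] [FiniteDimensional ℝ Y] [StrictConvexSpace ℝ X]
    (hT : SphereIso T)
    (hX : ∀ x : X, x ≠ 0 → ContDiffAt ℝ 2 (fun z : X => ‖z‖) x)
    (hY : ∀ y : Y, y ≠ 0 → ContDiffAt ℝ 2 (fun z : Y => ‖z‖) y)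
    (hTC : ∀ x : X, x ≠ 0 → ContDiffAt ℝ 2 T x)
    (hfin : finrank ℝ X = finrank ℝ Y) (hdim : 3 ≤ finrank ℝ X)
    {x : X} (hx : x ≠ 0) : fderiv ℝ (fderiv ℝ T) x = 0 := by
  by_contra hne
  have hc : ContinuousAt (fderiv ℝ (fderiv ℝ T)) x := by
    have h1 : ContDiffAt ℝ 1 (fderiv ℝ T) x := (hTC x hx).fderiv_right (by norm_num)
    have h2 : ContDiffAt ℝ 0 (fderiv ℝ (fderiv ℝ T)) x := h1.fderiv_right (by norm_num)
    exact h2.continuousAt
  have hev := hc.eventually_ne hne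
  obtain ⟨ε, hε, hball⟩ := Metric.eventually_nhds_iff.mp hev
  obtain ⟨x₁, hx₁, hx₁0, hpos⟩ := exists_posDef hX hx hε
  exact hball hx₁ (hT.snd_eq_zero_of_posDef hX hY hTC hfin hdim hx₁0 hpos)

theorem exists_linear [FiniteDimensional ℝ X] [FiniteDimensional ℝ Y] [StrictConvexSpace ℝ X]
    (hT : SphereIso T)
    (hX : ∀ x : X, x ≠ 0 → ContDiffAt ℝ 2 (fun z : X => ‖z‖) x)
    (hY : ∀ y : Y, y ≠ 0 → ContDiffAt ℝ 2 (fun z : Y => ‖z‖) y)
    (hTC : ∀ x : X, x ≠ 0 → ContDiffAt ℝ 2 T x)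
    (hfin : finrank ℝ X = finrank ℝ Y) (hdim : 3 ≤ finrank ℝ X) :
    ∃ L : X →L[ℝ] Y, ∀ x, T x = L x := by
  have hnt : Nontrivial X := Module.nontrivial_of_finrank_pos (R := ℝ) (by omega)
  obtain ⟨x₁, hx₁⟩ := exists_ne (0 : X)
  refine ⟨fderiv ℝ T x₁, fun x => ?_⟩
  by_cases hx : x = 0
  · subst hx
    rw [hT.map_zero, _root_.map_zero]
  · have hrank : 1 < Module.rank ℝ X := by
      rw [← Module.finrank_eq_rank]
      exact_mod_cast (by omega : 1 < finrank ℝ X)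
    have hconn : IsPreconnected ({0}ᶜ : Set X) :=
      (isConnected_compl_singleton_of_one_lt_rank hrank 0).isPreconnected
    have hdiff : DifferentiableOn ℝ (fderiv ℝ T) ({0}ᶜ : Set X) := by
      intro z hz
      exact (hasFDerivAt_fderiv (hTC z hz)).differentiableAt.differentiableWithinAt
    have hzero : Set.EqOn (fderiv ℝ (fderiv ℝ T)) 0 ({0}ᶜ : Set X) := by
      intro z hz
      exact hT.snd_eq_zero hX hY hTC hfin hdim hz
    have h1 := isOpen_compl_singleton.is_const_of_fderiv_eq_zero hconn hdiff hzero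
      (x := x₁) (y := x) hx₁ hx
    rw [h1, hT.fderiv_self ((hTC x hx).differentiableAt (by norm_num))]

end SphereIso

end Vale.Agent.P084
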