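import Mathlib
import Vale.Agent.Lib.P084.Local3
import Vale.Agent.Lib.P084.Setup

open Filter Topology Module Metric

namespace Vale.Agent.P084

variable {X Y : Type*} [NormedAddCommGroup X] [NormedSpace ℝ X] [NormedAddCommGroup Y]
  [NormedSpace ℝ Y]

/-- If support functionals are unique then the norm is `C¹` away from the origin. -/
theorem contDiffAt_one_of_unique [FiniteDimensional ℝ Y]
    (huniq : ∀ y : Y, y ≠ 0 → ∀ ψ₁ ψ₂ : Y →L[ℝ] ℝ, ‖ψ₁‖ ≤ 1 → ‖ψ₂‖ ≤ 1 → ψ₁ y = ‖y‖ → ψ₂ y = ‖y‖ →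
      ψ₁ = ψ₂) {y₀ : Y} (hy₀ : y₀ ≠ 0) : ContDiffAt ℝ 1 (fun z : Y => ‖z‖) y₀ := by
  have hex : ∀ y : Y, ∃ ψ : Y →L[ℝ] ℝ, ‖ψ‖ ≤ 1 ∧ ψ y = ‖y‖ := by
    intro y
    by_cases hy : y = 0
    · exact ⟨0, by simp, by simp [hy]⟩
    · obtain ⟨g, hg1, hg2⟩ := exists_dual_vector ℝ y (norm_ne_zero_iff.mpr hy)
      exact ⟨g, hg1.le, by simpa using hg2⟩
  choose ψ hψ1 hψ2 using hex
  have hcont : ∀ y : Y, y ≠ 0 → ContinuousAt ψ y := by
    intro y hy
    rw [ContinuousAt, tendsto_iff_ultrafilter]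
    intro g hg
    have hcomp : IsCompact (closedBall (0 : Y →L[ℝ] ℝ) 1) := isCompact_closedBall _ _
    have hle : ((g.map ψ : Ultrafilter (Y →L[ℝ] ℝ)) : Filter (Y →L[ℝ] ℝ))
        ≤ 𝓟 (closedBall (0 : Y →L[ℝ] ℝ) 1) := by
      rw [le_principal_iff, Ultrafilter.mem_coe, Ultrafilter.mem_map]
      apply Filter.univ_mem'
      intro z
      simpa using hψ1 z
    obtain ⟨χ, hχ1, hχ2⟩ := hcomp.ultrafilter_le_nhds _ hle
    have hχt : Tendsto ψ g (𝓝 χ) := hχ2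
    have hid : Tendsto (fun z : Y => z) g (𝓝 y) := hg
    have h1 : Tendsto (fun z : Y => ψ z z) g (𝓝 (χ y)) := tendsto_clm_apply hχt hid
    have h2 : Tendsto (fun z : Y => ψ z z) g (𝓝 ‖y‖) := by
      simp only [hψ2]
      exact hid.norm
    have h3 := tendsto_nhds_unique h1 h2
    have h4 : χ = ψ y := huniq y hy χ (ψ y) (by simpa using hχ1) (hψ1 y) h3 (hψ2 y)
    rw [← h4]; exact hχt
  have hder : ∀ y : Y, y ≠ 0 → HasFDerivAt (fun z : Y => ‖z‖) (ψ y) y := by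
    intro y hy
    rw [hasFDerivAt_iff_isLittleO]
    have ho : (fun z => ψ z - ψ y) =o[𝓝 y] fun _ => (1 : ℝ) := by
      rw [Asymptotics.isLittleO_one_iff]
      have : Tendsto (fun z => ψ z - ψ y) (𝓝 y) (𝓝 (ψ y - ψ y)) :=
        (hcont y hy).tendsto.sub_const _
      simpa using this
    have hO : (fun z => ‖ψ z - ψ y‖ * ‖z - y‖) =o[𝓝 y] fun z => (1 : ℝ) * ‖z - y‖ :=
      ho.norm_left.mul_isBigO (Asymptotics.isBigO_refl _ _)
    have h1 : (fun z => ‖z‖ - ‖y‖ - ψ y (z - y)) =O[𝓝 y] fun z => ‖ψ z - ψ y‖ * ‖z - y‖ := by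
      apply Asymptotics.IsBigO.of_bound 1
      filter_upwards with z
      rw [one_mul, norm_mul, norm_norm, norm_norm, Real.norm_eq_abs, abs_le]
      have hb : (ψ z - ψ y) (z - y) ≤ ‖ψ z - ψ y‖ * ‖z - y‖ :=
        (Real.le_norm_self _).trans ((ψ z - ψ y).le_opNorm _)
      have hz : ψ z y ≤ ‖y‖ := by
        calc ψ z y ≤ ‖ψ z y‖ := Real.le_norm_self _
          _ ≤ ‖ψ z‖ * ‖y‖ := (ψ z).le_opNorm _
          _ ≤ 1 * ‖y‖ := mul_le_mul_of_nonneg_right (hψ1 z) (norm_nonneg _)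
          _ = ‖y‖ := one_mul _
      have hz' : ψ y z ≤ ‖z‖ := by
        calc ψ y z ≤ ‖ψ y z‖ := Real.le_norm_self _
          _ ≤ ‖ψ y‖ * ‖z‖ := (ψ y).le_opNorm _
          _ ≤ 1 * ‖z‖ := mul_le_mul_of_nonneg_right (hψ1 y) (norm_nonneg _)
          _ = ‖z‖ := one_mul _
      have e1 := hψ2 z
      have e2 := hψ2 y
      have hnn : 0 ≤ ‖ψ z - ψ y‖ * ‖z - y‖ := by positivity
      simp only [_root_.sub_apply, map_sub] at hb ⊢
      constructor
      · linarith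
      · linarith
    have h2 := h1.trans_isLittleO hO
    simpa using h2
  have := (contDiffAt_succ_iff_hasFDerivAt (𝕜 := ℝ) (f := fun z : Y => ‖z‖) (x := y₀) (n := 0)).mpr
    ⟨ψ, ⟨{0}ᶜ, isOpen_compl_singleton.mem_nhds hy₀, fun y hy => hder y hy⟩,
      contDiffAt_zero.mpr ⟨{0}ᶜ, isOpen_compl_singleton.mem_nhds hy₀,
        fun y hy => (hcont y hy).continuousWithinAt⟩⟩
  simpa using this

namespace SphereIso

variable {T : X → Y}

theorem unique_support [FiniteDimensional ℝ X] [FiniteDimensional ℝ Y] [StrictConvexSpace ℝ Y]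
    (hT : SphereIso T) (hfin : finrank ℝ X = finrank ℝ Y) {x : X} (hx : x ≠ 0)
    (hX : DifferentiableAt ℝ (fun z : X => ‖z‖) x)
    (ψ₁ ψ₂ : Y →L[ℝ] ℝ) (h1 : ‖ψ₁‖ ≤ 1) (h2 : ‖ψ₂‖ ≤ 1)
    (hs1 : ψ₁ (T x) = ‖T x‖) (hs2 : ψ₂ (T x) = ‖T x‖) : ψ₁ = ψ₂ := by
  have hnx : 0 < ‖x‖ := norm_pos_iff.mpr hx
  set U : Ultrafilter ℝ := Ultrafilter.of (𝓝[>] (0 : ℝ)) with hU
  have hUle : (U : Filter ℝ) ≤ 𝓝[>] (0 : ℝ) := Ultrafilter.of_le _
  have hUle' : (U : Filter ℝ) ≤ 𝓝[≠] (0 : ℝ) :=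
    hUle.trans (nhdsWithin_mono _ (fun t ht => ne_of_gt ht))
  have hUpos : ∀ᶠ t : ℝ in U, 0 < t := hUle self_mem_nhdsWithin
  have hU0 : Tendsto (fun t : ℝ => t) U (𝓝 0) := hUle.trans nhdsWithin_le_nhds
  -- the blow up
  have hex : ∀ v : X, ∃ y : Y, Tendsto (fun t : ℝ => t⁻¹ • (T (x + t • v) - T x)) U (𝓝 y) := by
    intro v
    have hcomp : IsCompact (closedBall (0 : Y) (3 * ‖v‖)) := isCompact_closedBall _ _
    have hle : ((U.map (fun t : ℝ => t⁻¹ • (T (x + t • v) - T x)) : Ultrafilter Y) : Filter Y)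
        ≤ 𝓟 (closedBall (0 : Y) (3 * ‖v‖)) := by
      rw [le_principal_iff, Ultrafilter.mem_coe, Ultrafilter.mem_map]
      filter_upwards [hUpos] with t ht
      simp only [Set.mem_preimage, mem_closedBall, dist_zero_right]
      have h3 := hT.lipschitz.dist_le_mul (x + t • v) x
      rw [dist_eq_norm, dist_eq_norm, add_sub_cancel_left, norm_smul, NNReal.coe_ofNat,
        Real.norm_of_nonneg ht.le] at h3
      rw [norm_smul, norm_inv, Real.norm_of_nonneg ht.le]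
      calc t⁻¹ * ‖T (x + t • v) - T x‖ ≤ t⁻¹ * (3 * (t * ‖v‖)) :=
            mul_le_mul_of_nonneg_left h3 (by positivity)
        _ = 3 * ‖v‖ := by field_simp
    obtain ⟨y, -, hy2⟩ := hcomp.ultrafilter_le_nhds _ hle
    exact ⟨y, hy2⟩
  choose F hF using hex
  -- slopes of the norm
  have hnslope : ∀ v : X, Tendsto (fun t : ℝ => t⁻¹ * (‖x + t • v‖ - ‖x‖)) U (𝓝 (dN x v)) := by
    intro v
    have h3 := hasDerivAt_comp_line (hasFDerivAt_norm hX) v
    have h4 : HasDerivAt (fun t : ℝ => ‖x + t • v‖ - ‖x‖) (dN x v) 0 := h3.sub_const _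
    exact (tendsto_slope_of_zero h4 (by simp)).mono_left hUle'
  have hnlim : ∀ v : X, Tendsto (fun t : ℝ => ‖x + t • v‖) U (𝓝 ‖x‖) := by
    intro v
    have h3 : Tendsto (fun t : ℝ => x + t • v) U (𝓝 (x + (0:ℝ) • v)) :=
      (hU0.smul_const v).const_add x
    have h4 := h3.norm
    simpa using h4
  have hFiso : ∀ v w : X, dN x v = 0 → dN x w = 0 → ‖F v - F w‖ = ‖v - w‖ := by
    intro v w hv hw
    have e1 : Tendsto (fun t : ℝ => t⁻¹ • (‖x + t • w‖ • T (x + t • v) - ‖x + t • v‖ • T (x + t • w)))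
        U (𝓝 (‖x‖ • (F v - F w))) := by
      have h3 := (((hnlim w).smul (hF v)).sub ((hnlim v).smul (hF w))).add
        (((hnslope w).sub (hnslope v)).smul_const (T x))
      rw [hv, hw, sub_zero, zero_smul, add_zero, ← smul_sub] at h3
      refine h3.congr fun t => ?_
      module
    have e2 : Tendsto (fun t : ℝ => t⁻¹ • (‖x + t • w‖ • (x + t • v) - ‖x + t • v‖ • (x + t • w)))
        U (𝓝 (‖x‖ • (v - w))) := by
      have h3 := (((hnlim w).smul_const v).sub ((hnlim v).smul_const w)).add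
        (((hnslope w).sub (hnslope v)).smul_const x)
      rw [hv, hw, sub_zero, zero_smul, add_zero, ← smul_sub] at h3
      refine h3.congr' ?_
      filter_upwards [hUpos] with t ht
      have ht0 : t ≠ 0 := ht.ne'
      have e3 : t⁻¹ • (‖x + t • w‖ • (x + t • v) - ‖x + t • v‖ • (x + t • w))
          = (t⁻¹ * t) • (‖x + t • w‖ • v - ‖x + t • v‖ • w)
            + (t⁻¹ * (‖x + t • w‖ - ‖x‖) - t⁻¹ * (‖x + t • v‖ - ‖x‖)) • x := by module
      rw [e3, inv_mul_cancel₀ ht0, one_smul]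
    have e3 := e1.norm
    have e4 := e2.norm
    have e5 : (fun t : ℝ => ‖t⁻¹ • (‖x + t • w‖ • T (x + t • v) - ‖x + t • v‖ • T (x + t • w))‖)
        = (fun t : ℝ => ‖t⁻¹ • (‖x + t • w‖ • (x + t • v) - ‖x + t • v‖ • (x + t • w))‖) := by
      funext t
      rw [norm_smul, norm_smul, hT.dist_gen]
    rw [e5] at e3
    have e6 := tendsto_nhds_unique e3 e4
    rw [norm_smul, norm_smul] at e6
    exact mul_left_cancel₀ (by simpa using hx) e6
  have hF0 : F 0 = 0 := by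
    have h3 : Tendsto (fun t : ℝ => t⁻¹ • (T (x + t • (0 : X)) - T x)) U (𝓝 0) := by
      have : (fun t : ℝ => t⁻¹ • (T (x + t • (0 : X)) - T x)) = fun _ => 0 := by
        funext t; simp
      rw [this]; exact tendsto_const_nhds
    exact tendsto_nhds_unique (hF 0) h3
  set V : Submodule ℝ X := LinearMap.ker ((dN x : X →ₗ[ℝ] ℝ)) with hV
  have hVmem : ∀ v : X, v ∈ V ↔ dN x v = 0 := fun v => by
    rw [hV, LinearMap.mem_ker]; rfl
  have hiso : Isometry (fun v : V => F (v : X)) := by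
    apply Isometry.of_dist_eq
    intro v w
    rw [dist_eq_norm, hFiso _ _ ((hVmem _).mp v.2) ((hVmem _).mp w.2), dist_eq_norm]
    rfl
  set A := hiso.affineIsometryOfStrictConvexSpace with hA
  have hAapp : ∀ v : V, A v = F (v : X) := fun v => rfl
  set Λ : V →ₗ[ℝ] Y := A.linearIsometry.toLinearMap with hΛ
  have hΛapp : ∀ v : V, Λ v = F (v : X) := by
    intro v
    have h3 := A.map_vadd (0 : V) v
    rw [vadd_eq_add, add_zero, vadd_eq_add, hAapp, hAapp] at h3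
    have h4 : F ((0 : V) : X) = 0 := hF0
    rw [h4, add_zero] at h3
    exact h3.symm
  -- support functionals vanish on the range
  have hψF : ∀ ψ : Y →L[ℝ] ℝ, ‖ψ‖ ≤ 1 → ψ (T x) = ‖T x‖ → ∀ v : V, ψ (Λ v) = 0 := by
    intro ψ hψ1 hψ2
    have hle : ∀ v : V, ψ (Λ v) ≤ 0 := by
      intro v
      rw [hΛapp]
      have h3 : Tendsto (fun t : ℝ => ψ (t⁻¹ • (T (x + t • (v : X)) - T x))) U (𝓝 (ψ (F (v : X)))) :=
        (ψ.continuous.tendsto _).comp (hF (v : X))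
      have h4 := hnslope (v : X)
      rw [(hVmem _).mp v.2] at h4
      refine le_of_tendsto_of_tendsto h3 h4 ?_
      filter_upwards [hUpos] with t ht
      rw [map_smul, map_sub, hψ2, smul_eq_mul, hT.norm_map]
      apply mul_le_mul_of_nonneg_left _ (by positivity)
      have h5 : ψ (T (x + t • (v : X))) ≤ ‖x + t • (v : X)‖ := by
        calc ψ (T (x + t • (v : X))) ≤ ‖ψ (T (x + t • (v : X)))‖ := Real.le_norm_self _
          _ ≤ ‖ψ‖ * ‖T (x + t • (v : X))‖ := ψ.le_opNorm _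
          _ ≤ 1 * ‖T (x + t • (v : X))‖ := mul_le_mul_of_nonneg_right hψ1 (norm_nonneg _)
          _ = ‖x + t • (v : X)‖ := by rw [one_mul, hT.norm_map]
      linarith
    intro v
    have h3 := hle v
    have h4 := hle (-v)
    rw [_root_.map_neg, _root_.map_neg] at h4
    linarith
  -- the spanning map
  have hTx0 : T x ≠ 0 := hT.map_ne_zero hx
  set M : (V × ℝ) →ₗ[ℝ] Y := Λ.coprod (LinearMap.toSpanSingleton ℝ Y (T x)) with hM
  have hMapp : ∀ (v : V) (c : ℝ), M (v, c) = Λ v + c • T x := by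
    intro v c
    simp [hM]
  have hMinj : Function.Injective M := by
    rw [injective_iff_map_eq_zero]
    rintro ⟨v, c⟩ h0
    rw [hMapp] at h0
    have h3 : ψ₁ (Λ v + c • T x) = 0 := by rw [h0, _root_.map_zero]
    rw [map_add, map_smul, hψF ψ₁ h1 hs1, hs1, zero_add, smul_eq_mul] at h3
    have hc : c = 0 := (mul_eq_zero.mp h3).resolve_right (norm_ne_zero_iff.mpr hTx0)
    rw [hc, zero_smul, add_zero] at h0
    have hv : v = 0 := by
      have h4 : ‖Λ v‖ = ‖v‖ := A.linearIsometry.norm_map v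
      rw [h0, norm_zero] at h4
      exact norm_eq_zero.mp h4.symm
    rw [hv, hc]; rfl
  have hfinV : finrank ℝ V + 1 = finrank ℝ X := by
    have hne : (dN x : X →ₗ[ℝ] ℝ) ≠ 0 := by
      intro h0
      have h1 := dN_self hX
      have h2 : dN x x = 0 := congrArg (fun L : X →ₗ[ℝ] ℝ => L x) h0
      rw [h2] at h1
      exact hx (norm_eq_zero.mp h1.symm)
    exact Module.Dual.finrank_ker_add_one_of_ne_zero (f := (dN x : X →ₗ[ℝ] ℝ)) hne
  have hfinM : finrank ℝ (V × ℝ) = finrank ℝ Y := by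
    rw [Module.finrank_prod, Module.finrank_self, hfinV, hfin]
  have hMsurj : Function.Surjective M :=
    (LinearMap.injective_iff_surjective_of_finrank_eq_finrank hfinM).mp hMinj
  ext y
  obtain ⟨⟨v, c⟩, rfl⟩ := hMsurj y
  rw [hMapp, map_add, map_add, map_smul, map_smul, hψF ψ₁ h1 hs1, hψF ψ₂ h2 hs2, hs1, hs2]

/-- The norm of the target is `C¹`. -/
theorem target_C1 [FiniteDimensional ℝ X] [FiniteDimensional ℝ Y] [StrictConvexSpace ℝ Y]
    (hT : SphereIso T) (hsurj : Function.Surjective T) (hfin : finrank ℝ X = finrank ℝ Y)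
    (hX : ∀ x : X, x ≠ 0 → DifferentiableAt ℝ (fun z : X => ‖z‖) x)
    {y : Y} (hy : y ≠ 0) : ContDiffAt ℝ 1 (fun z : Y => ‖z‖) y := by
  apply contDiffAt_one_of_unique _ hy
  intro y hy ψ₁ ψ₂ h1 h2 hs1 hs2
  obtain ⟨x, rfl⟩ := hsurj y
  have hx : x ≠ 0 := by
    intro h0; apply hy; rw [h0, hT.map_zero]
  exact hT.unique_support hfin hx (hX x hx) ψ₁ ψ₂ h1 h2 hs1 hs2

end SphereIso

end Vale.Agent.P084
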