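import Mathlib
import Vale.Agent.Lib.P084.Pointwise

open Filter Topology Module Metric

namespace Vale.Agent.P084

namespace SphereIso

variable {X Y : Type*} [NormedAddCommGroup X] [NormedSpace ℝ X] [NormedAddCommGroup Y]
  [NormedSpace ℝ Y] {T : X → Y}

/-- The norm of the target is `C²` at the points `(2‖x‖) T x`. -/
theorem target_C2_aux [FiniteDimensional ℝ X] [FiniteDimensional ℝ Y]
    (hT : SphereIso T) (hfin : finrank ℝ X = finrank ℝ Y)
    (hX : ∀ x : X, x ≠ 0 → ContDiffAt ℝ 2 (fun z : X => ‖z‖) x)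
    (hY : ∀ y : Y, y ≠ 0 → ContDiffAt ℝ 1 (fun z : Y => ‖z‖) y)
    (hTC : ∀ x : X, x ≠ 0 → ContDiffAt ℝ 1 T x)
    {x : X} (hx : x ≠ 0) : ContDiffAt ℝ 2 (fun z : Y => ‖z‖) ((2 * ‖x‖) • T x) := by
  have hXd : ∀ x : X, x ≠ 0 → DifferentiableAt ℝ (fun z : X => ‖z‖) x :=
    fun x hx => (hX x hx).differentiableAt (by norm_num)
  have hYd : ∀ x : Y, x ≠ 0 → DifferentiableAt ℝ (fun z : Y => ‖z‖) x :=
    fun x hx => (hY x hx).differentiableAt (by norm_num)
  have hTd : ∀ x : X, x ≠ 0 → DifferentiableAt ℝ T x :=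
    fun x hx => (hTC x hx).differentiableAt (by norm_num)
  have hnx : 0 < ‖x‖ := norm_pos_iff.mpr hx
  have hTx0 : T x ≠ 0 := hT.map_ne_zero hx
  have hnx0 : -x ≠ 0 := neg_ne_zero.mpr hx
  -- the derivative of `T` at `x` as a linear equivalence
  have hinj := hT.fderiv_injective hx (hTd x hx) (hXd x hx) (hYd _ hTx0)
  set D : X →ₗ[ℝ] Y := (fderiv ℝ T x : X →ₗ[ℝ] Y) with hD
  set e : X ≃ₗ[ℝ] Y := D.linearEquivOfInjective hinj hfin with he
  have heapp : ∀ v, e v = fderiv ℝ T x v := fun v => rfl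
  set A : Y →L[ℝ] X := LinearMap.toContinuousLinearMap (e.symm : Y →ₗ[ℝ] X) with hA
  have hDA : ∀ y, fderiv ℝ T x (A y) = y := fun y => by
    rw [← heapp]; exact e.apply_symm_apply y
  have hATx : A (T x) = x := by
    apply hinj
    rw [hDA, hT.fderiv_self (hTd x hx)]
  -- the map `W'`
  set W' : X → Y := fun b => ‖b‖ • T x - ‖x‖ • T b with hW'
  set W : X → X := fun b => ‖b‖ • x - ‖x‖ • b with hW
  have hW'0 : W' (-x) = (2 * ‖x‖) • T x := by
    simp only [hW', _root_.norm_neg, hT.map_neg]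
    module
  have hW0 : W (-x) = (2 * ‖x‖) • x := by
    simp only [hW, _root_.norm_neg]
    module
  have hW'C : ContDiffAt ℝ 1 W' (-x) :=
    (((hX _ hnx0).of_le (by norm_num)).smul contDiffAt_const).sub ((hTC _ hnx0).const_smul ‖x‖)
  have hWC : ContDiffAt ℝ 1 W (-x) :=
    (((hX _ hnx0).of_le (by norm_num)).smul contDiffAt_const).sub (contDiffAt_id.const_smul ‖x‖)
  have hTder : HasFDerivAt T (fderiv ℝ T x) (-x) := by
    have := hT.fderiv_smul (hTd x hx) (c := -1) (by norm_num)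
    simpa using this
  set D' : X →L[ℝ] Y := (dN (-x)).smulRight (T x) - ‖x‖ • fderiv ℝ T x with hD'
  have hW'der : HasFDerivAt W' D' (-x) :=
    ((hasFDerivAt_norm (hXd _ hnx0)).smul_const (T x)).sub (hTder.const_smul ‖x‖)
  have hD'inj : Function.Injective D' := by
    rw [injective_iff_map_eq_zero]
    intro k hk
    have h1 : D' k = -(dN x k • T x + ‖x‖ • fderiv ℝ T x k) := by
      simp only [hD', dN_neg, _root_.sub_apply, ContinuousLinearMap.smulRight_apply,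
        _root_.neg_apply, _root_.smul_apply]
      module
    rw [h1, neg_eq_zero] at hk
    have h2 : dN (T x) (dN x k • T x + ‖x‖ • fderiv ℝ T x k) = 0 := by rw [hk, _root_.map_zero]
    rw [map_add, map_smul, map_smul, dN_self (hYd _ hTx0), hT.dN_apply (hTd x hx) (hYd _ hTx0),
      hT.norm_map, smul_eq_mul, smul_eq_mul] at h2
    have h3 : dN x k = 0 := by
      have : 2 * ‖x‖ * dN x k = 0 := by linarith
      exact (mul_eq_zero.mp this).resolve_left (by positivity)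
    rw [h3, zero_smul, zero_add] at hk
    have h4 := (smul_eq_zero.mp hk).resolve_left hnx.ne'
    exact hinj (by rw [h4, _root_.map_zero])
  set e' : X ≃L[ℝ] Y := ((D' : X →ₗ[ℝ] Y).linearEquivOfInjective hD'inj hfin).toContinuousLinearEquiv
    with he'
  have he'D : (e' : X →L[ℝ] Y) = D' := by
    ext v; rfl
  have hW'der' : HasFDerivAt W' (e' : X →L[ℝ] Y) (-x) := by rw [he'D]; exact hW'der
  have h10 : (1 : WithTop ℕ∞) ≠ 0 := by norm_num
  set β : Y → X := hW'C.localInverse hW'der' h10 with hβ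
  have hβC : ContDiffAt ℝ 1 β (W' (-x)) := hW'C.to_localInverse hW'der' h10
  have hβ0 : β (W' (-x)) = -x := hW'C.localInverse_apply_image hW'der' h10
  have hstrict := hW'C.hasStrictFDerivAt' hW'der' h10
  have hright : ∀ᶠ w in 𝓝 (W' (-x)), W' (β w) = w := hstrict.eventually_right_inverse
  -- the coordinates
  set γ : Y →L[ℝ] ℝ := ‖x‖⁻¹ • ((dN x).comp A) with hγ
  set c₀ : Y →L[ℝ] X := A - γ.smulRight x with hc₀
  have hγapp : ∀ w, γ w = ‖x‖⁻¹ * dN x (A w) := fun w => rfl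
  have hc₀app : ∀ w, c₀ w = A w - γ w • x := fun w => rfl
  have hγ0 : γ (W' (-x)) = 2 * ‖x‖ := by
    rw [hγapp, hW'0, map_smul, hATx, map_smul, dN_self (hXd x hx), smul_eq_mul]
    field_simp
  have hc₀ker : ∀ w, dN x (c₀ w) = 0 := by
    intro w
    rw [hc₀app, hγapp, map_sub, map_smul, dN_self (hXd x hx), smul_eq_mul]
    field_simp
    ring
  have hdecomp : ∀ y : Y, y = γ y • T x + fderiv ℝ T x (c₀ y) := by
    intro y
    have h1 : fderiv ℝ T x (c₀ y) = y - γ y • T x := by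
      rw [hc₀app, map_sub, map_smul, hDA, hT.fderiv_self (hTd x hx)]
    rw [h1]; abel
  -- the candidate for `dN`
  set w₀ : Y := W' (-x) with hw₀
  have hw₀ne : w₀ ≠ 0 := by
    rw [hW'0]; exact smul_ne_zero (by positivity) hTx0
  have hWne : W (-x) ≠ 0 := by
    rw [hW0]; exact smul_ne_zero (by positivity) hx
  set Ξ : Y → Y →L[ℝ] ℝ := fun w =>
    ((‖w‖ - dN (W (β w)) (c₀ w)) / γ w) • γ + (dN (W (β w))).comp c₀ with hΞ
  have hdNC : ContDiffAt ℝ 1 (fun w => dN (W (β w))) w₀ := by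
    have h1 : ContDiffAt ℝ 1 (dN : X → X →L[ℝ] ℝ) (W (β w₀)) := by
      rw [hβ0]; exact contDiffAt_dN (hX _ hWne)
    have h2 : ContDiffAt ℝ 1 (fun w => W (β w)) w₀ := by
      have h3 : ContDiffAt ℝ 1 W (β w₀) := by rw [hβ0]; exact hWC
      exact h3.comp w₀ hβC
    exact h1.comp w₀ h2
  have hΞC : ContDiffAt ℝ 1 Ξ w₀ := by
    have h1 : ContDiffAt ℝ 1 (fun w : Y => ‖w‖ - dN (W (β w)) (c₀ w)) w₀ :=
      (hY _ hw₀ne).sub (hdNC.clm_apply c₀.contDiff.contDiffAt)
    have h2 : ContDiffAt ℝ 1 (fun w : Y => (‖w‖ - dN (W (β w)) (c₀ w)) / γ w) w₀ :=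
      h1.div γ.contDiff.contDiffAt (by rw [hγ0]; positivity)
    exact (h2.smul contDiffAt_const).add (hdNC.clm_comp contDiffAt_const)
  have hev : ∀ᶠ w in 𝓝 w₀, Ξ w = dN w := by
    have hevβ : ∀ᶠ w in 𝓝 w₀, β w ≠ 0 := by
      apply hβC.continuousAt.eventually_ne
      rw [hβ0]; exact hnx0
    have hevW : ∀ᶠ w in 𝓝 w₀, W (β w) ≠ 0 := by
      have h3 : ContinuousAt (fun w => W (β w)) w₀ := by
        have h4 : ContinuousAt W (β w₀) := by rw [hβ0]; exact hWC.continuousAt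
        exact ContinuousAt.comp (f := β) h4 hβC.continuousAt
      apply h3.eventually_ne
      rw [hβ0]; exact hWne
    have hevγ : ∀ᶠ w in 𝓝 w₀, γ w ≠ 0 := by
      apply γ.continuous.continuousAt.eventually_ne
      rw [hγ0]; positivity
    filter_upwards [hright, hevβ, hevW, hevγ, isOpen_ne.mem_nhds hw₀ne] with w hw1 hw2 hw3 hw4 hw5
    have hfo : ∀ h : X, dN x h = 0 → dN w (fderiv ℝ T x h) = dN (W (β w)) h := by
      intro h hh
      have hw1' : ‖β w‖ • T x - ‖x‖ • T (β w) = w := hw1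
      have h5 := hT.first_order (a := x) (b := β w) (h := h) hw2 (hXd x hx) (hXd _ hw3)
        (by rw [hw1']; exact hYd _ hw5) (hTd x hx) hh
      rw [hw1'] at h5
      exact h5
    have hgen : ∀ y : Y, dN w y = γ y * dN w (T x) + dN (W (β w)) (c₀ y) := by
      intro y
      have h7 := congrArg (dN w) (hdecomp y)
      rw [map_add, map_smul, smul_eq_mul, hfo _ (hc₀ker y)] at h7
      exact h7
    have hTxval : dN w (T x) = (‖w‖ - dN (W (β w)) (c₀ w)) / γ w := by
      have h6 : dN w w = ‖w‖ := dN_self (hYd _ hw5)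
      have h7 := hgen w
      rw [h6] at h7
      rw [h7]
      field_simp
      ring
    ext y
    rw [hgen y, hTxval]
    simp only [hΞ, _root_.add_apply, _root_.smul_apply, ContinuousLinearMap.comp_apply, smul_eq_mul]
    ring
  have hdNC1 : ContDiffAt ℝ 1 (dN : Y → Y →L[ℝ] ℝ) w₀ :=
    hΞC.congr_of_eventuallyEq (by filter_upwards [hev] with w hw; exact hw.symm)
  have hfinal := (contDiffAt_succ_iff_hasFDerivAt (𝕜 := ℝ) (f := fun z : Y => ‖z‖) (x := w₀)
    (n := 1)).mpr ⟨dN, ⟨{0}ᶜ, isOpen_compl_singleton.mem_nhds hw₀ne,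
      fun y hy => hasFDerivAt_norm (hYd y hy)⟩, by exact_mod_cast hdNC1⟩
  rw [← hW'0]
  exact_mod_cast hfinal

theorem target_C2 [FiniteDimensional ℝ X] [FiniteDimensional ℝ Y]
    (hT : SphereIso T) (hsurj : Function.Surjective T) (hfin : finrank ℝ X = finrank ℝ Y)
    (hX : ∀ x : X, x ≠ 0 → ContDiffAt ℝ 2 (fun z : X => ‖z‖) x)
    (hY : ∀ y : Y, y ≠ 0 → ContDiffAt ℝ 1 (fun z : Y => ‖z‖) y)
    (hTC : ∀ x : X, x ≠ 0 → ContDiffAt ℝ 1 T x)
    {y : Y} (hy : y ≠ 0) : ContDiffAt ℝ 2 (fun z : Y => ‖z‖) y := by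
  obtain ⟨x, rfl⟩ := hsurj y
  have hx : x ≠ 0 := by
    intro h0; apply hy; rw [h0, hT.map_zero]
  have h1 := hT.target_C2_aux hfin hX hY hTC hx
  exact h1.contDiffAt_norm_of_smul

end SphereIso

end Vale.Agent.P084
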