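import Mathlib
import Vale.Agent.Lib.P084.Global
import Vale.Agent.Lib.P084.Regular
import Vale.Agent.Lib.P084.Smooth1
import Vale.Agent.Lib.P084.Smooth2

open Filter Topology Module Metric

namespace Vale.Agent.P084

theorem main {X Y : Type*} [NormedAddCommGroup X] [NormedSpace ℝ X]
    [NormedAddCommGroup Y] [NormedSpace ℝ Y] [FiniteDimensional ℝ X] [StrictConvexSpace ℝ X]
    (hdim : 3 ≤ finrank ℝ X)
    (hC2 : ContDiffOn ℝ 2 (fun x : X => ‖x‖) {0}ᶜ)
    (f : sphere (0 : X) 1 → sphere (0 : Y) 1)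
    (hf : Isometry f) (hsurj : Function.Surjective f) :
    ∃ L : X ≃ₗᵢ[ℝ] Y, ∀ x : sphere (0 : X) 1, L x = f x := by
  have hXnt : Nontrivial X := Module.nontrivial_of_finrank_pos (R := ℝ) (by omega)
  have hYnt : Nontrivial Y := by
    obtain ⟨u, hu⟩ := (NormedSpace.sphere_nonempty (x := (0 : X)) (r := 1)).mpr zero_le_one
    refine ⟨⟨(f ⟨u, hu⟩ : Y), 0, ?_⟩⟩
    intro h0
    have h1 : ‖(f ⟨u, hu⟩ : Y)‖ = 1 := by simp
    rw [h0, norm_zero] at h1
    exact zero_ne_one h1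
  have hYsc : StrictConvexSpace ℝ Y := strictConvex_of_isometry f hf hsurj
  set T : X → Y := homExt f with hTdef
  have hT : SphereIso T := sphereIso_homExt f hf
  have hTs : Function.Surjective T := homExt_surjective f hsurj
  have hYfd : FiniteDimensional ℝ Y := hT.finiteDimensional hTs
  have hfin : finrank ℝ X = finrank ℝ Y := hT.finrank_eq hTs
  have hX2 : ∀ x : X, x ≠ 0 → ContDiffAt ℝ 2 (fun z : X => ‖z‖) x := fun x hx =>
    hC2.contDiffAt (isOpen_compl_singleton.mem_nhds hx)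
  have hX1 : ∀ x : X, x ≠ 0 → ContDiffAt ℝ 1 (fun z : X => ‖z‖) x := fun x hx =>
    (hX2 x hx).of_le (by norm_num)
  have hY1 : ∀ y : Y, y ≠ 0 → ContDiffAt ℝ 1 (fun z : Y => ‖z‖) y := fun y hy =>
    hT.target_C1 hTs hfin (fun x hx => (hX1 x hx).differentiableAt (by norm_num)) hy
  have hcont : Continuous T := hT.lipschitz.continuous
  have hT1 : ∀ x : X, x ≠ 0 → ContDiffAt ℝ 1 T x := fun x hx =>
    hT.contDiffAt hTs hcont le_rfl hX1 hY1 hx
  have hY2 : ∀ y : Y, y ≠ 0 → ContDiffAt ℝ 2 (fun z : Y => ‖z‖) y := fun y hy =>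
    hT.target_C2 hTs hfin hX2 hY1 hT1 hy
  have hT2 : ∀ x : X, x ≠ 0 → ContDiffAt ℝ 2 T x := fun x hx =>
    hT.contDiffAt hTs hcont (by norm_num) hX2 hY2 hx
  obtain ⟨L, hL⟩ := hT.exists_linear hX2 hY2 hT2 hfin hdim
  let Li : X →ₗᵢ[ℝ] Y := ⟨(L : X →ₗ[ℝ] Y), fun x => by
    have := hT.norm_map x
    rw [hL] at this
    exact this⟩
  have hLs : Function.Surjective Li := by
    intro y
    obtain ⟨x, hx⟩ := hTs y
    exact ⟨x, by rw [← hx, hL]; rfl⟩
  refine ⟨LinearIsometryEquiv.ofSurjective Li hLs, fun x => ?_⟩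
  have h1 : T (x : X) = f x := by
    have := homExt_smul_of_norm_one f zero_le_one x
    simpa using this
  rw [← h1, hL]
  rfl

end Vale.Agent.P084
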