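import Mathlib
import Vale.Agent.Lib.P084.Blow
import Vale.Agent.Lib.P084.Rigid

open Filter Topology Module Metric MeasureTheory Measure
open scoped NNReal ENNReal

namespace Vale.Agent.P084

variable {X Y : Type*} [NormedAddCommGroup X] [NormedSpace ℝ X] [NormedAddCommGroup Y]
  [NormedSpace ℝ Y] {T : X → Y} {U : Ultrafilter ℝ}

namespace SphereIso

/-- the descent property -/
theorem descent [StrictConvexSpace ℝ X] [FiniteDimensional ℝ X] [FiniteDimensional ℝ Y]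
    (hT : SphereIso T) (hsurj : Function.Surjective T)
    (hU : (U : Filter ℝ) ≤ 𝓝[>] (0 : ℝ)) {x : X}
    {p : X → ℝ} (hp : IsSlope U x p) {q : X → Y} (hq : IsBlow U T x q)
    {w₀ : Y} {L : X →ₗ[ℝ] Y} (hL : ∀ u, L u = q u - p u • w₀) (hLinj : Function.Injective L)
    {ψ₁ ψ₂ : X →L[ℝ] ℝ} (h1 : ‖ψ₁‖ ≤ 1) (h2 : ‖ψ₂‖ ≤ 1) (h3 : ψ₁ x = ‖x‖) (h4 : ψ₂ x = ‖x‖)
    {v : X} {σ : ℝ} (hσ : 0 < σ) (hv1 : ψ₁ v = σ) (hv2 : ψ₂ v = -σ)
    {b : X} (hb : Wv x b ≠ 0) : ∃ t : ℝ, 0 < t ∧ ‖T x - t • L (Wv x b)‖ < ‖x‖ := by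
  have hpos : ∀ᶠ t : ℝ in U, 0 < t := hU self_mem_nhdsWithin
  obtain ⟨p', hp'⟩ := exists_isSlope hU (T x)
  have hpq : ∀ u, p' (q u) = p u := fun u => hT.slope_blow hU hp hp' hq u
  set w : X := -Wv x b with hw
  have hpw : p w < 0 := hp.neg_of_Wv hU hb
  have hpc : Continuous p := hp.continuous hU
  -- zeros of the slope on the line
  set M : ℝ := (|ψ₁ w| + |ψ₂ w|) / σ with hM
  have hM0 : 0 ≤ M := by positivity
  have hMσ : M * σ = |ψ₁ w| + |ψ₂ w| := by rw [hM]; field_simp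
  have hright : 0 ≤ p (w + M • v) := by
    have e1 := hp.ge_support hU h1 h3 (w + M • v)
    rw [map_add, map_smul, hv1, smul_eq_mul, hMσ] at e1
    have := neg_abs_le (ψ₁ w)
    have := abs_nonneg (ψ₂ w)
    linarith
  have hleft : 0 ≤ p (w + (-M) • v) := by
    have e1 := hp.ge_support hU h2 h4 (w + (-M) • v)
    rw [map_add, map_smul, hv2, smul_eq_mul, neg_mul_neg, hMσ] at e1
    have := neg_abs_le (ψ₂ w)
    have := abs_nonneg (ψ₁ w)
    linarith
  have hgc : Continuous fun τ : ℝ => p (w + τ • v) := by fun_prop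
  have hg0 : p (w + (0 : ℝ) • v) ≤ 0 := by rw [zero_smul, add_zero]; exact hpw.le
  obtain ⟨τ₁, hτ₁, hz₁⟩ := intermediate_value_Icc (f := fun τ : ℝ => p (w + τ • v)) hM0
    hgc.continuousOn ⟨hg0, hright⟩
  obtain ⟨τ₂, hτ₂, hz₂⟩ := intermediate_value_Icc' (f := fun τ : ℝ => p (w + τ • v))
    (by linarith : -M ≤ 0) hgc.continuousOn ⟨hg0, hleft⟩
  simp only at hz₁ hz₂
  have hτ₁pos : 0 < τ₁ := by
    refine lt_of_le_of_ne hτ₁.1 ?_
    rintro rfl
    rw [zero_smul, add_zero] at hz₁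
    linarith
  have hτ₂neg : τ₂ < 0 := by
    refine lt_of_le_of_ne hτ₂.2 ?_
    rintro rfl
    rw [zero_smul, add_zero] at hz₂
    linarith
  have hL₁ : p' (L (w + τ₁ • v)) = 0 := by
    rw [hL, hz₁, zero_smul, sub_zero, hpq, hz₁]
  have hL₂ : p' (L (w + τ₂ • v)) = 0 := by
    rw [hL, hz₂, zero_smul, sub_zero, hpq, hz₂]
  set c : ℝ := -τ₂ / (τ₁ - τ₂) with hc
  have hden : 0 < τ₁ - τ₂ := by linarith
  have hc0 : 0 ≤ c := div_nonneg (by linarith) hden.le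
  have hc1 : c ≤ 1 := by rw [hc, div_le_one hden]; linarith
  have hcomb : c • (w + τ₁ • v) + (1 - c) • (w + τ₂ • v) = w := by
    have e1 : c * τ₁ + (1 - c) * τ₂ = 0 := by rw [hc]; field_simp; ring
    have e2 : c • (w + τ₁ • v) + (1 - c) • (w + τ₂ • v) = w + (c * τ₁ + (1 - c) * τ₂) • v := by
      module
    rw [e2, e1, zero_smul, add_zero]
  have hle : p' (L w) ≤ 0 := by
    have e1 := hp'.convex hU hc0 hc1 (L (w + τ₁ • v)) (L (w + τ₂ • v))
    rw [hL₁, hL₂, mul_zero, mul_zero, add_zero, ← map_smul, ← map_smul, ← map_add, hcomb] at e1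
    exact e1
  have hlt : p' (L w) < 0 := by
    refine lt_of_le_of_ne hle fun h0 => ?_
    obtain ⟨u, hu⟩ := hT.blow_surj hsurj hU hq (L w)
    have e1 : p u = 0 := by rw [← hpq, hu, h0]
    have e2 : L u = L w := by rw [hL u, e1, zero_smul, sub_zero, hu]
    have e3 : u = w := hLinj e2
    rw [e3] at e1
    linarith
  have hev : ∀ᶠ t : ℝ in U, t⁻¹ • (‖T x + t • L w‖ - ‖T x‖) < 0 :=
    (hp' (L w)).eventually (gt_mem_nhds hlt)
  obtain ⟨t, ht, htlt⟩ := (hpos.and hev).exists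
  refine ⟨t, ht, ?_⟩
  have e1 : ‖T x + t • L w‖ - ‖T x‖ < 0 := by
    rw [smul_eq_mul] at htlt
    by_contra hno
    push Not at hno
    have : 0 ≤ t⁻¹ * (‖T x + t • L w‖ - ‖T x‖) := mul_nonneg (by positivity) hno
    linarith
  have e2 : T x + t • L w = T x - t • L (Wv x b) := by
    rw [hw, _root_.map_neg, smul_neg, sub_eq_add_neg]
  rw [← e2, ← hT.norm_map x]
  linarith

/-- If the norm is not differentiable at some nonzero point then the map is linear. -/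
theorem linear_of_not_differentiable [StrictConvexSpace ℝ X] [StrictConvexSpace ℝ Y]
    [FiniteDimensional ℝ X] [FiniteDimensional ℝ Y]
    (hT : SphereIso T) (hsurj : Function.Surjective T) (hfin : finrank ℝ X = finrank ℝ Y)
    (hdim : 2 ≤ finrank ℝ X) {x₀ : X} (hx₀ : x₀ ≠ 0)
    (hnd : ¬ DifferentiableAt ℝ (fun z : X => ‖z‖) x₀) : ∃ L : X →L[ℝ] Y, ∀ x, T x = L x := by
  letI : MeasurableSpace X := borel X
  haveI : BorelSpace X := ⟨rfl⟩
  letI : MeasurableSpace Y := borel Y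
  haveI : BorelSpace Y := ⟨rfl⟩
  obtain ⟨ψ₁, ψ₂, h1, h2, h3, h4, hne⟩ := exists_two_supports hnd
  obtain ⟨v, σ, hσ, hv1, hv2⟩ := exists_support_dir hx₀ h3 h4 hne
  set U : Ultrafilter ℝ := Ultrafilter.of (𝓝[>] (0 : ℝ)) with hUdef
  have hU : (U : Filter ℝ) ≤ 𝓝[>] (0 : ℝ) := Ultrafilter.of_le _
  obtain ⟨p, hp⟩ := exists_isSlope hU x₀
  obtain ⟨q, hq⟩ := hT.exists_isBlow hU x₀
  set G : Set X := {b | Wv x₀ b ≠ 0 ∧ DifferentiableAt ℝ (fun z : X => ‖z‖) (Wv x₀ b) ∧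
      DifferentiableAt ℝ (fun z : Y => ‖z‖) (Wv (T x₀) (T b))} with hG
  have hGae : ∀ᵐ b ∂(vol X), b ∈ G := hT.ae_good hsurj hfin hdim hx₀
  have hGdense : Dense G := dense_of_ae hGae
  have hrel : ∀ b ∈ G, ∀ u, ‖b‖ * dN (Wv (T x₀) (T b)) (q u) = ‖b‖ * dN (Wv x₀ b) u
      + p u * (dN (Wv (T x₀) (T b)) (T b) - dN (Wv x₀ b) b) := by
    intro b hb u
    have e1 := hT.blow_relation hU hp hq hb.2.1 hb.2.2 u
    simp only [map_sub, map_smul, smul_eq_mul] at e1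
    linarith
  have hbpos : ∀ b ∈ G, 0 < ‖b‖ := fun b hb => norm_pos_iff.mpr (ne_zero_of_Wv_ne hb.1).2
  -- the vector `w₀`
  set s : ℝ := p v + p (-v) with hs
  have hspos : 0 < s := by
    have e1 := hp.ge_support hU h1 h3 v
    have e2 := hp.ge_support hU h2 h4 (-v)
    rw [hv1] at e1
    rw [_root_.map_neg, hv2] at e2
    rw [hs]; linarith
  set w₀ : Y := s⁻¹ • (q v + q (-v)) with hw₀
  have hw₀φ : ∀ b ∈ G, ‖b‖ * dN (Wv (T x₀) (T b)) w₀
      = dN (Wv (T x₀) (T b)) (T b) - dN (Wv x₀ b) b := by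
    intro b hb
    have e1 := hrel b hb v
    have e2 := hrel b hb (-v)
    rw [_root_.map_neg] at e2
    rw [hw₀, map_smul, map_add, smul_eq_mul]
    have e3 : ‖b‖ * (dN (Wv (T x₀) (T b)) (q v) + dN (Wv (T x₀) (T b)) (q (-v)))
        = s * (dN (Wv (T x₀) (T b)) (T b) - dN (Wv x₀ b) b) := by
      rw [hs]; linarith
    calc ‖b‖ * (s⁻¹ * (dN (Wv (T x₀) (T b)) (q v) + dN (Wv (T x₀) (T b)) (q (-v))))
        = s⁻¹ * (‖b‖ * (dN (Wv (T x₀) (T b)) (q v) + dN (Wv (T x₀) (T b)) (q (-v)))) := by ring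
      _ = _ := by rw [e3]; field_simp
  set Lf : X → Y := fun u => q u - p u • w₀ with hLf
  have hLφ : ∀ b ∈ G, ∀ u, dN (Wv (T x₀) (T b)) (Lf u) = dN (Wv x₀ b) u := by
    intro b hb u
    have e1 := hrel b hb u
    have e2 := hw₀φ b hb
    rw [← e2] at e1
    have e3 : ‖b‖ * dN (Wv (T x₀) (T b)) (Lf u) = ‖b‖ * dN (Wv x₀ b) u := by
      simp only [hLf, map_sub, map_smul, smul_eq_mul]
      linarith
    exact mul_left_cancel₀ (hbpos b hb).ne' e3
  have hsepY : ∀ y : Y, (∀ b ∈ G, dN (Wv (T x₀) (T b)) y = 0) → y = 0 := fun y hy =>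
    hT.separates hsurj hfin hx₀ hGae (fun b hb => hb.2.2) hy
  have hsepX : ∀ y : X, (∀ b ∈ G, dN (Wv x₀ b) y = 0) → y = 0 := fun y hy =>
    (id_iso (X := X)).separates (fun z => ⟨z, rfl⟩) rfl hx₀ hGae (fun b hb => hb.2.1) hy
  let L : X →ₗ[ℝ] Y :=
    { toFun := Lf
      map_add' := by
        intro u u'
        rw [← sub_eq_zero]
        apply hsepY
        intro b hb
        rw [map_sub, map_add, hLφ b hb, hLφ b hb, hLφ b hb, map_add, sub_self]
      map_smul' := by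
        intro c u
        rw [← sub_eq_zero]
        apply hsepY
        intro b hb
        rw [map_sub, hLφ b hb, map_smul, RingHom.id_apply, map_smul, hLφ b hb, sub_self] }
  have hLapp : ∀ u, L u = q u - p u • w₀ := fun u => rfl
  have hLφ' : ∀ b ∈ G, ∀ u, dN (Wv (T x₀) (T b)) (L u) = dN (Wv x₀ b) u := hLφ
  have hLinj : Function.Injective L := by
    rw [injective_iff_map_eq_zero]
    intro u hu
    apply hsepX
    intro b hb
    rw [← hLφ' b hb, hu, _root_.map_zero]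
  set Le : X ≃L[ℝ] Y := (L.linearEquivOfInjective hLinj hfin).toContinuousLinearEquiv with hLe
  have hLe' : ∀ u, Le u = L u := fun u => rfl
  refine ⟨(Le : X →L[ℝ] Y), hT.eq_linear_of_support hsurj hT.lipschitz.continuous Le hx₀ hGdense
    (fun b hb => hb.2.1) (fun b hb => hb.2.2) (fun b hb u => ?_) (fun b hb => ?_)⟩
  · rw [hLe', hLφ' b hb]
  · rw [hLe']
    exact hT.descent hsurj hU hp hq hLapp hLinj h1 h2 h3 h4 hσ hv1 hv2 hb

end SphereIso

end Vale.Agent.P084
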