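import Mathlib
import Vale.Agent.Lib.P084.Boot3
import Vale.Agent.Lib.P084.Global
import Vale.Agent.Lib.P084.NonSmooth
import Vale.Agent.Lib.P084.Smooth1

open Filter Topology Module Metric MeasureTheory Measure Asymptotics
open scoped NNReal ENNReal

namespace Vale.Agent.P084

theorem continuous_dN_of {V : Type*} [NormedAddCommGroup V] [NormedSpace ℝ V] {x₀ : V}
    (hx₀ : x₀ ≠ 0) (hX : ∀ x : V, x ≠ 0 → DifferentiableAt ℝ (fun z : V => ‖z‖) x)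
    (h : ContDiffAt ℝ 1 (dN : V → V →L[ℝ] ℝ) x₀) : ContDiffAt ℝ 2 (fun z : V => ‖z‖) x₀ := by
  have := (contDiffAt_succ_iff_hasFDerivAt (𝕜 := ℝ) (f := fun z : V => ‖z‖) (x := x₀)
    (n := 1)).mpr ⟨dN, ⟨{0}ᶜ, isOpen_compl_singleton.mem_nhds hx₀,
      fun y hy => hasFDerivAt_norm (hX y hy)⟩, by exact_mod_cast h⟩
  norm_num at this
  exact this

variable {X Y : Type*} [NormedAddCommGroup X] [NormedSpace ℝ X] [NormedAddCommGroup Y]
  [NormedSpace ℝ Y] {T : X → Y}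

namespace SphereIso

variable [MeasurableSpace X] [BorelSpace X] [MeasurableSpace Y] [BorelSpace Y]

/-- nondegenerate implies that the derivative of the norm is Lipschitz near the point -/
theorem lipAt_dN [StrictConvexSpace ℝ X] [StrictConvexSpace ℝ Y] [FiniteDimensional ℝ X]
    [FiniteDimensional ℝ Y] (hT : SphereIso T) (hsurj : Function.Surjective T)
    (hfin : finrank ℝ X = finrank ℝ Y)
    (hX1 : ∀ x : X, x ≠ 0 → ContDiffAt ℝ 1 (fun z : X => ‖z‖) x)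
    (hY1 : ∀ y : Y, y ≠ 0 → ContDiffAt ℝ 1 (fun z : Y => ‖z‖) y)
    (hT1 : ∀ x : X, x ≠ 0 → ContDiffAt ℝ 1 T x) {x₀ : X} (hx₀ : x₀ ≠ 0)
    (hnd : Nondeg T x₀) : LipAt (dN : X → X →L[ℝ] ℝ) x₀ := by
  obtain ⟨s, β, ρ, Θ, hP, hΘ1, hΘ2⟩ := hT.exists_rep hX1 hY1 hT1 hx₀ hnd
    (fun b₀ r => 0 < r ∧ (∀ a ∈ ball x₀ r, ∀ b ∈ ball b₀ r, Wv a b ≠ 0) ∧
      (∀ a ∈ ball x₀ r, IntegrableOn (fun b => dN (Wv a b)) (ball b₀ r) (vol X)) ∧
      (∀ a ∈ ball x₀ r, IntegrableOn (fun b => dN (Wv (T a) (T b))) (ball b₀ r) (vol X)) ∧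
      LipAt (avT (fun x : X => x) b₀ r) x₀ ∧ LipAt (avT T b₀ r) x₀) (by
      intro b₀ hb₀
      obtain ⟨r₁, hr₁, h1⟩ := hT.avT_lip hsurj hfin hY1 hb₀
      obtain ⟨r₂, hr₂, h2⟩ := (id_iso (X := X)).avT_lip (fun z => ⟨z, rfl⟩) rfl hX1 hb₀
      refine ⟨min r₁ r₂, lt_min hr₁ hr₂, fun r hr hrr => ?_⟩
      obtain ⟨p1, p2, p3⟩ := h1 r hr (hrr.trans_le (min_le_left _ _))
      obtain ⟨q1, q2, q3⟩ := h2 r hr (hrr.trans_le (min_le_right _ _))
      exact ⟨hr, p3, q2, p2, q1, p1⟩)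
    (fun b₀ r h => ⟨h.1, h.2.1, h.2.2.1, h.2.2.2.1, h.2.2.2.2.1.continuousAt,
      h.2.2.2.2.2.continuousAt⟩)
  have hcont : Continuous T := hT.lipschitz.continuous
  have hTl : LipAt T x₀ := lipAt_of_contDiffAt (hT1 x₀ hx₀)
  have hid : LipAt (fun a : X => a) x₀ := lipAt_of_contDiffAt contDiffAt_id
  have hm : LipAt (fun a => ((fun i => avT T (β i) (ρ i) a,
      fun i => avT (fun x : X => x) (β i) (ρ i) a, T a, a) :
      (s → Y →L[ℝ] ℝ) × (s → X →L[ℝ] ℝ) × Y × X)) x₀ := by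
    refine IsBigO.prod_left ?_ (IsBigO.prod_left ?_ (IsBigO.prod_left hTl hid))
    · exact isBigO_pi.mpr fun i => (hP i).2.2.2.2.2
    · exact isBigO_pi.mpr fun i => (hP i).2.2.2.2.1
  have h1 : LipAt (fun a : X => ‖a‖⁻¹ • (dN a : X →L[ℝ] ℝ)) x₀ :=
    (LipAt.comp (g := Θ) (f := fun a => ((fun i => avT T (β i) (ρ i) a,
      fun i => avT (fun x : X => x) (β i) (ρ i) a, T a, a) :
      (s → Y →L[ℝ] ℝ) × (s → X →L[ℝ] ℝ) × Y × X))
      (lipAt_of_contDiffAt hΘ1) hm hm.continuousAt).congr (hΘ2.mono fun a ha => ha.symm)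
  have h2 : LipAt (fun a : X => (a, ‖a‖⁻¹ • (dN a : X →L[ℝ] ℝ))) x₀ := IsBigO.prod_left hid h1
  have h3 : ContDiffAt ℝ 1 (fun p : X × (X →L[ℝ] ℝ) => ‖p.1‖ • p.2) (x₀, ‖x₀‖⁻¹ • dN x₀) := by
    have h4 : ContDiffAt ℝ 1 (fun p : X × (X →L[ℝ] ℝ) => ‖p.1‖) (x₀, ‖x₀‖⁻¹ • dN x₀) :=
      ContDiffAt.comp (f := Prod.fst) (g := fun z : X => ‖z‖) _ (hX1 x₀ hx₀) contDiffAt_fst
    exact h4.smul contDiffAt_snd
  refine (LipAt.comp (g := fun p : X × (X →L[ℝ] ℝ) => ‖p.1‖ • p.2)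
    (f := fun a : X => (a, ‖a‖⁻¹ • (dN a : X →L[ℝ] ℝ)))
    (lipAt_of_contDiffAt h3) h2 h2.continuousAt).congr ?_
  have h5 : ∀ᶠ a : X in 𝓝 x₀, a ≠ 0 := isOpen_compl_singleton.mem_nhds hx₀
  filter_upwards [h5] with a ha
  rw [smul_smul, mul_inv_cancel₀ (norm_ne_zero_iff.mpr ha), one_smul]

/-- if the derivatives of the norms are locally Lipschitz then the norm is `C²` -/
theorem contDiffAt_two [StrictConvexSpace ℝ X] [StrictConvexSpace ℝ Y] [FiniteDimensional ℝ X]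
    [FiniteDimensional ℝ Y] (hT : SphereIso T) (hsurj : Function.Surjective T)
    (hfin : finrank ℝ X = finrank ℝ Y)
    (hX1 : ∀ x : X, x ≠ 0 → ContDiffAt ℝ 1 (fun z : X => ‖z‖) x)
    (hY1 : ∀ y : Y, y ≠ 0 → ContDiffAt ℝ 1 (fun z : Y => ‖z‖) y)
    (hT1 : ∀ x : X, x ≠ 0 → ContDiffAt ℝ 1 T x)
    (hXl : ∀ x : X, x ≠ 0 → LipAt (dN : X → X →L[ℝ] ℝ) x)
    (hYl : ∀ y : Y, y ≠ 0 → LipAt (dN : Y → Y →L[ℝ] ℝ) y) {x₀ : X} (hx₀ : x₀ ≠ 0)
    (hnd : Nondeg T x₀) : ContDiffAt ℝ 2 (fun z : X => ‖z‖) x₀ := by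
  obtain ⟨s, β, ρ, Θ, hP, hΘ1, hΘ2⟩ := hT.exists_rep hX1 hY1 hT1 hx₀ hnd
    (fun b₀ r => 0 < r ∧ (∀ a ∈ ball x₀ r, ∀ b ∈ ball b₀ r, Wv a b ≠ 0) ∧
      (∀ a ∈ ball x₀ r, IntegrableOn (fun b => dN (Wv a b)) (ball b₀ r) (vol X)) ∧
      (∀ a ∈ ball x₀ r, IntegrableOn (fun b => dN (Wv (T a) (T b))) (ball b₀ r) (vol X)) ∧
      ContDiffAt ℝ 1 (avT (fun x : X => x) b₀ r) x₀ ∧ ContDiffAt ℝ 1 (avT T b₀ r) x₀) (by
      intro b₀ hb₀
      obtain ⟨r₁, hr₁, h1⟩ := hT.avT_lip hsurj hfin hY1 hb₀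
      obtain ⟨r₂, hr₂, h2⟩ := (id_iso (X := X)).avT_lip (fun z => ⟨z, rfl⟩) rfl hX1 hb₀
      obtain ⟨r₃, hr₃, h3⟩ := hT.avT_C1 hsurj hfin hX1 hT1 hYl hb₀
      obtain ⟨r₄, hr₄, h4⟩ := (id_iso (X := X)).avT_C1 (fun z => ⟨z, rfl⟩) rfl hX1
        (fun _ _ => contDiffAt_id) hXl hb₀
      refine ⟨min (min r₁ r₂) (min r₃ r₄), lt_min (lt_min hr₁ hr₂) (lt_min hr₃ hr₄),
        fun r hr hrr => ?_⟩
      have g1 : r < r₁ := hrr.trans_le ((min_le_left _ _).trans (min_le_left _ _))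
      have g2 : r < r₂ := hrr.trans_le ((min_le_left _ _).trans (min_le_right _ _))
      have g3 : r < r₃ := hrr.trans_le ((min_le_right _ _).trans (min_le_left _ _))
      have g4 : r < r₄ := hrr.trans_le ((min_le_right _ _).trans (min_le_right _ _))
      obtain ⟨p1, p2, p3⟩ := h1 r hr g1
      obtain ⟨q1, q2, q3⟩ := h2 r hr g2
      exact ⟨hr, p3, q2, p2, h4 r hr g4, h3 r hr g3⟩)
    (fun b₀ r h => ⟨h.1, h.2.1, h.2.2.1, h.2.2.2.1, h.2.2.2.2.1.continuousAt,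
      h.2.2.2.2.2.continuousAt⟩)
  have hm : ContDiffAt ℝ 1 (fun a => ((fun i => avT T (β i) (ρ i) a,
      fun i => avT (fun x : X => x) (β i) (ρ i) a, T a, a) :
      (s → Y →L[ℝ] ℝ) × (s → X →L[ℝ] ℝ) × Y × X)) x₀ := by
    refine ContDiffAt.prodMk ?_ (ContDiffAt.prodMk ?_ (ContDiffAt.prodMk (hT1 x₀ hx₀) contDiffAt_id))
    · exact contDiffAt_pi.mpr fun i => (hP i).2.2.2.2.2
    · exact contDiffAt_pi.mpr fun i => (hP i).2.2.2.2.1
  have h1 : ContDiffAt ℝ 1 (fun a : X => ‖a‖⁻¹ • (dN a : X →L[ℝ] ℝ)) x₀ :=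
    (ContDiffAt.comp x₀ hΘ1 hm).congr_of_eventuallyEq hΘ2
  have h2 : ContDiffAt ℝ 1 (dN : X → X →L[ℝ] ℝ) x₀ := by
    refine ((hX1 x₀ hx₀).smul h1).congr_of_eventuallyEq ?_
    have h5 : ∀ᶠ a : X in 𝓝 x₀, a ≠ 0 := isOpen_compl_singleton.mem_nhds hx₀
    filter_upwards [h5] with a ha
    show dN a = ‖a‖ • (‖a‖⁻¹ • dN a)
    rw [smul_smul, mul_inv_cancel₀ (norm_ne_zero_iff.mpr ha), one_smul]
  exact continuous_dN_of hx₀ (fun x hx => (hX1 x hx).differentiableAt (by norm_num)) h2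

end SphereIso

/-- Homogeneous maps isometric on spheres between strictly convex spaces are linear. -/
theorem SphereIso.linear_of_strictConvex [StrictConvexSpace ℝ X] [StrictConvexSpace ℝ Y]
    [FiniteDimensional ℝ X] [FiniteDimensional ℝ Y]
    (hT : SphereIso T) (hsurj : Function.Surjective T) (hdim : 3 ≤ finrank ℝ X) :
    ∃ L : X →L[ℝ] Y, ∀ x, T x = L x := by
  letI : MeasurableSpace X := borel X
  haveI : BorelSpace X := ⟨rfl⟩
  letI : MeasurableSpace Y := borel Y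
  haveI : BorelSpace Y := ⟨rfl⟩
  have hfin : finrank ℝ X = finrank ℝ Y := hT.finrank_eq hsurj
  by_contra hnl
  have hXd : ∀ x : X, x ≠ 0 → DifferentiableAt ℝ (fun z : X => ‖z‖) x := by
    intro x hx
    by_contra hd
    exact hnl (hT.linear_of_not_differentiable hsurj hfin (by omega) hx hd)
  have hX1 : ∀ x : X, x ≠ 0 → ContDiffAt ℝ 1 (fun z : X => ‖z‖) x := by
    intro x hx
    apply contDiffAt_one_of_unique _ hx
    intro y hy ψ₁ ψ₂ h1 h2 h3 h4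
    rw [support_eq_dN (hXd y hy) (apply_le_of_norm_le_one h1) h3,
      support_eq_dN (hXd y hy) (apply_le_of_norm_le_one h2) h4]
  have hY1 : ∀ y : Y, y ≠ 0 → ContDiffAt ℝ 1 (fun z : Y => ‖z‖) y := fun y hy =>
    hT.target_C1 hsurj hfin hXd hy
  have hYd : ∀ y : Y, y ≠ 0 → DifferentiableAt ℝ (fun z : Y => ‖z‖) y :=
    fun y hy => (hY1 y hy).differentiableAt (by norm_num)
  have hT1 : ∀ x : X, x ≠ 0 → ContDiffAt ℝ 1 T x := fun x hx =>
    hT.contDiffAt hsurj hT.lipschitz.continuous le_rfl hX1 hY1 hx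
  obtain ⟨S, hS, hST, hTS⟩ := hT.exists_inverse hsurj
  have hSs : Function.Surjective S := fun x => ⟨T x, hST x⟩
  have hS1 : ∀ y : Y, y ≠ 0 → ContDiffAt ℝ 1 S y := fun y hy =>
    hS.contDiffAt hSs hS.lipschitz.continuous le_rfl hY1 hX1 hy
  have hnlS : ¬ ∃ L : Y →L[ℝ] X, ∀ y, S y = L y := by
    rintro ⟨L, hL⟩
    apply hnl
    let T' : X →ₗ[ℝ] Y :=
      { toFun := T
        map_add' := by
          intro a b
          apply hS.injective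
          rw [hST, hL, map_add, ← hL, ← hL, hST, hST]
        map_smul' := by
          intro c a
          exact hT.smul c a }
    exact ⟨LinearMap.toContinuousLinearMap T', fun x => rfl⟩
  have hndX : ∀ x : X, x ≠ 0 → SphereIso.Nondeg T x := fun x hx =>
    hT.nondeg_or_linear hsurj hfin (by omega) hx hXd hYd
      ((hT1 x hx).differentiableAt (by norm_num)) hnl
  have hndY : ∀ y : Y, y ≠ 0 → SphereIso.Nondeg S y := fun y hy =>
    hS.nondeg_or_linear hSs hfin.symm (by omega) hy hYd hXd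
      ((hS1 y hy).differentiableAt (by norm_num)) hnlS
  have hXl : ∀ x : X, x ≠ 0 → LipAt (dN : X → X →L[ℝ] ℝ) x := fun x hx =>
    hT.lipAt_dN hsurj hfin hX1 hY1 hT1 hx (hndX x hx)
  have hYl : ∀ y : Y, y ≠ 0 → LipAt (dN : Y → Y →L[ℝ] ℝ) y := fun y hy =>
    hS.lipAt_dN hSs hfin.symm hY1 hX1 hS1 hy (hndY y hy)
  have hX2 : ∀ x : X, x ≠ 0 → ContDiffAt ℝ 2 (fun z : X => ‖z‖) x := fun x hx =>
    hT.contDiffAt_two hsurj hfin hX1 hY1 hT1 hXl hYl hx (hndX x hx)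
  have hY2 : ∀ y : Y, y ≠ 0 → ContDiffAt ℝ 2 (fun z : Y => ‖z‖) y := fun y hy =>
    hS.contDiffAt_two hSs hfin.symm hY1 hX1 hS1 hYl hXl hy (hndY y hy)
  have hT2 : ∀ x : X, x ≠ 0 → ContDiffAt ℝ 2 T x := fun x hx =>
    hT.contDiffAt hsurj hT.lipschitz.continuous (by norm_num) hX2 hY2 hx
  exact hnl (hT.exists_linear hX2 hY2 hT2 hfin hdim)

/-- Every strictly convex space of finite dimension at least three has the Mazur-Ulam property. -/
theorem main_strictConvex {X Y : Type*} [NormedAddCommGroup X] [NormedSpace ℝ X]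
    [NormedAddCommGroup Y] [NormedSpace ℝ Y] [FiniteDimensional ℝ X] [StrictConvexSpace ℝ X]
    (hdim : 3 ≤ finrank ℝ X)
    (f : sphere (0 : X) 1 → sphere (0 : Y) 1)
    (hf : Isometry f) (hsurj : Function.Surjective f) :
    ∃ L : X ≃ₗᵢ[ℝ] Y, ∀ x : sphere (0 : X) 1, L x = f x := by
  have hXnt : Nontrivial X := Module.nontrivial_of_finrank_pos (R := ℝ) (by omega)
  have hYnt : Nontrivial Y := by
    obtain ⟨u, hu⟩ := (NormedSpace.sphere_nonempty (x := (0 : X)) (r := 1)).mpr zero_le_one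
    refine ⟨⟨(f ⟨u, hu⟩ : Y), 0, ?_⟩⟩
    intro h0
    have h1 : ‖(f ⟨u, hu⟩ : Y)‖ = 1 := by simp
    rw [h0, norm_zero] at h1
    exact zero_ne_one h1
  have hYsc : StrictConvexSpace ℝ Y := strictConvex_of_isometry f hf hsurj
  set T : X → Y := homExt f with hTdef
  have hT : SphereIso T := sphereIso_homExt f hf
  have hTs : Function.Surjective T := homExt_surjective f hsurj
  have hYfd : FiniteDimensional ℝ Y := hT.finiteDimensional hTs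
  obtain ⟨L, hL⟩ := hT.linear_of_strictConvex hTs hdim
  let Li : X →ₗᵢ[ℝ] Y := ⟨(L : X →ₗ[ℝ] Y), fun x => by
    have := hT.norm_map x
    rw [hL] at this
    exact this⟩
  have hLs : Function.Surjective Li := by
    intro y
    obtain ⟨x, hx⟩ := hTs y
    exact ⟨x, by rw [← hx, hL]; rfl⟩
  refine ⟨LinearIsometryEquiv.ofSurjective Li hLs, fun x => ?_⟩
  have h1 : T (x : X) = f x := by
    have := homExt_smul_of_norm_one f zero_le_one x
    simpa using this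
  rw [← h1, hL]
  rfl

end Vale.Agent.P084
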